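import Mathlib

/-! R36 (helper259): generic points in a field of characteristic two through derivations, and the
2-basis independence lemma for the coefficients of `∏ (X + τ_j)`. -/

set_option autoImplicit false

namespace Crest.Agent.R36.Gen259

open Polynomial Finset

/-! ### Extension of derivations to the field of fractions -/

section Extend

variable {R : Type*} [CommRing R] (K : Type*) [Field K] [Algebra R K]

/-- the pair `(r, D r)` -/
def pr (D : Derivation ℤ R R) (r : R) : TrivSqZeroExt K K :=
  (algebraMap R K r, algebraMap R K (D r))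

theorem pr_fst (D : Derivation ℤ R R) (r : R) : (pr K D r).fst = algebraMap R K r := rfl
theorem pr_snd (D : Derivation ℤ R R) (r : R) : (pr K D r).snd = algebraMap R K (D r) := rfl

/-- the associated ring homomorphism -/
def prHom (D : Derivation ℤ R R) : R →+* TrivSqZeroExt K K where
  toFun := pr K D
  map_one' := by
    refine TrivSqZeroExt.ext ?_ ?_
    · rw [pr_fst, map_one, TrivSqZeroExt.fst_one]
    · rw [pr_snd, D.map_one_eq_zero, map_zero, TrivSqZeroExt.snd_one]
  map_mul' := by
    intro x y
    refine TrivSqZeroExt.ext ?_ ?_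
    · rw [pr_fst, TrivSqZeroExt.fst_mul, pr_fst, pr_fst, map_mul]
    · rw [pr_snd, TrivSqZeroExt.snd_mul, pr_fst, pr_fst, pr_snd, pr_snd, D.leibniz, map_add,
        smul_eq_mul, smul_eq_mul, map_mul, map_mul, smul_eq_mul, MulOpposite.smul_eq_mul_unop,
        MulOpposite.unop_op]
      ring
  map_zero' := by
    refine TrivSqZeroExt.ext ?_ ?_
    · rw [pr_fst, map_zero, TrivSqZeroExt.fst_zero]
    · rw [pr_snd, map_zero, map_zero, TrivSqZeroExt.snd_zero]
  map_add' := by
    intro x y
    refine TrivSqZeroExt.ext ?_ ?_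
    · rw [pr_fst, TrivSqZeroExt.fst_add, pr_fst, pr_fst, map_add]
    · rw [pr_snd, TrivSqZeroExt.snd_add, pr_snd, pr_snd, map_add, map_add]

theorem prHom_apply (D : Derivation ℤ R R) (r : R) : prHom K D r = pr K D r := rfl

theorem exists_derivation_extend [IsDomain R] [IsFractionRing R K] (D : Derivation ℤ R R) :
    ∃ D' : Derivation ℤ K K, ∀ r : R, D' (algebraMap R K r) = algebraMap R K (D r) := by
  classical
  have hu : ∀ y : nonZeroDivisors R, IsUnit (prHom K D y) := by
    intro y
    rw [TrivSqZeroExt.isUnit_iff_isUnit_fst, prHom_apply, pr_fst]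
    exact IsLocalization.map_units K y
  let ψ : K →+* TrivSqZeroExt K K := IsLocalization.lift hu
  have hψ : ∀ r, ψ (algebraMap R K r) = pr K D r := fun r => IsLocalization.lift_eq hu r
  have hfst : ∀ x, (ψ x).fst = x := by
    have h1 : ((TrivSqZeroExt.fstHom K K K).toRingHom.comp ψ) = RingHom.id K := by
      apply IsLocalization.ringHom_ext (nonZeroDivisors R)
      ext r
      change (ψ (algebraMap R K r)).fst = algebraMap R K r
      rw [hψ, pr_fst]
    intro x
    exact congrArg (fun f => f x) h1
  let d : K →ₗ[ℤ] K :=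
    { toFun := fun x => (ψ x).snd
      map_add' := by intro x y; rw [map_add, TrivSqZeroExt.snd_add]
      map_smul' := by
        intro c x
        rw [map_zsmul, TrivSqZeroExt.snd_smul]
        rfl }
  refine ⟨Derivation.mk' d ?_, ?_⟩
  · intro a b
    change (ψ (a * b)).snd = a • (ψ b).snd + b • (ψ a).snd
    rw [map_mul, TrivSqZeroExt.snd_mul, hfst, hfst, MulOpposite.smul_eq_mul_unop,
        MulOpposite.unop_op, smul_eq_mul, smul_eq_mul, mul_comm b]
  · intro r
    change (ψ (algebraMap R K r)).snd = _
    rw [hψ, pr_snd]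

end Extend

/-! ### Generic families -/

/-- A family of elements of a field is generic if there are derivations dual to it. -/
def Gen {K : Type*} [Field K] {ι : Type*} (τ : ι → K) : Prop :=
  ∃ D : ι → Derivation ℤ K K, (∀ i, D i (τ i) = 1) ∧ ∀ i j, i ≠ j → D i (τ j) = 0

theorem Gen.comp {K : Type*} [Field K] {ι κ : Type*} {τ : ι → K} (h : Gen τ) {f : κ → ι}
    (hf : Function.Injective f) : Gen (τ ∘ f) := by
  obtain ⟨D, h1, h2⟩ := h
  exact ⟨D ∘ f, fun i => h1 (f i), fun i j hij => h2 (f i) (f j) (fun h => hij (hf h))⟩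


theorem Gen.injective {K : Type*} [Field K] {ι : Type*} {τ : ι → K} (h : Gen τ) :
    Function.Injective τ := by
  obtain ⟨D, h1, h2⟩ := h
  intro i j hij
  by_contra hne
  have h3 := h2 i j hne
  rw [← hij, h1] at h3
  exact one_ne_zero h3

theorem gen_of_fraction (N : ℕ) (K : Type) [Field K]
    [Algebra (MvPolynomial (Fin (N + 1)) (ZMod 2)) K]
    [IsFractionRing (MvPolynomial (Fin (N + 1)) (ZMod 2)) K] :
    Gen (fun i : Fin N => algebraMap (MvPolynomial (Fin (N + 1)) (ZMod 2)) K
      (MvPolynomial.X i.castSucc)) := by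
  have hD : ∀ i : Fin (N + 1), ∃ D' : Derivation ℤ K K,
      ∀ r : MvPolynomial (Fin (N + 1)) (ZMod 2), D' (algebraMap _ K r) =
      algebraMap _ K ((MvPolynomial.pderiv i : Derivation (ZMod 2) _ _).restrictScalars ℤ r) :=
    fun i => exists_derivation_extend K _
  choose D hD using hD
  refine ⟨fun i => D i.castSucc, ?_, ?_⟩
  · intro i
    rw [hD, Derivation.restrictScalars_apply, MvPolynomial.pderiv_X_self, map_one]
  · intro i j hij
    rw [hD, Derivation.restrictScalars_apply, MvPolynomial.pderiv_X_of_ne, map_zero]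
    intro h
    exact hij (Fin.castSucc_injective N h).symm

theorem exists_gen (N : ℕ) : ∃ (K : Type) (_ : Field K) (_ : CharP K 2) (_ : Infinite K)
    (τ : Fin N → K), Gen τ :=
  ⟨FractionRing (MvPolynomial (Fin (N + 1)) (ZMod 2)), inferInstance,
    IsFractionRing.charP_of_isFractionRing (MvPolynomial (Fin (N + 1)) (ZMod 2)) 2,
    Infinite.of_injective (algebraMap (MvPolynomial (Fin (N + 1)) (ZMod 2)) _)
      (IsFractionRing.injective _ _), _, gen_of_fraction N _⟩

/-- The form used by the consumers (interface of helper810 / helper635). -/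
theorem exists_field (N : ℕ) : ∃ (K : Type) (_ : Field K) (_ : CharP K 2) (_ : Infinite K)
    (t : Fin N → K) (D : Fin N → Derivation ℤ K K),
      ∀ i j, D i (t j) = if i = j then 1 else 0 := by
  obtain ⟨K, h1, h2, h3, t, D, hD1, hD2⟩ := exists_gen N
  refine ⟨K, h1, h2, h3, t, D, fun i j => ?_⟩
  split_ifs with h
  · rw [h, hD1]
  · exact hD2 i j h




end Crest.Agent.R36.Gen259
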