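import Mathlib
import Crest.Agent.R036.Sweep
import Crest.Prelude.Def_TopDrawing

-- ▼ part R036/Index
section

/-! R036 (helper514): homotopy invariance of the boundary winding and the degree of a local
homeomorphism of the plane. -/

set_option autoImplicit false
open Set Topology Filter

namespace Crest.Agent.R036.Sweep

/-- Homotopy rule for swept angles. -/
theorem sweep_homotopy {F : ℝ → ℝ → ℂ} {a b : ℝ} (hab : a ≤ b)
    (hF : ContinuousOn (fun p : ℝ × ℝ => F p.2 p.1) (Icc a b ×ˢ Icc 0 1))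
    (h0 : ∀ l ∈ Icc (0 : ℝ) 1, ∀ s ∈ Icc a b, F l s ≠ 0) :
    sweep (F 0) a b - sweep (F 1) a b =
      sweep (fun l => F l a) 0 1 - sweep (fun l => F l b) 0 1 := by
  have h := wb_eq_zero (F := fun p : ℝ × ℝ => F p.2 p.1) hab zero_le_one hF
    (fun x hx => h0 x.2 hx.2 x.1 hx.1)
  unfold wb at h
  simp only at h
  linarith

/-- Homotopy invariance of the boundary winding. -/
theorem wb_homotopy {F : ℝ → ℝ × ℝ → ℂ} {a b c d : ℝ} (hab : a ≤ b) (hcd : c ≤ d)
    (hF : ContinuousOn (fun q : ℝ × (ℝ × ℝ) => F q.1 q.2) (Icc 0 1 ×ˢ (Icc a b ×ˢ Icc c d)))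
    (h0 : ∀ l ∈ Icc (0 : ℝ) 1, ∀ p ∈ Icc a b ×ˢ Icc c d,
      (p.1 = a ∨ p.1 = b ∨ p.2 = c ∨ p.2 = d) → F l p ≠ 0) :
    wb (F 0) a b c d = wb (F 1) a b c d := by
  have hor : ∀ t ∈ Icc c d, (t = c ∨ t = d) →
      sweep (fun s => F 0 (s, t)) a b - sweep (fun s => F 1 (s, t)) a b =
      sweep (fun l => F l (a, t)) 0 1 - sweep (fun l => F l (b, t)) 0 1 := by
    intro t ht htt
    refine sweep_homotopy (F := fun l s => F l (s, t)) hab ?_ ?_
    · refine hF.comp (f := fun p : ℝ × ℝ => (p.2, (p.1, t))) (by fun_prop) ?_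
      rintro ⟨s, l⟩ ⟨hs, hl⟩
      exact ⟨hl, hs, ht⟩
    · intro l hl s hs
      exact h0 l hl (s, t) ⟨hs, ht⟩ (by tauto)
  have ver : ∀ s ∈ Icc a b, (s = a ∨ s = b) →
      sweep (fun t => F 0 (s, t)) c d - sweep (fun t => F 1 (s, t)) c d =
      sweep (fun l => F l (s, c)) 0 1 - sweep (fun l => F l (s, d)) 0 1 := by
    intro s hs hss
    refine sweep_homotopy (F := fun l t => F l (s, t)) hcd ?_ ?_
    · refine hF.comp (f := fun p : ℝ × ℝ => (p.2, (s, p.1))) (by fun_prop) ?_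
      rintro ⟨t, l⟩ ⟨ht, hl⟩
      exact ⟨hl, hs, ht⟩
    · intro l hl t ht
      exact h0 l hl (s, t) ⟨hs, ht⟩ (by tauto)
  have e1 := hor c (left_mem_Icc.2 hcd) (Or.inl rfl)
  have e2 := hor d (right_mem_Icc.2 hcd) (Or.inr rfl)
  have e3 := ver a (left_mem_Icc.2 hab) (Or.inl rfl)
  have e4 := ver b (right_mem_Icc.2 hab) (Or.inr rfl)
  unfold wb
  linarith

/-- Clamp a real number into `[r₁, r₀]`. -/
noncomputable def clampR (r₁ r₀ x : ℝ) : ℝ := max r₁ (min r₀ x)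

theorem clampR_mem {r₁ r₀ : ℝ} (h : r₁ ≤ r₀) (x : ℝ) : clampR r₁ r₀ x ∈ Icc r₁ r₀ := by
  unfold clampR
  exact ⟨le_max_left _ _, max_le h (min_le_left _ _)⟩

theorem clampR_of_mem {r₁ r₀ x : ℝ} (h : x ∈ Icc r₁ r₀) : clampR r₁ r₀ x = x := by
  unfold clampR
  rw [min_eq_right h.2, max_eq_right h.1]

theorem continuous_clampR {r₁ r₀ : ℝ} : Continuous (clampR r₁ r₀) := by
  unfold clampR
  fun_prop

/-- Structure of the swept angles of `ψ ∘ δ - ψ 0` for curves `δ` in an annulus. -/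
theorem exists_degree {ψ : ℂ → ℂ} {r₁ r₀ : ℝ} (hr₁ : 0 < r₁) (hr : r₁ ≤ r₀)
    (hψ : ContinuousOn ψ (Metric.closedBall 0 r₀)) (hinj : InjOn ψ (Metric.closedBall 0 r₀)) :
    ∃ (k : ℤ) (Λ : ℂ → ℝ), ∀ (δ : ℝ → ℂ) (a b : ℝ), a ≤ b → ContinuousOn δ (Icc a b) →
      (∀ t ∈ Icc a b, ‖δ t‖ ∈ Icc r₁ r₀) →
      sweep (fun t => ψ (δ t) - ψ 0) a b = Λ (δ b) - Λ (δ a) + k * sweep δ a b := by
  have hr₀ : 0 < r₀ := hr₁.trans_le hr
  have h0mem : (0 : ℂ) ∈ Metric.closedBall (0 : ℂ) r₀ := by simp [hr₀.le]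
  let Z : ℝ × ℝ → ℂ := fun p => (clampR r₁ r₀ p.1 : ℂ) * Complex.exp (p.2 * Complex.I)
  have hZn : ∀ p, ‖Z p‖ = clampR r₁ r₀ p.1 := by
    intro p
    have : 0 ≤ clampR r₁ r₀ p.1 := hr₁.le.trans (clampR_mem hr p.1).1
    simp only [Z, norm_mul, Complex.norm_exp_ofReal_mul_I, mul_one, Complex.norm_real,
      Real.norm_eq_abs, abs_of_nonneg this]
  have hZm : ∀ p, Z p ∈ Metric.closedBall (0 : ℂ) r₀ := by
    intro p
    rw [mem_closedBall_zero_iff, hZn]
    exact (clampR_mem hr p.1).2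
  have hZ0 : ∀ p, Z p ≠ 0 := by
    intro p h
    have h1 := hZn p
    rw [h, norm_zero] at h1
    have := (clampR_mem hr p.1).1
    linarith
  have hZc : Continuous Z := by
    have := continuous_clampR (r₁ := r₁) (r₀ := r₀)
    fun_prop
  have hFc : Continuous fun p => ψ (Z p) - ψ 0 := (hψ.comp_continuous hZc hZm).sub continuous_const
  have hF0 : ∀ p, ψ (Z p) - ψ 0 ≠ 0 := by
    intro p h
    rw [sub_eq_zero] at h
    exact hZ0 p (hinj (hZm p) h0mem h)
  obtain ⟨Θ, hΘc, hΘ⟩ := exists_arg (fun p : ℝ × ℝ => ψ (Z p) - ψ 0) hFc hF0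
  -- periodicity
  have hper : ∀ (p : ℝ × ℝ) (n : ℤ), Z (p.1, p.2 + 2 * Real.pi * n) = Z p := by
    intro p n
    simp only [Z]
    congr 1
    rw [Complex.exp_eq_exp_iff_exists_int]
    refine ⟨n, ?_⟩
    push_cast
    ring
  have hdiff : ∀ p : ℝ × ℝ, ∃ k : ℤ, Θ (p.1, p.2 + 2 * Real.pi) - Θ p = 2 * Real.pi * k := by
    intro p
    have e : Z (p.1, p.2 + 2 * Real.pi) = Z p := by
      have := hper p 1
      simpa using this
    refine arg_diff_int (F := fun p : ℝ × ℝ => ψ (Z p) - ψ 0)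
      (θ := fun p => Θ (p.1, p.2 + 2 * Real.pi)) (θ' := Θ) (hF0 p) ?_ (hΘ p)
    have h1 := hΘ (p.1, p.2 + 2 * Real.pi)
    rw [e] at h1
    exact h1
  obtain ⟨k, hk⟩ := hdiff (0, 0)
  have hstep : ∀ p : ℝ × ℝ, Θ (p.1, p.2 + 2 * Real.pi) = Θ p + 2 * Real.pi * k := by
    intro p
    have hc : Continuous fun p : ℝ × ℝ => Θ (p.1, p.2 + 2 * Real.pi) - Θ p :=
      (hΘc.comp (by fun_prop)).sub hΘc
    have := const_of_int (s := (univ : Set (ℝ × ℝ))) isPreconnected_univ hc.continuousOn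
      (fun x _ => hdiff x) (mem_univ p) (mem_univ (0, 0))
    rw [hk] at this
    linarith
  have hint : ∀ (n : ℤ) (x y : ℝ), Θ (x, y + 2 * Real.pi * n) = Θ (x, y) + 2 * Real.pi * k * n := by
    have hnat : ∀ (n : ℕ) (x y : ℝ), Θ (x, y + 2 * Real.pi * n) = Θ (x, y) + 2 * Real.pi * k * n := by
      intro n
      induction n with
      | zero => intro x y; simp
      | succ n ih =>
        intro x y
        have h1 := hstep (x, y + 2 * Real.pi * n)
        simp only at h1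
        have h2 : y + 2 * Real.pi * ((n + 1 : ℕ) : ℝ) = y + 2 * Real.pi * n + 2 * Real.pi := by
          push_cast; ring
        rw [h2, h1, ih x y]
        push_cast; ring
    intro n x y
    obtain ⟨m, rfl | rfl⟩ := n.eq_nat_or_neg
    · exact_mod_cast hnat m x y
    · have := hnat m x (y + 2 * Real.pi * ((-(m : ℤ) : ℤ) : ℝ))
      have h2 : y + 2 * Real.pi * ((-(m : ℤ) : ℤ) : ℝ) + 2 * Real.pi * m = y := by push_cast; ring
      rw [h2] at this
      push_cast at this ⊢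
      linarith
  refine ⟨k, fun z => Θ (‖z‖, Complex.arg z) - k * Complex.arg z, ?_⟩
  intro δ a b hab hδ hδm
  have hδ0 : ∀ t ∈ Icc a b, δ t ≠ 0 := by
    intro t ht h
    have := (hδm t ht).1
    rw [h, norm_zero] at this
    linarith
  obtain ⟨η, hηc, hη⟩ := exists_argOn_Icc hab hδ hδ0
  have hZδ : ∀ t ∈ Icc a b, Z (‖δ t‖, η t) = δ t := by
    intro t ht
    simp only [Z]
    rw [clampR_of_mem (hδm t ht)]
    exact (hη.2 t ht).symm
  have hlift : ArgOn (fun t => ψ (δ t) - ψ 0) (fun t => Θ (‖δ t‖, η t)) (Icc a b) := by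
    refine ⟨?_, ?_⟩
    · exact hΘc.comp_continuousOn (hδ.norm.prodMk hη.1)
    · intro t ht
      have := hΘ (‖δ t‖, η t)
      rw [hZδ t ht] at this
      exact this
  have hne : ∀ t ∈ Icc a b, ψ (δ t) - ψ 0 ≠ 0 := by
    intro t ht
    have := hF0 (‖δ t‖, η t)
    rwa [hZδ t ht] at this
  rw [sweep_eq hab hne hlift, sweep_eq hab hδ0 hη]
  -- replace η by arg
  have key : ∀ t ∈ Icc a b, Θ (‖δ t‖, η t) =
      Θ (‖δ t‖, Complex.arg (δ t)) - k * Complex.arg (δ t) + k * η t := by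
    intro t ht
    obtain ⟨n, hn⟩ := arg_diff_int (F := δ) (θ := η) (θ' := fun x => Complex.arg (δ x))
      (hδ0 t ht) (hη.2 t ht) (Complex.norm_mul_exp_arg_mul_I (δ t)).symm
    have e : η t = Complex.arg (δ t) + 2 * Real.pi * n := by linarith
    rw [e, hint n]
    ring
  rw [key a (left_mem_Icc.2 hab), key b (right_mem_Icc.2 hab)]
  ring

/-- The degree of a plane homeomorphism is `± 1`: boundary windings are preserved up to sign. -/
theorem abs_wb_homeo {ψ : ℂ → ℂ} {φ : ℂ → ℂ} {r₀ ε₀ : ℝ} (hr₀ : 0 < r₀) (hε₀ : 0 < ε₀)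
    (hψ : ContinuousOn ψ (Metric.closedBall 0 r₀)) (hinj : InjOn ψ (Metric.closedBall 0 r₀))
    (hφ : ContinuousOn φ (Metric.ball (ψ 0) ε₀))
    (hφψ : ∀ w ∈ Metric.ball (ψ 0) ε₀, ψ (φ w) = w) (hφ0 : φ (ψ 0) = 0)
    {β : ℝ × ℝ → ℂ} {a b c d : ℝ} (hab : a ≤ b) (hcd : c ≤ d)
    (hβ : ContinuousOn β (Icc a b ×ˢ Icc c d)) (hβr : ∀ p ∈ Icc a b ×ˢ Icc c d, ‖β p‖ ≤ r₀)
    (hβ0 : ∀ p ∈ Icc a b ×ˢ Icc c d, (p.1 = a ∨ p.1 = b ∨ p.2 = c ∨ p.2 = d) → β p ≠ 0) :
    |wb (fun p => ψ (β p) - ψ 0) a b c d| = |wb β a b c d| := by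
  -- a small circle around `ψ 0`
  have hφc0 : ContinuousAt φ (ψ 0) :=
    (hφ (ψ 0) (Metric.mem_ball_self hε₀)).continuousAt (Metric.ball_mem_nhds _ hε₀)
  obtain ⟨ε₁, hε₁, hε₁'⟩ := Metric.continuousAt_iff.1 hφc0 r₀ hr₀
  let ε : ℝ := min (ε₀ / 2) (ε₁ / 2)
  have hε : 0 < ε := by positivity
  have hεε₀ : ε < ε₀ := lt_of_le_of_lt (min_le_left _ _) (by linarith)
  have hεε₁ : ε < ε₁ := lt_of_le_of_lt (min_le_right _ _) (by linarith)
  let cc : ℝ → ℂ := fun t => ψ 0 + ε * Complex.exp (t * Complex.I)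
  have hccn : ∀ t, ‖cc t - ψ 0‖ = ε := by
    intro t
    simp [cc, abs_of_pos hε, Complex.norm_exp_ofReal_mul_I]
  have hccm : ∀ t, cc t ∈ Metric.ball (ψ 0) ε₀ := by
    intro t
    rw [Metric.mem_ball, dist_eq_norm, hccn]; exact hεε₀
  have hccc : Continuous cc := by
    simp only [cc]; fun_prop
  let γ : ℝ → ℂ := fun t => φ (cc t)
  have hγc : Continuous γ := hφ.comp_continuous hccc hccm
  have hψγ : ∀ t, ψ (γ t) = cc t := fun t => hφψ _ (hccm t)
  have hγ0 : ∀ t, γ t ≠ 0 := by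
    intro t h
    have h1 := hψγ t
    rw [h] at h1
    have h2 := hccn t
    rw [← h1, sub_self, norm_zero] at h2
    linarith
  have hγr : ∀ t, ‖γ t‖ ≤ r₀ := by
    intro t
    have : dist (φ (cc t)) (φ (ψ 0)) < r₀ := by
      apply hε₁'
      rw [dist_eq_norm, hccn]; exact hεε₁
    rw [hφ0, dist_zero_right] at this
    exact this.le
  -- lower bounds
  obtain ⟨t₀, -, ht₀⟩ := isCompact_Icc.exists_isMinOn (s := Icc (0 : ℝ) (2 * Real.pi))
    ⟨0, by constructor <;> positivity⟩ hγc.norm.continuousOn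
  let R : Set (ℝ × ℝ) := (Icc a b ×ˢ Icc c d) ∩ {p | p.1 = a ∨ p.1 = b ∨ p.2 = c ∨ p.2 = d}
  have hRc : IsCompact R := by
    refine (isCompact_Icc.prod isCompact_Icc).inter_right ?_
    have e : {p : ℝ × ℝ | p.1 = a ∨ p.1 = b ∨ p.2 = c ∨ p.2 = d} =
        {p | p.1 = a} ∪ ({p | p.1 = b} ∪ ({p | p.2 = c} ∪ {p | p.2 = d})) := by
      ext p; simp
    rw [e]
    refine IsClosed.union (isClosed_eq continuous_fst continuous_const) (IsClosed.union
      (isClosed_eq continuous_fst continuous_const) (IsClosed.union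
      (isClosed_eq continuous_snd continuous_const) (isClosed_eq continuous_snd continuous_const)))
  obtain ⟨p₀, hp₀, hp₀'⟩ := hRc.exists_isMinOn
    ⟨(a, c), ⟨⟨left_mem_Icc.2 hab, left_mem_Icc.2 hcd⟩, Or.inl rfl⟩⟩
    (hβ.norm.mono (inter_subset_left : R ⊆ _))
  let r₁ : ℝ := min ‖γ t₀‖ ‖β p₀‖
  have hr₁ : 0 < r₁ := lt_min (norm_pos_iff.2 (hγ0 _)) (norm_pos_iff.2 (hβ0 p₀ hp₀.1 hp₀.2))
  have hr : r₁ ≤ r₀ := (min_le_left _ _).trans (hγr _)
  obtain ⟨k, Λ, H⟩ := exists_degree hr₁ hr hψ hinj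
  have h2pi : (0 : ℝ) ≤ 2 * Real.pi := by positivity
  -- the circle
  have hcirc := H γ 0 (2 * Real.pi) h2pi hγc.continuousOn (fun t ht => ⟨?_, hγr t⟩)
  swap
  · exact (min_le_left _ _).trans (ht₀ ht)
  have hend : γ (2 * Real.pi) = γ 0 := by
    simp only [γ, cc]
    congr 3
    push_cast
    rw [Complex.exp_two_pi_mul_I]
    simp
  have hsw1 : sweep (fun t => ψ (γ t) - ψ 0) 0 (2 * Real.pi) = 2 * Real.pi := by
    have hA : ArgOn (fun t => ψ (γ t) - ψ 0) (fun t => t) (Icc 0 (2 * Real.pi)) := by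
      refine ⟨continuousOn_id, fun t _ => ?_⟩
      show ψ (γ t) - ψ 0 = ‖ψ (γ t) - ψ 0‖ * Complex.exp (t * Complex.I)
      rw [hψγ, hccn]
      simp [cc]
    rw [sweep_eq h2pi (fun t _ => ?_) hA]
    · ring
    · rw [hψγ]
      intro h
      have := hccn t
      rw [h, norm_zero] at this
      linarith
  obtain ⟨j, hj⟩ := sweep_mod (F := γ) h2pi hγc.continuousOn (fun t _ => hγ0 t)
  rw [hend] at hj
  have hj' : sweep γ 0 (2 * Real.pi) = 2 * Real.pi * j := by rw [hj]; ring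
  rw [hsw1, hend, hj'] at hcirc
  have hkj : k * j = 1 := by
    have h3 : (2 * Real.pi) * 1 = (2 * Real.pi) * ((k : ℝ) * j) := by linarith
    have h4 := mul_left_cancel₀ (by positivity : (2 * Real.pi) ≠ 0) h3
    exact_mod_cast h4.symm
  have hk : |(k : ℝ)| = 1 := by
    have : |k| = 1 := Int.isUnit_iff_abs_eq.1 (IsUnit.of_mul_eq_one j hkj)
    exact_mod_cast this
  -- the four sides
  have hb1 : ∀ p ∈ Icc a b ×ˢ Icc c d, (p.1 = a ∨ p.1 = b ∨ p.2 = c ∨ p.2 = d) →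
      ‖β p‖ ∈ Icc r₁ r₀ := fun p hp hpp => ⟨(min_le_right _ _).trans (hp₀' ⟨hp, hpp⟩), hβr p hp⟩
  have hor : ∀ t ∈ Icc c d, (t = c ∨ t = d) → sweep (fun s => ψ (β (s, t)) - ψ 0) a b =
      Λ (β (b, t)) - Λ (β (a, t)) + k * sweep (fun s => β (s, t)) a b := by
    intro t ht htt
    refine H (fun s => β (s, t)) a b hab (hβ.comp (by fun_prop) fun s hs => ⟨hs, ht⟩) ?_
    intro s hs
    exact hb1 (s, t) ⟨hs, ht⟩ (by tauto)
  have ver : ∀ s ∈ Icc a b, (s = a ∨ s = b) → sweep (fun t => ψ (β (s, t)) - ψ 0) c d =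
      Λ (β (s, d)) - Λ (β (s, c)) + k * sweep (fun t => β (s, t)) c d := by
    intro s hs hss
    refine H (fun t => β (s, t)) c d hcd (hβ.comp (by fun_prop) fun t ht => ⟨hs, ht⟩) ?_
    intro t ht
    exact hb1 (s, t) ⟨hs, ht⟩ (by tauto)
  have hwb : wb (fun p => ψ (β p) - ψ 0) a b c d = k * wb β a b c d := by
    unfold wb
    rw [hor c (left_mem_Icc.2 hcd) (Or.inl rfl), hor d (right_mem_Icc.2 hcd) (Or.inr rfl),
      ver a (left_mem_Icc.2 hab) (Or.inl rfl), ver b (right_mem_Icc.2 hab) (Or.inr rfl)]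
    ring
  rw [hwb, abs_mul, hk, one_mul]

end Crest.Agent.R036.Sweep
end

-- ▼ part R036/Cross
section

/-! R036 (helper514): the boundary winding of `e s - f t` is at most the number of proper
crossings. -/

set_option autoImplicit false
open Set Topology Filter

namespace Crest.Agent.R036.Sweep

theorem wb_congr {F G : ℝ × ℝ → ℂ} {a b c d : ℝ} (hab : a ≤ b) (hcd : c ≤ d)
    (h : ∀ p ∈ Icc a b ×ˢ Icc c d, F p = G p) : wb F a b c d = wb G a b c d := by
  unfold wb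
  rw [sweep_congr (F := fun s => F (s, c)) (G := fun s => G (s, c))
      (fun s hs => h (s, c) ⟨hs, left_mem_Icc.2 hcd⟩),
    sweep_congr (F := fun s => F (s, d)) (G := fun s => G (s, d))
      (fun s hs => h (s, d) ⟨hs, right_mem_Icc.2 hcd⟩),
    sweep_congr (F := fun t => F (a, t)) (G := fun t => G (a, t))
      (fun t ht => h (a, t) ⟨left_mem_Icc.2 hab, ht⟩),
    sweep_congr (F := fun t => F (b, t)) (G := fun t => G (b, t))
      (fun t ht => h (b, t) ⟨right_mem_Icc.2 hab, ht⟩)]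

/-- A product-type map has boundary winding at most `2π`. -/
theorem abs_wb_axes {p q : ℝ → ℝ} {a b c d : ℝ} (hab : a ≤ b) (hcd : c ≤ d)
    (hp : ContinuousOn p (Icc a b)) (hq : ContinuousOn q (Icc c d))
    (hpa : p a ≠ 0) (hpb : p b ≠ 0) (hqc : q c ≠ 0) (hqd : q d ≠ 0) :
    |wb (fun x : ℝ × ℝ => (p x.1 : ℂ) - Complex.I * q x.2) a b c d| ≤ 2 * Real.pi := by
  have hpi := Real.pi_pos
  have cpt : ∀ t : ℝ, ContinuousOn (fun s : ℝ => (p s : ℂ) - Complex.I * q t) (Icc a b) := fun t =>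
    (Complex.continuous_ofReal.comp_continuousOn hp).sub continuousOn_const
  have cqs : ∀ s : ℝ, ContinuousOn (fun t : ℝ => (p s : ℂ) - Complex.I * q t) (Icc c d) := fun s =>
    continuousOn_const.sub (continuousOn_const.mul (Complex.continuous_ofReal.comp_continuousOn hq))
  have hor : ∀ t : ℝ, q t ≠ 0 → |sweep (fun s => (p s : ℂ) - Complex.I * q t) a b| < Real.pi := by
    intro t ht
    refine abs_sweep_lt hab (cpt t) (w := Complex.I * q t) (fun s _ => ?_)
    have : (Complex.I * q t * ((p s : ℂ) - Complex.I * q t)).re = q t * q t := by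
      simp
    rw [this]
    exact mul_self_pos.2 ht
  have ver : ∀ s : ℝ, p s ≠ 0 → |sweep (fun t => (p s : ℂ) - Complex.I * q t) c d| < Real.pi := by
    intro s hs
    refine abs_sweep_lt hcd (cqs s) (w := p s) (fun t _ => ?_)
    have : ((p s : ℂ) * ((p s : ℂ) - Complex.I * q t)).re = p s * p s := by
      simp
    rw [this]
    exact mul_self_pos.2 hs
  have n1 : ∀ t : ℝ, q t ≠ 0 → ∀ s, (p s : ℂ) - Complex.I * q t ≠ 0 := by
    intro t ht s h
    apply ht
    have := congrArg Complex.im h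
    simpa using this
  have n2 : ∀ s : ℝ, p s ≠ 0 → ∀ t, (p s : ℂ) - Complex.I * q t ≠ 0 := by
    intro s hs t h
    apply hs
    have := congrArg Complex.re h
    simpa using this
  obtain ⟨k, hk⟩ := wb_int (F := fun x : ℝ × ℝ => (p x.1 : ℂ) - Complex.I * q x.2) hab hcd
    (cpt c) (cpt d) (cqs a) (cqs b) (fun s _ => n1 c hqc s) (fun s _ => n1 d hqd s)
    (fun t _ => n2 a hpa t) (fun t _ => n2 b hpb t)
  have hlt : |wb (fun x : ℝ × ℝ => (p x.1 : ℂ) - Complex.I * q x.2) a b c d| < 4 * Real.pi := by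
    unfold wb
    have h1 := abs_lt.1 (hor c hqc)
    have h2 := abs_lt.1 (hor d hqd)
    have h3 := abs_lt.1 (ver a hpa)
    have h4 := abs_lt.1 (ver b hpb)
    rw [abs_lt]
    constructor <;> linarith [h1.1, h1.2, h2.1, h2.2, h3.1, h3.2, h4.1, h4.2]
  rw [hk] at hlt ⊢
  have hk2 : |(k : ℝ)| < 2 := by
    rw [abs_mul, abs_of_pos (by positivity : (0 : ℝ) < 2 * Real.pi)] at hlt
    nlinarith
  have hk3 : |k| < 2 := by exact_mod_cast hk2
  have hk4 : |k| ≤ 1 := by omega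
  have hk5 : |(k : ℝ)| ≤ 1 := by exact_mod_cast hk4
  rw [abs_mul, abs_of_pos (by positivity : (0 : ℝ) < 2 * Real.pi)]
  nlinarith

/-- Data of a proper crossing of `e` and `f` at parameters `s₀`, `t₀`. -/
structure LocCross (e f : ℝ → ℂ) (s₀ t₀ : ℝ) where
  ψ : ℂ → ℂ
  φ : ℂ → ℂ
  r₀ : ℝ
  ε₀ : ℝ
  δ₀ : ℝ
  hr₀ : 0 < r₀
  hε₀ : 0 < ε₀
  hδ₀ : 0 < δ₀
  hψ : ContinuousOn ψ (Metric.closedBall 0 r₀)
  hinj : InjOn ψ (Metric.closedBall 0 r₀)
  hφ : ContinuousOn φ (Metric.ball (ψ 0) ε₀)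
  hφψ : ∀ w ∈ Metric.ball (ψ 0) ε₀, ψ (φ w) = w
  hφ0 : φ (ψ 0) = 0
  he0 : e s₀ = ψ 0
  hf0 : f t₀ = ψ 0
  him : ∀ s, |s - s₀| < δ₀ → (φ (e s)).im = 0
  hre : ∀ t, |t - t₀| < δ₀ → (φ (f t)).re = 0
  hiso : ∀ s t, |s - s₀| < δ₀ → |t - t₀| < δ₀ → e s = f t → s = s₀ ∧ t = t₀

theorem LocCross.index {e f : ℝ → ℂ} (he : Continuous e) (hf : Continuous f) {s₀ t₀ : ℝ}
    (L : LocCross e f s₀ t₀) : ∃ δ > 0, ∀ δ', 0 < δ' → δ' ≤ δ →
      |wb (fun p => e p.1 - f p.2) (s₀ - δ') (s₀ + δ') (t₀ - δ') (t₀ + δ')| ≤ 2 * Real.pi := by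
  obtain ⟨ψ, φ, r₀, ε₀, δ₀, hr₀, hε₀, hδ₀, hψ, hinj, hφ, hφψ, hφ0, he0, hf0, him, hre, hiso⟩ := L
  have hφc0 : ContinuousAt φ (ψ 0) :=
    (hφ (ψ 0) (Metric.mem_ball_self hε₀)).continuousAt (Metric.ball_mem_nhds _ hε₀)
  obtain ⟨ε₁, hε₁, hε₁'⟩ := Metric.continuousAt_iff.1 hφc0 (r₀ / 2) (by positivity)
  obtain ⟨δe, hδe, hδe'⟩ := Metric.continuousAt_iff.1 (he.continuousAt (x := s₀)) (min ε₀ ε₁)
    (lt_min hε₀ hε₁)
  obtain ⟨δf, hδf, hδf'⟩ := Metric.continuousAt_iff.1 (hf.continuousAt (x := t₀)) (min ε₀ ε₁)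
    (lt_min hε₀ hε₁)
  refine ⟨min (δ₀ / 2) (min (δe / 2) (δf / 2)), by positivity, fun δ' hδ' hδ'le => ?_⟩
  have l1 : δ' < δ₀ := by
    have := hδ'le.trans (min_le_left _ _); linarith
  have l2 : δ' < δe := by
    have := hδ'le.trans ((min_le_right _ _).trans (min_le_left _ _)); linarith
  have l3 : δ' < δf := by
    have := hδ'le.trans ((min_le_right _ _).trans (min_le_right _ _)); linarith
  have abs1 : ∀ {x y : ℝ}, x ∈ Icc (y - δ') (y + δ') → |x - y| ≤ δ' := by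
    intro x y hx
    rw [abs_le]; constructor <;> linarith [hx.1, hx.2]
  have hem : ∀ s ∈ Icc (s₀ - δ') (s₀ + δ'), dist (e s) (ψ 0) < min ε₀ ε₁ := by
    intro s hs
    rw [← he0]
    apply hδe'
    rw [Real.dist_eq]
    exact (abs1 hs).trans_lt l2
  have hfm : ∀ t ∈ Icc (t₀ - δ') (t₀ + δ'), dist (f t) (ψ 0) < min ε₀ ε₁ := by
    intro t ht
    rw [← hf0]
    apply hδf'
    rw [Real.dist_eq]
    exact (abs1 ht).trans_lt l3
  let p : ℝ → ℝ := fun s => (φ (e s)).re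
  let q : ℝ → ℝ := fun t => (φ (f t)).im
  have hφe : ∀ s ∈ Icc (s₀ - δ') (s₀ + δ'), φ (e s) = (p s : ℂ) := by
    intro s hs
    apply Complex.ext
    · simp [p]
    · rw [him s ((abs1 hs).trans_lt l1)]; simp
  have hφf : ∀ t ∈ Icc (t₀ - δ') (t₀ + δ'), φ (f t) = Complex.I * (q t : ℂ) := by
    intro t ht
    apply Complex.ext
    · rw [hre t ((abs1 ht).trans_lt l1)]; simp
    · simp [q]
  have hes : ∀ s ∈ Icc (s₀ - δ') (s₀ + δ'), e s = ψ (p s) := by
    intro s hs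
    rw [← hφe s hs, hφψ _ (Metric.mem_ball.2 ((hem s hs).trans_le (min_le_left _ _)))]
  have hft : ∀ t ∈ Icc (t₀ - δ') (t₀ + δ'), f t = ψ (Complex.I * q t) := by
    intro t ht
    rw [← hφf t ht, hφψ _ (Metric.mem_ball.2 ((hfm t ht).trans_le (min_le_left _ _)))]
  have hpb : ∀ s ∈ Icc (s₀ - δ') (s₀ + δ'), |p s| ≤ r₀ / 2 := by
    intro s hs
    have h1 : dist (φ (e s)) (φ (ψ 0)) < r₀ / 2 := hε₁' ((hem s hs).trans_le (min_le_right _ _))
    rw [hφ0, dist_zero_right, hφe s hs, Complex.norm_real] at h1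
    exact h1.le
  have hqb : ∀ t ∈ Icc (t₀ - δ') (t₀ + δ'), |q t| ≤ r₀ / 2 := by
    intro t ht
    have h1 : dist (φ (f t)) (φ (ψ 0)) < r₀ / 2 := hε₁' ((hfm t ht).trans_le (min_le_right _ _))
    rw [hφ0, dist_zero_right, hφf t ht, norm_mul, Complex.norm_I, one_mul, Complex.norm_real] at h1
    exact h1.le
  have hpc : ContinuousOn p (Icc (s₀ - δ') (s₀ + δ')) := by
    refine Complex.continuous_re.comp_continuousOn (hφ.comp he.continuousOn ?_)
    intro s hs
    exact Metric.mem_ball.2 ((hem s hs).trans_le (min_le_left _ _))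
  have hqc : ContinuousOn q (Icc (t₀ - δ') (t₀ + δ')) := by
    refine Complex.continuous_im.comp_continuousOn (hφ.comp hf.continuousOn ?_)
    intro t ht
    exact Metric.mem_ball.2 ((hfm t ht).trans_le (min_le_left _ _))
  have hs₀m : s₀ ∈ Icc (s₀ - δ') (s₀ + δ') := ⟨by linarith, by linarith⟩
  have ht₀m : t₀ ∈ Icc (t₀ - δ') (t₀ + δ') := ⟨by linarith, by linarith⟩
  have p0 : ∀ s ∈ Icc (s₀ - δ') (s₀ + δ'), p s = 0 → s = s₀ := by
    intro s hs h
    have h1 : e s = f t₀ := by rw [hes s hs, h, hf0]; simp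
    exact (hiso s t₀ ((abs1 hs).trans_lt l1) (by simpa using hδ₀) h1).1
  have q0 : ∀ t ∈ Icc (t₀ - δ') (t₀ + δ'), q t = 0 → t = t₀ := by
    intro t ht h
    have h1 : e s₀ = f t := by rw [hft t ht, h, he0]; simp
    exact (hiso s₀ t (by simpa using hδ₀) ((abs1 ht).trans_lt l1) h1).2
  have hab : s₀ - δ' ≤ s₀ + δ' := by linarith
  have hcd : t₀ - δ' ≤ t₀ + δ' := by linarith
  -- the homotopy
  let F : ℝ → ℝ × ℝ → ℂ := fun l x =>
    ψ ((p x.1 : ℂ) - l * (Complex.I * q x.2)) - ψ ((1 - l) * (Complex.I * q x.2))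
  have hm1 : ∀ l ∈ Icc (0 : ℝ) 1, ∀ x ∈ Icc (s₀ - δ') (s₀ + δ') ×ˢ Icc (t₀ - δ') (t₀ + δ'),
      (p x.1 : ℂ) - l * (Complex.I * q x.2) ∈ Metric.closedBall (0 : ℂ) r₀ := by
    intro l hl x hx
    rw [mem_closedBall_zero_iff]
    calc ‖(p x.1 : ℂ) - l * (Complex.I * q x.2)‖ ≤ ‖(p x.1 : ℂ)‖ + ‖(l : ℂ) * (Complex.I * q x.2)‖ :=
          norm_sub_le _ _
      _ = |p x.1| + |l| * |q x.2| := by
          rw [norm_mul, norm_mul, Complex.norm_I, one_mul, Complex.norm_real, Complex.norm_real,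
            Complex.norm_real]; rfl
      _ ≤ r₀ / 2 + 1 * (r₀ / 2) := by
          have hl1 : |l| ≤ 1 := by rw [abs_of_nonneg hl.1]; exact hl.2
          have := hpb _ hx.1
          have := hqb _ hx.2
          gcongr
      _ = r₀ := by ring
  have hm2 : ∀ l ∈ Icc (0 : ℝ) 1, ∀ x ∈ Icc (s₀ - δ') (s₀ + δ') ×ˢ Icc (t₀ - δ') (t₀ + δ'),
      (1 - (l : ℂ)) * (Complex.I * q x.2) ∈ Metric.closedBall (0 : ℂ) r₀ := by
    intro l hl x hx
    rw [mem_closedBall_zero_iff]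
    have e1 : (1 - (l : ℂ)) = ((1 - l : ℝ) : ℂ) := by push_cast; ring
    rw [e1, norm_mul, norm_mul, Complex.norm_I, one_mul, Complex.norm_real, Complex.norm_real,
      Real.norm_eq_abs, Real.norm_eq_abs, abs_of_nonneg (by linarith [hl.2] : 0 ≤ 1 - l)]
    have h1 := hqb _ hx.2
    have h2 : 0 ≤ |q x.2| := abs_nonneg _
    nlinarith [hl.1, hl.2]
  have hFc : ContinuousOn (fun y : ℝ × (ℝ × ℝ) => F y.1 y.2)
      (Icc 0 1 ×ˢ (Icc (s₀ - δ') (s₀ + δ') ×ˢ Icc (t₀ - δ') (t₀ + δ'))) := by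
    have cp : ContinuousOn (fun y : ℝ × (ℝ × ℝ) => (p y.2.1 : ℂ))
        (Icc 0 1 ×ˢ (Icc (s₀ - δ') (s₀ + δ') ×ˢ Icc (t₀ - δ') (t₀ + δ'))) :=
      Complex.continuous_ofReal.comp_continuousOn
        (hpc.comp (f := fun y : ℝ × (ℝ × ℝ) => y.2.1) (by fun_prop) fun y hy => hy.2.1)
    have cq : ContinuousOn (fun y : ℝ × (ℝ × ℝ) => (q y.2.2 : ℂ))
        (Icc 0 1 ×ˢ (Icc (s₀ - δ') (s₀ + δ') ×ˢ Icc (t₀ - δ') (t₀ + δ'))) :=
      Complex.continuous_ofReal.comp_continuousOn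
        (hqc.comp (f := fun y : ℝ × (ℝ × ℝ) => y.2.2) (by fun_prop) fun y hy => hy.2.2)
    have cl : ContinuousOn (fun y : ℝ × (ℝ × ℝ) => (y.1 : ℂ))
        (Icc 0 1 ×ˢ (Icc (s₀ - δ') (s₀ + δ') ×ˢ Icc (t₀ - δ') (t₀ + δ'))) :=
      (Complex.continuous_ofReal.comp continuous_fst).continuousOn
    refine ContinuousOn.sub ?_ ?_
    · refine hψ.comp (f := fun y : ℝ × (ℝ × ℝ) => (p y.2.1 : ℂ) - y.1 * (Complex.I * q y.2.2)) ?_ ?_
      · exact cp.sub (cl.mul (continuousOn_const.mul cq))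
      · intro y hy; exact hm1 y.1 hy.1 y.2 hy.2
    · refine hψ.comp (f := fun y : ℝ × (ℝ × ℝ) => (1 - (y.1 : ℂ)) * (Complex.I * q y.2.2)) ?_ ?_
      · exact (continuousOn_const.sub cl).mul (continuousOn_const.mul cq)
      · intro y hy; exact hm2 y.1 hy.1 y.2 hy.2
  have bd : ∀ x ∈ Icc (s₀ - δ') (s₀ + δ') ×ˢ Icc (t₀ - δ') (t₀ + δ'),
      (x.1 = s₀ - δ' ∨ x.1 = s₀ + δ' ∨ x.2 = t₀ - δ' ∨ x.2 = t₀ + δ') → ¬ (p x.1 = 0 ∧ q x.2 = 0) := by
    rintro x hx hxx ⟨h1, h2⟩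
    have e1 := p0 _ hx.1 h1
    have e2 := q0 _ hx.2 h2
    rcases hxx with h | h | h | h
    · rw [e1] at h; linarith
    · rw [e1] at h; linarith
    · rw [e2] at h; linarith
    · rw [e2] at h; linarith
  have hhom := wb_homotopy (F := F) hab hcd hFc (by
    intro l hl x hx hxx h
    simp only [F, sub_eq_zero] at h
    have h1 := hinj (hm1 l hl x hx) (hm2 l hl x hx) h
    apply bd x hx hxx
    have hr := congrArg Complex.re h1
    have hi := congrArg Complex.im h1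
    simp at hr hi
    exact ⟨hr, by linarith⟩)
  have e0 : wb (F 0) (s₀ - δ') (s₀ + δ') (t₀ - δ') (t₀ + δ') =
      wb (fun p => e p.1 - f p.2) (s₀ - δ') (s₀ + δ') (t₀ - δ') (t₀ + δ') := by
    refine wb_congr hab hcd fun x hx => ?_
    simp only [F]
    rw [hes _ hx.1, hft _ hx.2]
    simp
  have e1 : wb (F 1) (s₀ - δ') (s₀ + δ') (t₀ - δ') (t₀ + δ') =
      wb (fun x => ψ ((p x.1 : ℂ) - Complex.I * q x.2) - ψ 0)
        (s₀ - δ') (s₀ + δ') (t₀ - δ') (t₀ + δ') := by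
    refine wb_congr hab hcd fun x hx => ?_
    simp only [F]
    simp
  rw [← e0, hhom, e1]
  have hβc : ContinuousOn (fun x : ℝ × ℝ => (p x.1 : ℂ) - Complex.I * q x.2)
      (Icc (s₀ - δ') (s₀ + δ') ×ˢ Icc (t₀ - δ') (t₀ + δ')) := by
    refine ContinuousOn.sub ?_ (continuousOn_const.mul ?_)
    · exact Complex.continuous_ofReal.comp_continuousOn
        (hpc.comp (f := fun y : ℝ × ℝ => y.1) (by fun_prop) fun y hy => hy.1)
    · exact Complex.continuous_ofReal.comp_continuousOn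
        (hqc.comp (f := fun y : ℝ × ℝ => y.2) (by fun_prop) fun y hy => hy.2)
  rw [abs_wb_homeo hr₀ hε₀ hψ hinj hφ hφψ hφ0 hab hcd hβc (fun x hx => ?_) (fun x hx hxx h => ?_)]
  · refine abs_wb_axes hab hcd hpc hqc (fun h => ?_) (fun h => ?_) (fun h => ?_) (fun h => ?_)
    · have := p0 _ (left_mem_Icc.2 hab) h; linarith
    · have := p0 _ (right_mem_Icc.2 hab) h; linarith
    · have := q0 _ (left_mem_Icc.2 hcd) h; linarith
    · have := q0 _ (right_mem_Icc.2 hcd) h; linarith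
  · have := hm1 1 (by norm_num) x hx
    rw [mem_closedBall_zero_iff] at this
    simpa using this
  · apply bd x hx hxx
    have hr := congrArg Complex.re h
    have hi := congrArg Complex.im h
    simp at hr hi
    exact ⟨hr, hi⟩

/-- One crossing inside a rectangle. -/
theorem wb_one {e f : ℝ → ℂ} (he : Continuous e) (hf : Continuous f) {a b c d s₀ t₀ : ℝ}
    (has : a < s₀) (hsb : s₀ < b) (hct : c < t₀) (htd : t₀ < d)
    (hz : ∀ s ∈ Icc a b, ∀ t ∈ Icc c d, e s = f t → s = s₀ ∧ t = t₀)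
    (hloc : ∃ δ > 0, ∀ δ', 0 < δ' → δ' ≤ δ →
      |wb (fun p => e p.1 - f p.2) (s₀ - δ') (s₀ + δ') (t₀ - δ') (t₀ + δ')| ≤ 2 * Real.pi) :
    |wb (fun p => e p.1 - f p.2) a b c d| ≤ 2 * Real.pi := by
  obtain ⟨δ, hδ, H⟩ := hloc
  let δ' : ℝ := min δ (min (min ((s₀ - a) / 2) ((b - s₀) / 2)) (min ((t₀ - c) / 2) ((d - t₀) / 2)))
  have hδ' : 0 < δ' := by
    have h1 : 0 < s₀ - a := by linarith
    have h2 : 0 < b - s₀ := by linarith
    have h3 : 0 < t₀ - c := by linarith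
    have h4 : 0 < d - t₀ := by linarith
    positivity
  have l0 : δ' ≤ δ := min_le_left _ _
  have l1 : δ' ≤ (s₀ - a) / 2 :=
    (min_le_right _ _).trans ((min_le_left _ _).trans (min_le_left _ _))
  have l2 : δ' ≤ (b - s₀) / 2 :=
    (min_le_right _ _).trans ((min_le_left _ _).trans (min_le_right _ _))
  have l3 : δ' ≤ (t₀ - c) / 2 :=
    (min_le_right _ _).trans ((min_le_right _ _).trans (min_le_left _ _))
  have l4 : δ' ≤ (d - t₀) / 2 :=
    (min_le_right _ _).trans ((min_le_right _ _).trans (min_le_right _ _))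
  have hGc : Continuous fun p : ℝ × ℝ => e p.1 - f p.2 := by fun_prop
  have cs : ∀ t, Continuous fun s => (fun p : ℝ × ℝ => e p.1 - f p.2) (s, t) := fun t => by
    show Continuous fun s => e s - f t
    fun_prop
  have ct : ∀ s, Continuous fun t => (fun p : ℝ × ℝ => e p.1 - f p.2) (s, t) := fun s => by
    show Continuous fun t => e s - f t
    fun_prop
  have nz : ∀ s ∈ Icc a b, ∀ t ∈ Icc c d, ¬ (s = s₀ ∧ t = t₀) → e s - f t ≠ 0 := by
    intro s hs t ht h h'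
    exact h (hz s hs t ht (sub_eq_zero.1 h'))
  have zc : ∀ t, t ≠ t₀ → t ∈ Icc c d → ∀ s ∈ Icc a b, e s - f t ≠ 0 := fun t ht htm s hs =>
    nz s hs t htm (fun h => ht h.2)
  have zs : ∀ s, s ≠ s₀ → s ∈ Icc a b → ∀ t ∈ Icc c d, e s - f t ≠ 0 := fun s hs hsm t ht =>
    nz s hsm t ht (fun h => hs h.1)
  have hcd : c ≤ d := by linarith
  have cm : c ∈ Icc c d := left_mem_Icc.2 hcd
  have dm : d ∈ Icc c d := right_mem_Icc.2 hcd
  have sub1 : ∀ {u v : ℝ}, a ≤ u → v ≤ b → Icc u v ⊆ Icc a b := fun h1 h2 =>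
    Icc_subset_Icc h1 h2
  -- first split
  rw [wb_split_fst (m := s₀ - δ') (by linarith) (by linarith) (cs c).continuousOn
    (cs d).continuousOn (fun s hs => zc c (by linarith) cm s hs)
    (fun s hs => zc d (by linarith) dm s hs),
    wb_split_fst (a := s₀ - δ') (m := s₀ + δ') (b := b) (by linarith) (by linarith)
      (cs c).continuousOn (cs d).continuousOn
      (fun s hs => zc c (by linarith) cm s (sub1 (by linarith) le_rfl hs))
      (fun s hs => zc d (by linarith) dm s (sub1 (by linarith) le_rfl hs)),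
    wb_eq_zero (a := a) (b := s₀ - δ') (by linarith) hcd hGc.continuousOn
      (fun x hx => zs x.1 (by have := hx.1.2; intro h; linarith)
        (sub1 le_rfl (by linarith) hx.1) x.2 hx.2),
    wb_eq_zero (a := s₀ + δ') (b := b) (by linarith) hcd hGc.continuousOn
      (fun x hx => zs x.1 (by have := hx.1.1; intro h; linarith)
        (sub1 (by linarith) le_rfl hx.1) x.2 hx.2), zero_add, add_zero]
  have hsm : Icc (s₀ - δ') (s₀ + δ') ⊆ Icc a b := sub1 (by linarith) (by linarith)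
  have m1 : s₀ - δ' ∈ Icc a b := ⟨by linarith, by linarith⟩
  have m2 : s₀ + δ' ∈ Icc a b := ⟨by linarith, by linarith⟩
  rw [wb_split_snd (c := c) (m := t₀ - δ') (d := d) (by linarith) (by linarith)
      (ct _).continuousOn (ct _).continuousOn
      (fun t ht => zs _ (by intro h; linarith) m1 t ht)
      (fun t ht => zs _ (by intro h; linarith) m2 t ht),
    wb_split_snd (c := t₀ - δ') (m := t₀ + δ') (d := d) (by linarith) (by linarith)
      (ct _).continuousOn (ct _).continuousOn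
      (fun t ht => zs _ (by intro h; linarith) m1 t (Icc_subset_Icc_left (by linarith) ht))
      (fun t ht => zs _ (by intro h; linarith) m2 t (Icc_subset_Icc_left (by linarith) ht)),
    wb_eq_zero (c := c) (d := t₀ - δ') (by linarith) (by linarith) hGc.continuousOn
      (fun x hx => zc x.2 (by have := hx.2.2; intro h; linarith)
        (Icc_subset_Icc_right (by linarith) hx.2) x.1 (hsm hx.1)),
    wb_eq_zero (c := t₀ + δ') (d := d) (by linarith) (by linarith) hGc.continuousOn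
      (fun x hx => zc x.2 (by have := hx.2.1; intro h; linarith)
        (Icc_subset_Icc_left (by linarith) hx.2) x.1 (hsm hx.1)), zero_add, add_zero]
  exact H δ' hδ' l0

/-- The boundary winding is at most `2π` times the number of crossings. -/
theorem abs_wb_le_card {e f : ℝ → ℂ} (he : Continuous e) (hf : Continuous f) {A B c d : ℝ}
    (hcd : c < d) (S : Finset ℝ) (τ : ℝ → ℝ)
    (hz : ∀ s ∈ Icc A B, ∀ t ∈ Icc c d, e s = f t → s ∈ S ∧ t = τ s)
    (hτ : ∀ s ∈ S, c < τ s ∧ τ s < d)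
    (hloc : ∀ s₀ ∈ S, ∃ δ > 0, ∀ δ', 0 < δ' → δ' ≤ δ →
      |wb (fun p => e p.1 - f p.2) (s₀ - δ') (s₀ + δ') (τ s₀ - δ') (τ s₀ + δ')| ≤ 2 * Real.pi) :
    ∀ (n : ℕ) (a b : ℝ), A ≤ a → a ≤ b → b ≤ B → a ∉ S → b ∉ S →
      (S.filter fun s => a < s ∧ s < b).card = n →
      |wb (fun p => e p.1 - f p.2) a b c d| ≤ 2 * Real.pi * n := by
  have hGc : Continuous fun p : ℝ × ℝ => e p.1 - f p.2 := by fun_prop
  intro n
  induction n with
  | zero =>
    intro a b hAa hab hbB haS hbS hcard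
    rw [wb_eq_zero hab hcd.le hGc.continuousOn]
    · simp
    · intro x hx h
      have h1 := hz x.1 ⟨hAa.trans hx.1.1, hx.1.2.trans hbB⟩ x.2 hx.2 (sub_eq_zero.1 h)
      rw [Finset.card_eq_zero, Finset.filter_eq_empty_iff] at hcard
      apply hcard h1.1
      constructor
      · exact lt_of_le_of_ne hx.1.1 (fun h => haS (h ▸ h1.1))
      · exact lt_of_le_of_ne hx.1.2 (fun h => hbS (h ▸ h1.1))
  | succ n ih =>
    intro a b hAa hab hbB haS hbS hcard
    let T := S.filter fun s => a < s ∧ s < b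
    have hTne : T.Nonempty := by
      rw [← Finset.card_pos, hcard]; omega
    let s₁ := T.min' hTne
    have hs₁ : s₁ ∈ T := T.min'_mem hTne
    have hs₁' := Finset.mem_filter.1 hs₁
    -- choose m
    have : ∃ m, s₁ < m ∧ m < b ∧ m ∉ S ∧ ∀ s ∈ S, s₁ < s → m < s := by
      by_cases hU : (S.filter fun s => s₁ < s).Nonempty
      · let u := (S.filter fun s => s₁ < s).min' hU
        have hu := Finset.mem_filter.1 ((S.filter fun s => s₁ < s).min'_mem hU)
        have hu2 : ∀ s ∈ S, s₁ < s → u ≤ s := fun s hs h =>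
          Finset.min'_le _ _ (Finset.mem_filter.2 ⟨hs, h⟩)
        have hub : s₁ < min u b := lt_min hu.2 hs₁'.2.2
        refine ⟨(s₁ + min u b) / 2, by linarith, ?_, ?_, ?_⟩
        · have := min_le_right u b
          linarith
        · intro h
          have h1 := hu2 _ h (by linarith)
          have := min_le_left u b
          linarith
        · intro s hs h
          have h1 := hu2 _ hs h
          have := min_le_left u b
          linarith
      · refine ⟨(s₁ + b) / 2, by linarith [hs₁'.2.2], by linarith [hs₁'.2.2], ?_, ?_⟩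
        · intro h
          exact hU ⟨_, Finset.mem_filter.2 ⟨h, by linarith [hs₁'.2.2]⟩⟩
        · intro s hs h
          exact absurd ⟨s, Finset.mem_filter.2 ⟨hs, h⟩⟩ hU
    obtain ⟨m, hm1, hm2, hmS, hm3⟩ := this
    have ham : a < m := hs₁'.2.1.trans hm1
    have hcards : (S.filter fun s => m < s ∧ s < b).card = n := by
      have hT : T.erase s₁ = S.filter fun s => m < s ∧ s < b := by
        ext s
        simp only [Finset.mem_erase, Finset.mem_filter, T]
        constructor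
        · rintro ⟨h1, h2, h3, h4⟩
          have h5 : s₁ ≤ s := T.min'_le s (Finset.mem_filter.2 ⟨h2, h3, h4⟩)
          exact ⟨h2, hm3 s h2 (lt_of_le_of_ne h5 (Ne.symm h1)), h4⟩
        · rintro ⟨h1, h2, h3⟩
          exact ⟨by linarith [hm1] |> fun (h : s₁ < s) => ne_of_gt h, h1, by linarith, h3⟩
      rw [← hT, Finset.card_erase_of_mem hs₁]
      show T.card - 1 = n
      rw [hcard]; rfl
    have hB := ih m b (hAa.trans ham.le) hm2.le hbB hmS hbS hcards
    have hA : |wb (fun p => e p.1 - f p.2) a m c d| ≤ 2 * Real.pi := by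
      refine wb_one he hf hs₁'.2.1 hm1 (hτ s₁ hs₁'.1).1 (hτ s₁ hs₁'.1).2 ?_ (hloc s₁ hs₁'.1)
      intro s hs t ht hst
      have h1 := hz s ⟨hAa.trans hs.1, hs.2.trans (hm2.le.trans hbB)⟩ t ht hst
      have hsa : a < s := lt_of_le_of_ne hs.1 (fun h => haS (h ▸ h1.1))
      have h2 : s₁ ≤ s := T.min'_le s (Finset.mem_filter.2 ⟨h1.1, hsa, hs.2.trans_lt hm2⟩)
      have h3 : s = s₁ := by
        by_contra hne
        have := hm3 s h1.1 (lt_of_le_of_ne h2 (Ne.symm hne))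
        linarith [hs.2]
      exact ⟨h3, by rw [h1.2, h3]⟩
    have hne : ∀ t, (∀ s ∈ S, τ s ≠ t) → t ∈ Icc c d → ∀ s ∈ Icc a b, e s - f t ≠ 0 := by
      intro t ht htm s hs h
      have h1 := hz s ⟨hAa.trans hs.1, hs.2.trans hbB⟩ t htm (sub_eq_zero.1 h)
      exact ht s h1.1 h1.2.symm
    rw [wb_split_fst (m := m) ham.le hm2.le
      (by show ContinuousOn (fun s => e s - f c) _; fun_prop)
      (by show ContinuousOn (fun s => e s - f d) _; fun_prop)
      (hne c (fun s hs => ne_of_gt (hτ s hs).1) (left_mem_Icc.2 hcd.le))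
      (hne d (fun s hs => ne_of_lt (hτ s hs).2) (right_mem_Icc.2 hcd.le))]
    calc |wb (fun p => e p.1 - f p.2) a m c d + wb (fun p => e p.1 - f p.2) m b c d|
        ≤ |wb (fun p => e p.1 - f p.2) a m c d| + |wb (fun p => e p.1 - f p.2) m b c d| :=
          abs_add_le _ _
      _ ≤ 2 * Real.pi + 2 * Real.pi * n := add_le_add hA hB
      _ = 2 * Real.pi * ((n + 1 : ℕ) : ℝ) := by push_cast; ring

end Crest.Agent.R036.Sweep
end

-- ▼ part R036/Topo
section

/-! R036 (helper514): from ordinary drawings to real matrices `Th a b v` (swept angles in turns).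

Main results (namespace `Crest.Agent.R036.Topo`), for a drawing `D` of `G`:
* `Th_swap`   : `Th D b a v = - Th D a b v` (`a ≠ b`);
* `Th_mod`    : `Th D a b v = dir D v b - dir D v a + k`, `k : ℤ` (`a ~ b`, `v ≠ a, b`);
* `dir_swap`  : `dir D v w = dir D w v + 1/2 + k`, `k : ℤ` (`v ≠ w`);
* `abs_xx_le` : `|Th c d a - Th c d b + Th a b d - Th a b c| ≤` number of crossings of `ab`, `cd`;
* `sum_abs_xx_le` : the sum over all ordered pairs of disjoint edges is `≤ 2 * crossingCount D`. -/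

set_option autoImplicit false
open Set Topology Filter
open Crest.CombinatoricsR.TopDrawing

namespace Crest.Agent.R036.Topo

open Crest.Agent.R036.Sweep

abbrev E2 := EuclideanSpace ℝ (Fin 2)

/-- The identification of the plane with `ℂ`. -/
noncomputable def toC : E2 ≃ₗᵢ[ℝ] ℂ := Complex.orthonormalBasisOneI.repr.symm

theorem toC_re (x : E2) : (toC x).re = x 0 := by
  simp [toC, Complex.orthonormalBasisOneI_repr_symm_apply]

theorem toC_im (x : E2) : (toC x).im = x 1 := by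
  simp [toC, Complex.orthonormalBasisOneI_repr_symm_apply]

variable {V : Type*} [LinearOrder V] {G : SimpleGraph V}

/-- The arc of the pair `(a, b)` as a curve `ℝ → ℂ`. -/
noncomputable def cur (D : Drawing G) (a b : V) (s : ℝ) : ℂ :=
  toC (D.arc a b (projIcc 0 1 zero_le_one s))

theorem continuous_cur (D : Drawing G) (a b : V) : Continuous (cur D a b) := by
  unfold cur
  exact toC.continuous.comp ((D.arc a b).continuous.comp continuous_projIcc)

/-- vertex positions -/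
noncomputable def P (D : Drawing G) (v : V) : ℂ := toC (D.pos v)

theorem P_inj (D : Drawing G) {v w : V} (h : P D v = P D w) : v = w :=
  D.pos_injective (toC.injective h)

theorem cur_zero (D : Drawing G) {a b : V} (hab : a < b) (h : G.Adj a b) : cur D a b 0 = P D a := by
  unfold cur P
  rw [projIcc_left]
  exact congrArg toC (D.arc_source a b hab h)

theorem cur_one (D : Drawing G) {a b : V} (hab : a < b) (h : G.Adj a b) : cur D a b 1 = P D b := by
  unfold cur P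
  rw [projIcc_right]
  exact congrArg toC (D.arc_target a b hab h)

theorem cur_mem (D : Drawing G) (a b : V) {s : ℝ} (hs : s ∈ Icc (0 : ℝ) 1) :
    cur D a b s = toC (D.arc a b ⟨s, hs⟩) := by
  unfold cur
  rw [projIcc_of_mem _ hs]

theorem cur_ne (D : Drawing G) {a b v : V} (hab : a < b) (h : G.Adj a b) (hva : v ≠ a)
    (hvb : v ≠ b) {s : ℝ} (hs : s ∈ Icc (0 : ℝ) 1) : cur D a b s - P D v ≠ 0 := by
  intro h0
  rw [sub_eq_zero] at h0
  rcases eq_or_lt_of_le hs.1 with h1 | h1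
  · rw [← h1, cur_zero D hab h] at h0
    exact hva (P_inj D h0).symm
  rcases eq_or_lt_of_le hs.2 with h2 | h2
  · rw [h2, cur_one D hab h] at h0
    exact hvb (P_inj D h0).symm
  rw [cur_mem D a b hs] at h0
  exact D.interior_avoids a b hab h ⟨s, hs⟩ h1 h2 v (toC.injective h0)

/-- Angle (in turns) swept by the edge from `a` to `b`, seen from `v`. -/
noncomputable def Th (D : Drawing G) (a b v : V) : ℝ :=
  if a < b then sweep (fun s => cur D a b s - P D v) 0 1 / (2 * Real.pi)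
  else - (sweep (fun s => cur D b a s - P D v) 0 1 / (2 * Real.pi))

/-- Direction (in turns) of `w` seen from `v`. -/
noncomputable def dir (D : Drawing G) (v w : V) : ℝ := Complex.arg (P D w - P D v) / (2 * Real.pi)

theorem Th_swap (D : Drawing G) {a b : V} (hab : a ≠ b) (v : V) : Th D b a v = - Th D a b v := by
  unfold Th
  rcases lt_or_gt_of_ne hab with h | h
  · rw [if_pos h, if_neg (not_lt.2 h.le)]
  · rw [if_pos h, if_neg (not_lt.2 h.le), neg_neg]

theorem Th_mod_lt (D : Drawing G) {a b v : V} (hab : a < b) (h : G.Adj a b) (hva : v ≠ a)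
    (hvb : v ≠ b) : ∃ k : ℤ, Th D a b v = dir D v b - dir D v a + k := by
  obtain ⟨k, hk⟩ := sweep_mod (F := fun s => cur D a b s - P D v) zero_le_one
    ((continuous_cur D a b).sub continuous_const).continuousOn (fun s hs => cur_ne D hab h hva hvb hs)
  refine ⟨k, ?_⟩
  unfold Th dir
  rw [if_pos hab, hk, cur_zero D hab h, cur_one D hab h]
  have : (2 * Real.pi) ≠ 0 := by positivity
  field_simp

theorem Th_mod (D : Drawing G) {a b v : V} (h : G.Adj a b) (hva : v ≠ a) (hvb : v ≠ b) :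
    ∃ k : ℤ, Th D a b v = dir D v b - dir D v a + k := by
  rcases lt_or_gt_of_ne h.ne with hab | hab
  · exact Th_mod_lt D hab h hva hvb
  · obtain ⟨k, hk⟩ := Th_mod_lt D hab h.symm hvb hva
    refine ⟨-k, ?_⟩
    rw [Th_swap D h.ne.symm, hk]
    push_cast
    ring

theorem dir_swap (D : Drawing G) {v w : V} (h : v ≠ w) :
    ∃ k : ℤ, dir D v w = dir D w v + 1 / 2 + k := by
  have h0 : P D v - P D w ≠ 0 := fun h' => h (P_inj D (sub_eq_zero.1 h'))
  have h1 := Complex.arg_neg_coe_angle h0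
  rw [neg_sub, ← Real.Angle.coe_add, Real.Angle.angle_eq_iff_two_pi_dvd_sub] at h1
  obtain ⟨k, hk⟩ := h1
  refine ⟨k, ?_⟩
  unfold dir
  have hpi : (2 * Real.pi) ≠ 0 := by positivity
  field_simp
  linarith

/-- The integer attached to two disjoint oriented edges. -/
noncomputable def xx (D : Drawing G) (a b c d : V) : ℝ :=
  Th D c d a - Th D c d b + Th D a b d - Th D a b c

theorem wb_eq_xx (D : Drawing G) {a b c d : V} (hab : a < b) (h : G.Adj a b) (hcd : c < d)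
    (h' : G.Adj c d) (hac : a ≠ c) (had : a ≠ d) (hbc : b ≠ c) (hbd : b ≠ d) :
    wb (fun p => cur D a b p.1 - cur D c d p.2) 0 1 0 1 = - (2 * Real.pi * xx D a b c d) := by
  unfold wb xx Th
  simp only [if_pos hab, if_pos hcd]
  rw [cur_zero D hcd h', cur_one D hcd h', cur_zero D hab h, cur_one D hab h]
  have e1 : sweep (fun t => P D b - cur D c d t) 0 1 = sweep (fun t => cur D c d t - P D b) 0 1 := by
    rw [← sweep_neg (F := fun t => cur D c d t - P D b) zero_le_one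
      ((continuous_cur D c d).sub continuous_const).continuousOn
      (fun s hs => cur_ne D hcd h' hbc hbd hs)]
    simp only [neg_sub]
  have e2 : sweep (fun t => P D a - cur D c d t) 0 1 = sweep (fun t => cur D c d t - P D a) 0 1 := by
    rw [← sweep_neg (F := fun t => cur D c d t - P D a) zero_le_one
      ((continuous_cur D c d).sub continuous_const).continuousOn
      (fun s hs => cur_ne D hcd h' hac had hs)]
    simp only [neg_sub]
  rw [e1, e2]
  have hpi : (2 * Real.pi) ≠ 0 := by positivity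
  field_simp
  ring

theorem locCross (D : Drawing G) (hD : IsOrdinary D) {a b c d : V} (hab : a < b) (h : G.Adj a b)
    (hcd : c < d) (h' : G.Adj c d) (hne : (a, b) ≠ (c, d)) {s₀ t₀ : ℝ} (hs₀ : s₀ ∈ Ioo (0 : ℝ) 1)
    (ht₀ : t₀ ∈ Ioo (0 : ℝ) 1) (hst : cur D a b s₀ = cur D c d t₀) :
    Nonempty (LocCross (cur D a b) (cur D c d) s₀ t₀) := by
  let x : E2 := D.arc a b ⟨s₀, hs₀.1.le, hs₀.2.le⟩
  have hs₀' : s₀ ∈ Icc (0 : ℝ) 1 := ⟨hs₀.1.le, hs₀.2.le⟩
  have ht₀' : t₀ ∈ Icc (0 : ℝ) 1 := ⟨ht₀.1.le, ht₀.2.le⟩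
  have hx2 : x = D.arc c d ⟨t₀, ht₀'⟩ := by
    rw [cur_mem D a b hs₀', cur_mem D c d ht₀'] at hst
    exact toC.injective hst
  have hxA : x ∈ arcInterior D (a, b) := ⟨⟨s₀, hs₀'⟩, ⟨hs₀.1, hs₀.2⟩, rfl⟩
  have hxB : x ∈ arcInterior D (c, d) := ⟨⟨t₀, ht₀'⟩, ⟨ht₀.1, ht₀.2⟩, hx2.symm⟩
  obtain ⟨φ, hxs, hA, hB⟩ := hD.2.1 (a, b) ⟨hab, h⟩ (c, d) ⟨hcd, h'⟩ hne x ⟨hxA, hxB⟩
  have hφx : φ x = 0 := by
    have m1 : φ x ∈ φ.target ∩ {y : E2 | y 1 = 0} := by
      rw [← hA]; exact ⟨x, ⟨hxs, hxA⟩, rfl⟩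
    have m2 : φ x ∈ φ.target ∩ {y : E2 | y 0 = 0} := by
      rw [← hB]; exact ⟨x, ⟨hxs, hxB⟩, rfl⟩
    ext i
    fin_cases i
    · exact m2.2
    · exact m1.2
  have h0t : (0 : E2) ∈ φ.target := by rw [← hφx]; exact φ.map_source hxs
  have hsymm0 : φ.symm 0 = x := by rw [← hφx]; exact φ.left_inv hxs
  let ψ : ℂ → ℂ := fun z => toC (φ.symm (toC.symm z))
  let χ : ℂ → ℂ := fun w => toC (φ (toC.symm w))
  have hψ0 : ψ 0 = toC x := by simp [ψ, hsymm0]
  -- radius
  have ho1 : toC.symm ⁻¹' φ.target ∈ 𝓝 (0 : ℂ) := by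
    refine (φ.open_target.preimage toC.symm.continuous).mem_nhds ?_
    show toC.symm 0 ∈ φ.target
    rw [map_zero]; exact h0t
  obtain ⟨r, hr, hr'⟩ := Metric.nhds_basis_closedBall.mem_iff.1 ho1
  have ho2 : toC.symm ⁻¹' φ.source ∈ 𝓝 (ψ 0) := by
    refine (φ.open_source.preimage toC.symm.continuous).mem_nhds ?_
    show toC.symm (ψ 0) ∈ φ.source
    rw [hψ0, toC.symm_apply_apply]; exact hxs
  obtain ⟨ε, hε, hε'⟩ := Metric.nhds_basis_ball.mem_iff.1 ho2
  -- parameter neighbourhoods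
  have hes₀ : cur D a b s₀ = ψ 0 := by rw [hψ0, cur_mem D a b hs₀']
  have hft₀ : cur D c d t₀ = ψ 0 := by rw [← hst]; exact hes₀
  have n1 : ∀ᶠ s in 𝓝 s₀, s ∈ Ioo (0 : ℝ) 1 ∧ cur D a b s ∈ Metric.ball (ψ 0) ε := by
    have h1 : ∀ᶠ s in 𝓝 s₀, s ∈ Ioo (0 : ℝ) 1 := Ioo_mem_nhds hs₀.1 hs₀.2
    refine h1.and ?_
    refine (continuous_cur D a b).continuousAt.eventually ?_
    rw [hes₀]; exact Metric.ball_mem_nhds _ hε
  have n2 : ∀ᶠ t in 𝓝 t₀, t ∈ Ioo (0 : ℝ) 1 ∧ cur D c d t ∈ Metric.ball (ψ 0) ε := by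
    have h1 : ∀ᶠ t in 𝓝 t₀, t ∈ Ioo (0 : ℝ) 1 := Ioo_mem_nhds ht₀.1 ht₀.2
    refine h1.and ?_
    refine (continuous_cur D c d).continuousAt.eventually ?_
    rw [hft₀]; exact Metric.ball_mem_nhds _ hε
  obtain ⟨δ1, hδ1, hδ1'⟩ := Metric.eventually_nhds_iff.1 n1
  obtain ⟨δ2, hδ2, hδ2'⟩ := Metric.eventually_nhds_iff.1 n2
  have im1 : ∀ {s : ℝ}, s ∈ Ioo (0 : ℝ) 1 → cur D a b s ∈ Metric.ball (ψ 0) ε →
      (χ (cur D a b s)).im = 0 := by
    intro s hs hsb
    have hs' : s ∈ Icc (0 : ℝ) 1 := ⟨hs.1.le, hs.2.le⟩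
    have hsrc : D.arc a b ⟨s, hs'⟩ ∈ φ.source := by
      have := hε' hsb
      rw [cur_mem D a b hs'] at this
      simpa using this
    have hint : D.arc a b ⟨s, hs'⟩ ∈ arcInterior D (a, b) := ⟨⟨s, hs'⟩, ⟨hs.1, hs.2⟩, rfl⟩
    have m1 : φ (D.arc a b ⟨s, hs'⟩) ∈ φ.target ∩ {y : E2 | y 1 = 0} := by
      rw [← hA]; exact ⟨_, ⟨hsrc, hint⟩, rfl⟩
    simp only [χ]
    rw [cur_mem D a b hs', toC.symm_apply_apply, toC_im]
    exact m1.2
  have re1 : ∀ {t : ℝ}, t ∈ Ioo (0 : ℝ) 1 → cur D c d t ∈ Metric.ball (ψ 0) ε →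
      (χ (cur D c d t)).re = 0 := by
    intro s hs hsb
    have hs' : s ∈ Icc (0 : ℝ) 1 := ⟨hs.1.le, hs.2.le⟩
    have hsrc : D.arc c d ⟨s, hs'⟩ ∈ φ.source := by
      have := hε' hsb
      rw [cur_mem D c d hs'] at this
      simpa using this
    have hint : D.arc c d ⟨s, hs'⟩ ∈ arcInterior D (c, d) := ⟨⟨s, hs'⟩, ⟨hs.1, hs.2⟩, rfl⟩
    have m1 : φ (D.arc c d ⟨s, hs'⟩) ∈ φ.target ∩ {y : E2 | y 0 = 0} := by
      rw [← hB]; exact ⟨_, ⟨hsrc, hint⟩, rfl⟩
    simp only [χ]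
    rw [cur_mem D c d hs', toC.symm_apply_apply, toC_re]
    exact m1.2
  have hχψ : ∀ w ∈ Metric.ball (ψ 0) ε, ψ (χ w) = w := by
    intro w hw
    simp only [ψ, χ, LinearIsometryEquiv.symm_apply_apply]
    rw [φ.left_inv (hε' hw), LinearIsometryEquiv.apply_symm_apply]
  have hmin : 0 < min δ1 δ2 := lt_min hδ1 hδ2
  refine ⟨⟨ψ, χ, r, ε, min δ1 δ2, hr, hε, hmin, ?_, ?_, ?_, hχψ, ?_, hes₀, hft₀, ?_, ?_, ?_⟩⟩
  · refine toC.continuous.comp_continuousOn ?_
    refine φ.continuousOn_symm.comp toC.symm.continuous.continuousOn ?_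
    intro z hz; exact hr' hz
  · intro z hz w hw hzw
    have h1 : φ.symm (toC.symm z) = φ.symm (toC.symm w) := toC.injective hzw
    have h2 := φ.symm.injOn (hr' hz) (hr' hw) h1
    exact toC.symm.injective h2
  · refine toC.continuous.comp_continuousOn ?_
    refine φ.continuousOn.comp toC.symm.continuous.continuousOn ?_
    intro z hz; exact hε' hz
  · simp only [χ, hψ0, toC.symm_apply_apply, hφx, map_zero]
  · intro s hs
    have := hδ1' (y := s) (by rw [Real.dist_eq]; exact hs.trans_le (min_le_left _ _))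
    exact im1 this.1 this.2
  · intro t ht
    have := hδ2' (y := t) (by rw [Real.dist_eq]; exact ht.trans_le (min_le_right _ _))
    exact re1 this.1 this.2
  · intro s t hs ht hst'
    have A1 := hδ1' (y := s) (by rw [Real.dist_eq]; exact hs.trans_le (min_le_left _ _))
    have A2 := hδ2' (y := t) (by rw [Real.dist_eq]; exact ht.trans_le (min_le_right _ _))
    have z1 : χ (cur D a b s) = 0 := by
      apply Complex.ext
      · rw [hst', re1 A2.1 A2.2]; rfl
      · rw [im1 A1.1 A1.2]; rfl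
    have e1 : cur D a b s = ψ 0 := by rw [← hχψ _ A1.2, z1]
    have e2 : cur D c d t = ψ 0 := by rw [← hst', e1]
    constructor
    · rw [← hes₀, cur_mem D a b ⟨A1.1.1.le, A1.1.2.le⟩, cur_mem D a b hs₀'] at e1
      have := D.arc_injective a b hab h (toC.injective e1)
      exact congrArg Subtype.val this
    · rw [← hft₀, cur_mem D c d ⟨A2.1.1.le, A2.1.2.le⟩, cur_mem D c d ht₀'] at e2
      have := D.arc_injective c d hcd h' (toC.injective e2)
      exact congrArg Subtype.val this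

theorem inter_finite (D : Drawing G) (hD : IsOrdinary D) {a b c d : V} (hab : a < b)
    (h : G.Adj a b) (hcd : c < d) (h' : G.Adj c d) (hne : (a, b) ≠ (c, d)) :
    (arcInterior D (a, b) ∩ arcInterior D (c, d)).Finite := by
  refine hD.1.subset ?_
  intro x hx
  exact ⟨(a, b), ⟨hab, h⟩, (c, d), ⟨hcd, h'⟩, hne, hx.1, hx.2⟩

open Classical in
/-- The number of crossings of two disjoint edges bounds `|xx|`. -/
theorem abs_xx_le (D : Drawing G) (hD : IsOrdinary D) {a b c d : V} (hab : a < b)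
    (h : G.Adj a b) (hcd : c < d) (h' : G.Adj c d)
    (hac : a ≠ c) (had : a ≠ d) (hbc : b ≠ c) (hbd : b ≠ d) :
    |xx D a b c d| ≤ ((arcInterior D (a, b) ∩ arcInterior D (c, d)).ncard : ℝ) := by
  have hne : (a, b) ≠ (c, d) := fun h0 => hac (congrArg Prod.fst h0)
  have hfin := inter_finite D hD hab h hcd h' hne
  -- parameters of points
  let σ : E2 → ℝ := fun x =>
    if hx : x ∈ arcInterior D (a, b) then (hx.choose : ℝ) else 0
  let τ' : E2 → ℝ := fun x =>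
    if hx : x ∈ arcInterior D (c, d) then (hx.choose : ℝ) else 0
  have hσ : ∀ x ∈ arcInterior D (a, b), σ x ∈ Ioo (0 : ℝ) 1 ∧ cur D a b (σ x) = toC x := by
    intro x hx
    have e : σ x = (hx.choose : ℝ) := dif_pos hx
    have hc := hx.choose_spec
    refine ⟨by rw [e]; exact ⟨hc.1.1, hc.1.2⟩, ?_⟩
    rw [e, cur_mem D a b hx.choose.2]
    exact congrArg toC hc.2
  have hτ' : ∀ x ∈ arcInterior D (c, d), τ' x ∈ Ioo (0 : ℝ) 1 ∧ cur D c d (τ' x) = toC x := by
    intro x hx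
    have e : τ' x = (hx.choose : ℝ) := dif_pos hx
    have hc := hx.choose_spec
    refine ⟨by rw [e]; exact ⟨hc.1.1, hc.1.2⟩, ?_⟩
    rw [e, cur_mem D c d hx.choose.2]
    exact congrArg toC hc.2
  have inj1 : ∀ s ∈ Icc (0 : ℝ) 1, ∀ s' ∈ Icc (0 : ℝ) 1, cur D a b s = cur D a b s' → s = s' := by
    intro s hs s' hs' he
    rw [cur_mem D a b hs, cur_mem D a b hs'] at he
    exact congrArg Subtype.val (D.arc_injective a b hab h (toC.injective he))
  have inj2 : ∀ s ∈ Icc (0 : ℝ) 1, ∀ s' ∈ Icc (0 : ℝ) 1, cur D c d s = cur D c d s' → s = s' := by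
    intro s hs s' hs' he
    rw [cur_mem D c d hs, cur_mem D c d hs'] at he
    exact congrArg Subtype.val (D.arc_injective c d hcd h' (toC.injective he))
  let S : Finset ℝ := hfin.toFinset.image σ
  let τ : ℝ → ℝ := fun s => τ' (toC.symm (cur D a b s))
  -- points of S
  have hS : ∀ s ∈ S, s ∈ Ioo (0 : ℝ) 1 ∧ toC.symm (cur D a b s) ∈ arcInterior D (a, b) ∧
      toC.symm (cur D a b s) ∈ arcInterior D (c, d) := by
    intro s hs
    obtain ⟨x, hx, rfl⟩ := Finset.mem_image.1 hs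
    rw [Set.Finite.mem_toFinset] at hx
    obtain ⟨h1, h2⟩ := hσ x hx.1
    refine ⟨h1, ?_, ?_⟩
    · rw [h2, toC.symm_apply_apply]; exact hx.1
    · rw [h2, toC.symm_apply_apply]; exact hx.2
  have hSτ : ∀ s ∈ S, τ s ∈ Ioo (0 : ℝ) 1 ∧ cur D c d (τ s) = cur D a b s := by
    intro s hs
    obtain ⟨h1, h2⟩ := hτ' _ (hS s hs).2.2
    exact ⟨h1, by rw [h2, toC.apply_symm_apply]⟩
  have key : ∀ s ∈ Icc (0 : ℝ) 1, ∀ t ∈ Icc (0 : ℝ) 1, cur D a b s = cur D c d t →
      s ∈ S ∧ t = τ s := by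
    intro s hs t ht hst
    have hs0 : 0 < s := by
      rcases eq_or_lt_of_le hs.1 with h1 | h1
      · exfalso
        rw [← h1, cur_zero D hab h] at hst
        exact cur_ne D hcd h' hac had ht (by rw [hst, sub_self])
      · exact h1
    have hs1 : s < 1 := by
      rcases eq_or_lt_of_le hs.2 with h1 | h1
      · exfalso
        rw [h1, cur_one D hab h] at hst
        exact cur_ne D hcd h' hbc hbd ht (by rw [hst, sub_self])
      · exact h1
    have ht0 : 0 < t := by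
      rcases eq_or_lt_of_le ht.1 with h1 | h1
      · exfalso
        rw [← h1, cur_zero D hcd h'] at hst
        exact cur_ne D hab h hac.symm hbc.symm hs (by rw [hst, sub_self])
      · exact h1
    have ht1 : t < 1 := by
      rcases eq_or_lt_of_le ht.2 with h1 | h1
      · exfalso
        rw [h1, cur_one D hcd h'] at hst
        exact cur_ne D hab h had.symm hbd.symm hs (by rw [hst, sub_self])
      · exact h1
    let x : E2 := D.arc a b ⟨s, hs⟩
    have hxa : x ∈ arcInterior D (a, b) := ⟨⟨s, hs⟩, ⟨hs0, hs1⟩, rfl⟩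
    have hx2 : x = D.arc c d ⟨t, ht⟩ := by
      rw [cur_mem D a b hs, cur_mem D c d ht] at hst
      exact toC.injective hst
    have hxc : x ∈ arcInterior D (c, d) := ⟨⟨t, ht⟩, ⟨ht0, ht1⟩, hx2.symm⟩
    have hcx : cur D a b s = toC x := cur_mem D a b hs
    constructor
    · refine Finset.mem_image.2 ⟨x, ?_, ?_⟩
      · rw [Set.Finite.mem_toFinset]; exact ⟨hxa, hxc⟩
      · obtain ⟨h1, h2⟩ := hσ x hxa
        exact inj1 _ ⟨h1.1.le, h1.2.le⟩ _ hs (by rw [h2, hcx])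
    · obtain ⟨h1, h2⟩ := hτ' x hxc
      have e : τ s = τ' x := by simp only [τ]; rw [hcx, toC.symm_apply_apply]
      rw [e]
      exact inj2 _ ht _ ⟨h1.1.le, h1.2.le⟩ (by rw [h2, ← hst, hcx])
  have hmain := abs_wb_le_card (continuous_cur D a b) (continuous_cur D c d) (A := 0) (B := 1)
    (c := 0) (d := 1) one_pos S τ key (fun s hs => (hSτ s hs).1)
    (fun s hs => by
      obtain ⟨L⟩ := locCross D hD hab h hcd h' hne (hS s hs).1 (hSτ s hs).1 (hSτ s hs).2.symm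
      exact L.index (continuous_cur D a b) (continuous_cur D c d))
    _ 0 1 le_rfl zero_le_one le_rfl (fun h0 => lt_irrefl _ (hS 0 h0).1.1)
    (fun h0 => lt_irrefl _ (hS 1 h0).1.2) rfl
  rw [wb_eq_xx D hab h hcd h' hac had hbc hbd, abs_neg, abs_mul,
    abs_of_pos (by positivity : (0 : ℝ) < 2 * Real.pi)] at hmain
  have h2 : |xx D a b c d| ≤ ((S.filter fun s => 0 < s ∧ s < 1).card : ℝ) :=
    le_of_mul_le_mul_left hmain (by positivity)
  refine h2.trans ?_
  have h3 : (S.filter fun s => 0 < s ∧ s < 1).card ≤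
      (arcInterior D (a, b) ∩ arcInterior D (c, d)).ncard := by
    refine (Finset.card_filter_le _ _).trans (Finset.card_image_le.trans ?_)
    rw [Set.ncard_eq_toFinset_card _ hfin]
  exact_mod_cast h3

open Classical in
/-- Summing over all ordered pairs of distinct edges: each crossing point is counted twice. -/
theorem sum_ncard_le (D : Drawing G) (hD : IsOrdinary D) (Q : Finset ((V × V) × (V × V)))
    (hQ : ∀ q ∈ Q, q.1 ∈ edgePairs G ∧ q.2 ∈ edgePairs G ∧ q.1 ≠ q.2) :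
    ∑ q ∈ Q, (arcInterior D q.1 ∩ arcInterior D q.2).ncard ≤ 2 * crossingCount D := by
  let C : Finset E2 := hD.1.toFinset
  have hC : crossingCount D = C.card := Set.ncard_eq_toFinset_card _ hD.1
  have h1 : ∀ q ∈ Q, (arcInterior D q.1 ∩ arcInterior D q.2).ncard =
      ∑ x ∈ C, if x ∈ arcInterior D q.1 ∩ arcInterior D q.2 then 1 else 0 := by
    intro q hq
    obtain ⟨e1, e2, e3⟩ := hQ q hq
    rw [Finset.sum_ite, Finset.sum_const_zero, add_zero, Finset.sum_const, smul_eq_mul, mul_one]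
    rw [← Set.ncard_coe_finset]
    congr 1
    ext x
    simp only [Finset.coe_filter, mem_ofPred_eq]
    constructor
    · intro hx
      refine ⟨?_, hx⟩
      rw [Set.Finite.mem_toFinset]
      exact ⟨q.1, e1, q.2, e2, e3, hx.1, hx.2⟩
    · intro hx; exact hx.2
  rw [Finset.sum_congr rfl h1, Finset.sum_comm, hC]
  calc ∑ x ∈ C, ∑ q ∈ Q, (if x ∈ arcInterior D q.1 ∩ arcInterior D q.2 then 1 else 0)
      ≤ ∑ _x ∈ C, 2 := by
        refine Finset.sum_le_sum fun x hx => ?_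
        rw [Finset.sum_ite, Finset.sum_const_zero, add_zero, Finset.sum_const, smul_eq_mul, mul_one]
        -- the point lies on exactly two edges
        rw [Set.Finite.mem_toFinset] at hx
        obtain ⟨e, he, f, hf, hef, hxe, hxf⟩ := hx
        have honly : ∀ g ∈ edgePairs G, x ∈ arcInterior D g → g = e ∨ g = f := by
          intro g hg hxg
          by_contra hcon
          push Not at hcon
          exact hD.2.2 x ⟨e, he, f, hf, g, hg, hef, hcon.2.symm, hcon.1.symm, hxe, hxf, hxg⟩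
        have hsub : (Q.filter fun q => x ∈ arcInterior D q.1 ∩ arcInterior D q.2) ⊆
            {(e, f), (f, e)} := by
          intro q hq
          obtain ⟨hq1, hq2⟩ := Finset.mem_filter.1 hq
          obtain ⟨e1, e2, e3⟩ := hQ q hq1
          have a1 := honly q.1 e1 hq2.1
          have a2 := honly q.2 e2 hq2.2
          simp only [Finset.mem_insert, Finset.mem_singleton]
          obtain ⟨q1, q2⟩ := q
          simp only at a1 a2 e3 ⊢
          rcases a1 with rfl | rfl <;> rcases a2 with rfl | rfl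
          · exact absurd rfl e3
          · left; rfl
          · right; rfl
          · exact absurd rfl e3
        exact (Finset.card_le_card hsub).trans Finset.card_le_two
    _ = 2 * C.card := by rw [Finset.sum_const, smul_eq_mul, mul_comm]

open Classical in
/-- **Interface theorem.** The sum of `|xx|` over any set of ordered pairs of disjoint edges (each
edge written with its smaller vertex first) is at most twice the number of crossings. -/
theorem sum_abs_xx_le (D : Drawing G) (hD : IsOrdinary D) (Q : Finset ((V × V) × (V × V)))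
    (hQ : ∀ q ∈ Q, q.1 ∈ edgePairs G ∧ q.2 ∈ edgePairs G ∧
      q.1.1 ≠ q.2.1 ∧ q.1.1 ≠ q.2.2 ∧ q.1.2 ≠ q.2.1 ∧ q.1.2 ≠ q.2.2) :
    ∑ q ∈ Q, |xx D q.1.1 q.1.2 q.2.1 q.2.2| ≤ 2 * (crossingCount D : ℝ) := by
  have h1 : ∑ q ∈ Q, |xx D q.1.1 q.1.2 q.2.1 q.2.2| ≤
      ∑ q ∈ Q, ((arcInterior D q.1 ∩ arcInterior D q.2).ncard : ℝ) := by
    refine Finset.sum_le_sum fun q hq => ?_
    obtain ⟨e1, e2, h3, h4, h5, h6⟩ := hQ q hq
    exact abs_xx_le D hD e1.1 e1.2 e2.1 e2.2 h3 h4 h5 h6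
  refine h1.trans ?_
  have h2 := sum_ncard_le D hD Q (fun q hq => by
    obtain ⟨e1, e2, h3, -⟩ := hQ q hq
    exact ⟨e1, e2, fun h => h3 (congrArg Prod.fst h)⟩)
  exact_mod_cast h2

end Crest.Agent.R036.Topo
end

-- ▼ part R036/RedB
section

/-! R036 (helper514): reduction of S0049 to a purely combinatorial inequality about integers
(integral van Kampen coset of `K_{m,n}`).

`BipIneq m n` : for all integer families `K b a a'`, `M a b b'`,
`4 Z(m) Z(n) ≤ Σ_{a ≠ a', b ≠ b'} |2 x(a,b;a',b')|` where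
`2 x(a,b;a',b') = s a a' + s b b' + 2 (K b' a' a - K b a a' + M a b b' - M a' b' b)`
(`s v w = 1` if `v < w`, `-1` otherwise).

Main theorem: `result_of : BipIneq m n → ∀ D, IsOrdinary D → Z(m) Z(n) ≤ crossingCount D`. -/

set_option autoImplicit false
open Set Topology Filter
open Crest.CombinatoricsR.TopDrawing

namespace Crest.Agent.R036.RedB

open Crest.Agent.R036.Topo

/-- The sign `±1`. -/
def s {n : ℕ} (v w : Fin n) : ℤ := if v < w then 1 else -1

variable {m n : ℕ}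

/-- `2 x(a,b;a',b')`, an even integer. -/
def X2 (K : Fin n → Fin m → Fin m → ℤ) (M : Fin m → Fin n → Fin n → ℤ)
    (a : Fin m) (b : Fin n) (a' : Fin m) (b' : Fin n) : ℤ :=
  s a a' + s b b' + 2 * (K b' a' a - K b a a' + M a b b' - M a' b' b)

/-- Ordered quadruples `(a, b, a', b')` with `a ≠ a'`, `b ≠ b'`. -/
def Quad (m n : ℕ) : Finset ((Fin m × Fin n) × (Fin m × Fin n)) :=
  Finset.univ.filter fun q => q.1.1 ≠ q.2.1 ∧ q.1.2 ≠ q.2.2

theorem mem_Quad {a a' : Fin m} {b b' : Fin n} :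
    ((a, b), (a', b')) ∈ Quad m n ↔ a ≠ a' ∧ b ≠ b' := by
  simp [Quad]

/-- The purely combinatorial inequality for `K_{m,n}` (integral form). -/
def BipIneq (m n : ℕ) : Prop :=
  ∀ (K : Fin n → Fin m → Fin m → ℤ) (M : Fin m → Fin n → Fin n → ℤ),
    4 * ((((m / 2) * ((m - 1) / 2) * (n / 2) * ((n - 1) / 2) : ℕ)) : ℤ) ≤
      ∑ q ∈ Quad m n, |X2 K M q.1.1 q.1.2 q.2.1 q.2.2|

/-- The complete bipartite graph of S0049. -/
abbrev KB (m n : ℕ) : SimpleGraph (Fin (m + n)) :=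
  SimpleGraph.fromRel (fun i j : Fin (m + n) => i.val < m ∧ m ≤ j.val)

abbrev va (n : ℕ) (a : Fin m) : Fin (m + n) := Fin.castAdd n a
abbrev vb (m : ℕ) (b : Fin n) : Fin (m + n) := Fin.natAdd m b

theorem va_lt_vb (a : Fin m) (b : Fin n) : va n a < vb m b := by
  rw [Fin.lt_def]
  simp only [va, vb, Fin.val_castAdd, Fin.val_natAdd]
  omega

theorem adj_ab (a : Fin m) (b : Fin n) : (KB m n).Adj (va n a) (vb m b) := by
  rw [SimpleGraph.fromRel_adj]
  refine ⟨(va_lt_vb a b).ne, Or.inl ⟨?_, ?_⟩⟩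
  · simp only [va, Fin.val_castAdd]; exact a.2
  · simp only [vb, Fin.val_natAdd]; omega

theorem va_inj {a a' : Fin m} (h : a ≠ a') : va n a ≠ va n a' := by
  intro h0; exact h (Fin.castAdd_injective m n h0)

theorem vb_inj {b b' : Fin n} (h : b ≠ b') : vb m b ≠ vb m b' := by
  intro h0; exact h (Fin.natAdd_injective n m h0)

theorem sum_quad_le (D : Drawing (KB m n)) (hD : IsOrdinary D) :
    ∑ q ∈ Quad m n, |xx D (va n q.1.1) (vb m q.1.2) (va n q.2.1) (vb m q.2.2)| ≤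
      2 * (crossingCount D : ℝ) := by
  classical
  let F : ((Fin m × Fin n) × (Fin m × Fin n)) → ((Fin (m + n) × Fin (m + n)) × (Fin (m + n) × Fin (m + n))) :=
    fun q => ((va n q.1.1, vb m q.1.2), (va n q.2.1, vb m q.2.2))
  have hF : Function.Injective F := by
    rintro ⟨⟨a, b⟩, a', b'⟩ ⟨⟨c, d⟩, c', d'⟩ h
    simp only [F, Prod.mk.injEq] at h
    obtain ⟨⟨h1, h2⟩, h3, h4⟩ := h
    have e1 := Fin.castAdd_injective m n h1
    have e2 := Fin.natAdd_injective n m h2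
    have e3 := Fin.castAdd_injective m n h3
    have e4 := Fin.natAdd_injective n m h4
    subst e1 e2 e3 e4
    rfl
  have h0 := sum_abs_xx_le D hD ((Quad m n).image F) (fun q hq => by
    obtain ⟨⟨⟨a, b⟩, a', b'⟩, hp, rfl⟩ := Finset.mem_image.1 hq
    obtain ⟨h1, h2⟩ := mem_Quad.1 hp
    refine ⟨⟨va_lt_vb a b, adj_ab a b⟩, ⟨va_lt_vb a' b', adj_ab a' b'⟩, va_inj h1,
      (va_lt_vb a b').ne, (va_lt_vb a' b).ne', vb_inj h2⟩)
  rw [Finset.sum_image (fun x _ y _ h => hF h)] at h0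
  exact h0

theorem exists_KM (D : Drawing (KB m n)) :
    ∃ (K : Fin n → Fin m → Fin m → ℤ) (M : Fin m → Fin n → Fin n → ℤ),
      ∀ a b a' b', a ≠ a' → b ≠ b' →
        2 * xx D (va n a) (vb m b) (va n a') (vb m b') = (X2 K M a b a' b' : ℝ) := by
  classical
  have h1 : ∀ (b : Fin n) (a a' : Fin m), a ≠ a' → ∃ k : ℤ,
      Th D (va n a) (vb m b) (va n a') = dir D (va n a') (vb m b) - dir D (va n a') (va n a) + k :=
    fun b a a' h => Th_mod D (adj_ab a b) (va_inj h.symm) (va_lt_vb a' b).ne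
  have h2 : ∀ (a : Fin m) (b b' : Fin n), b ≠ b' → ∃ k : ℤ,
      Th D (va n a) (vb m b) (vb m b') = dir D (vb m b') (vb m b) - dir D (vb m b') (va n a) + k :=
    fun a b b' h => Th_mod D (adj_ab a b) (va_lt_vb a b').ne' (vb_inj h.symm)
  have h3 : ∀ (a : Fin m) (b : Fin n), ∃ j : ℤ,
      dir D (va n a) (vb m b) = dir D (vb m b) (va n a) + 1 / 2 + j :=
    fun a b => dir_swap D (va_lt_vb a b).ne
  have h4 : ∀ a a' : Fin m, a < a' → ∃ e : ℤ,
      dir D (va n a') (va n a) = dir D (va n a) (va n a') + 1 / 2 + e :=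
    fun a a' h => dir_swap D (va_inj h.ne')
  have h5 : ∀ b b' : Fin n, b < b' → ∃ e : ℤ,
      dir D (vb m b') (vb m b) = dir D (vb m b) (vb m b') + 1 / 2 + e :=
    fun b b' h => dir_swap D (vb_inj h.ne')
  choose! k1 hk1 using h1
  choose! k2 hk2 using h2
  choose j hj using h3
  choose! e he using h4
  choose! e' he' using h5
  refine ⟨fun b a a' => k1 b a a' - (if a < a' then e a a' else 0),
    fun a b b' => k2 a b b' + j a b' + (if b < b' then e' b b' else 0), ?_⟩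
  intro a b a' b' ha hb
  unfold xx X2
  rw [hk1 b' a' a ha.symm, hk1 b a a' ha, hk2 a' b' b hb.symm, hk2 a b b' hb]
  have g1 := hj a b'
  have g2 := hj a' b
  have g3 : 2 * (dir D (va n a') (va n a) - dir D (va n a) (va n a')) =
      (s a a' : ℝ) + 2 * ((if a < a' then e a a' else 0 : ℤ) : ℝ) -
        2 * ((if a' < a then e a' a else 0 : ℤ) : ℝ) := by
    rcases lt_or_gt_of_ne ha with h | h
    · have := he a a' h
      simp only [s, if_pos h, if_neg (not_lt.2 h.le), Int.cast_one, Int.cast_zero]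
      linarith
    · have := he a' a h
      simp only [s, if_pos h, if_neg (not_lt.2 h.le), Int.cast_neg, Int.cast_one, Int.cast_zero]
      linarith
  have g4 : 2 * (dir D (vb m b') (vb m b) - dir D (vb m b) (vb m b')) =
      (s b b' : ℝ) + 2 * ((if b < b' then e' b b' else 0 : ℤ) : ℝ) -
        2 * ((if b' < b then e' b' b else 0 : ℤ) : ℝ) := by
    rcases lt_or_gt_of_ne hb with h | h
    · have := he' b b' h
      simp only [s, if_pos h, if_neg (not_lt.2 h.le), Int.cast_one, Int.cast_zero]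
      linarith
    · have := he' b' b h
      simp only [s, if_pos h, if_neg (not_lt.2 h.le), Int.cast_neg, Int.cast_one, Int.cast_zero]
      linarith
  push_cast at g3 g4 ⊢
  linarith

/-- **Reduction for `K_{m,n}`.** -/
theorem result_of (h : BipIneq m n) (D : Drawing (KB m n)) (hD : IsOrdinary D) :
    (m / 2) * ((m - 1) / 2) * (n / 2) * ((n - 1) / 2) ≤ crossingCount D := by
  obtain ⟨K, M, hx⟩ := exists_KM D
  have h1 := h K M
  have h2 := sum_quad_le D hD
  have h3 : ∑ q ∈ Quad m n, |(X2 K M q.1.1 q.1.2 q.2.1 q.2.2 : ℝ)| =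
      2 * ∑ q ∈ Quad m n, |xx D (va n q.1.1) (vb m q.1.2) (va n q.2.1) (vb m q.2.2)| := by
    rw [Finset.mul_sum]
    refine Finset.sum_congr rfl fun q hq => ?_
    obtain ⟨⟨a, b⟩, a', b'⟩ := q
    obtain ⟨ha, hb⟩ := mem_Quad.1 hq
    rw [← hx _ _ _ _ ha hb, abs_mul]
    norm_num
  have h4 : (4 * ((((m / 2) * ((m - 1) / 2) * (n / 2) * ((n - 1) / 2) : ℕ)) : ℝ)) ≤
      ∑ q ∈ Quad m n, |(X2 K M q.1.1 q.1.2 q.2.1 q.2.2 : ℝ)| := by
    have h6 : ((4 * ((((m / 2) * ((m - 1) / 2) * (n / 2) * ((n - 1) / 2) : ℕ)) : ℤ) : ℤ) : ℝ) ≤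
      ((∑ q ∈ Quad m n, |X2 K M q.1.1 q.1.2 q.2.1 q.2.2| : ℤ) : ℝ) := by exact_mod_cast h1
    simpa only [Int.cast_mul, Int.cast_ofNat, Int.cast_natCast, Int.cast_sum, Int.cast_abs] using h6
  rw [h3] at h4
  have h5 : ((((m / 2) * ((m - 1) / 2) * (n / 2) * ((n - 1) / 2) : ℕ)) : ℝ) ≤
      (crossingCount D : ℝ) := by linarith
  exact_mod_cast h5

end Crest.Agent.R036.RedB
end

-- ▼ part R036/RedK
section

/-! R036 (helper514): reduction of S0048 to a purely combinatorial inequality about integers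
(integral van Kampen coset of `K_n`).

`KnIneq n` : for every integer family `W v a b`, antisymmetric in `(a, b)`,
`2 * (4 * H(n)) ≤ Σ_{(a,b,c,d) distinct} |x(a,b;c,d)|` where
`x(a,b;c,d) = (s a c - s a d - s b c + s b d)/2 + W a c d - W b c d + W d a b - W c a b`
(`s v w = 1` if `v < w` and `-1` otherwise), written for `2 x`.

Main theorem: `result_of : KnIneq n → ∀ D, IsOrdinary D → (4 H(n)) ≤ 4 * crossingCount D`. -/

set_option autoImplicit false
open Set Topology Filter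
open Crest.CombinatoricsR.TopDrawing

namespace Crest.Agent.R036.RedK

open Crest.Agent.R036.Topo

/-- The sign `±1`. -/
def s {n : ℕ} (v w : Fin n) : ℤ := if v < w then 1 else -1

/-- `2 x(a,b;c,d)`, an even integer. -/
def X2 {n : ℕ} (W : Fin n → Fin n → Fin n → ℤ) (a b c d : Fin n) : ℤ :=
  s a c - s a d - s b c + s b d + 2 * (W a c d - W b c d + W d a b - W c a b)

/-- All four distinct. -/
def Dist4 {n : ℕ} (a b c d : Fin n) : Prop :=
  a ≠ b ∧ a ≠ c ∧ a ≠ d ∧ b ≠ c ∧ b ≠ d ∧ c ≠ d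

instance {n : ℕ} (a b c d : Fin n) : Decidable (Dist4 a b c d) := by
  unfold Dist4; infer_instance

/-- The set of ordered quadruples of distinct indices. -/
def Quad (n : ℕ) : Finset (Fin n × Fin n × Fin n × Fin n) :=
  Finset.univ.filter fun q => Dist4 q.1 q.2.1 q.2.2.1 q.2.2.2

theorem mem_Quad {n : ℕ} {a b c d : Fin n} : (a, b, c, d) ∈ Quad n ↔ Dist4 a b c d := by
  simp [Quad]

/-- The purely combinatorial inequality for `K_n` (integral form; `4 * (product) ≤ Σ |2x|`). -/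
def KnIneq (n : ℕ) : Prop :=
  ∀ W : Fin n → Fin n → Fin n → ℤ, (∀ v a b, v ≠ a → v ≠ b → a ≠ b → W v b a = - W v a b) →
    4 * ((((n / 2) * ((n - 1) / 2) * ((n - 2) / 2) * ((n - 3) / 2) : ℕ)) : ℤ) ≤
      ∑ q ∈ Quad n, |X2 W q.1 q.2.1 q.2.2.1 q.2.2.2|

variable {n : ℕ}

theorem xx_swap1 (D : Drawing (⊤ : SimpleGraph (Fin n))) {a b c d : Fin n} (hab : a ≠ b) :
    xx D b a c d = - xx D a b c d := by
  unfold xx
  rw [Th_swap D hab d, Th_swap D hab c]
  ring

theorem xx_swap2 (D : Drawing (⊤ : SimpleGraph (Fin n))) {a b c d : Fin n} (hcd : c ≠ d) :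
    xx D a b d c = - xx D a b c d := by
  unfold xx
  rw [Th_swap D hcd a, Th_swap D hcd b]
  ring

/-- The sum over all ordered quadruples of distinct vertices is at most `8` times the number of
crossings. -/
theorem sum_quad_le (D : Drawing (⊤ : SimpleGraph (Fin n))) (hD : IsOrdinary D) :
    ∑ q ∈ Quad n, |xx D q.1 q.2.1 q.2.2.1 q.2.2.2| ≤ 8 * (crossingCount D : ℝ) := by
  classical
  -- quadruples with a < b and c < d
  let Q0 : Finset ((Fin n × Fin n) × (Fin n × Fin n)) :=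
    Finset.univ.filter fun q => Dist4 q.1.1 q.1.2 q.2.1 q.2.2 ∧ q.1.1 < q.1.2 ∧ q.2.1 < q.2.2
  have h0 := sum_abs_xx_le D hD Q0 (fun q hq => by
    obtain ⟨-, ⟨h1, h2, h3, h4, h5, h6⟩, h7, h8⟩ := Finset.mem_filter.1 hq
    exact ⟨⟨h7, by simpa using h1⟩, ⟨h8, by simpa using h6⟩, h2, h3, h4, h5⟩)
  -- the sum as a sum of four
  have key : ∑ q ∈ Quad n, |xx D q.1 q.2.1 q.2.2.1 q.2.2.2| =
      4 * ∑ q ∈ Q0, |xx D q.1.1 q.1.2 q.2.1 q.2.2| := by
    let f : (Fin n × Fin n × Fin n × Fin n) → ℝ := fun q => |xx D q.1 q.2.1 q.2.2.1 q.2.2.2|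
    have e1 : ∀ a b c d : Fin n, a ≠ b → f (b, a, c, d) = f (a, b, c, d) := by
      intro a b c d hab
      simp only [f]
      rw [xx_swap1 D hab, abs_neg]
    have e2 : ∀ a b c d : Fin n, c ≠ d → f (a, b, d, c) = f (a, b, c, d) := by
      intro a b c d hab
      simp only [f]
      rw [xx_swap2 D hab, abs_neg]
    -- split by a < b
    have step1 : ∑ q ∈ Quad n, f q = 2 * ∑ q ∈ (Quad n).filter (fun q => q.1 < q.2.1), f q := by
      rw [← Finset.sum_filter_add_sum_filter_not (Quad n) (fun q => q.1 < q.2.1) f, two_mul]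
      congr 1
      refine Finset.sum_bij' (fun q _ => (q.2.1, q.1, q.2.2.1, q.2.2.2))
        (fun q _ => (q.2.1, q.1, q.2.2.1, q.2.2.2)) ?_ ?_ ?_ ?_ ?_
      · rintro ⟨a, b, c, d⟩ hq
        simp only [Finset.mem_filter, mem_Quad, Dist4] at hq ⊢
        obtain ⟨⟨h1, h2, h3, h4, h5, h6⟩, h7⟩ := hq
        exact ⟨⟨h1.symm, h4, h5, h2, h3, h6⟩, lt_of_le_of_ne (not_lt.1 h7) h1.symm⟩
      · rintro ⟨a, b, c, d⟩ hq
        simp only [Finset.mem_filter, mem_Quad, Dist4] at hq ⊢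
        obtain ⟨⟨h1, h2, h3, h4, h5, h6⟩, h7⟩ := hq
        exact ⟨⟨h1.symm, h4, h5, h2, h3, h6⟩, not_lt.2 h7.le⟩
      · rintro ⟨a, b, c, d⟩ hq; rfl
      · rintro ⟨a, b, c, d⟩ hq; rfl
      · rintro ⟨a, b, c, d⟩ hq
        simp only [Finset.mem_filter, mem_Quad, Dist4] at hq
        exact (e1 a b c d hq.1.1).symm
    have step2 : ∑ q ∈ (Quad n).filter (fun q => q.1 < q.2.1), f q =
        2 * ∑ q ∈ ((Quad n).filter (fun q => q.1 < q.2.1)).filter (fun q => q.2.2.1 < q.2.2.2),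
          f q := by
      rw [← Finset.sum_filter_add_sum_filter_not ((Quad n).filter (fun q => q.1 < q.2.1))
        (fun q => q.2.2.1 < q.2.2.2) f, two_mul]
      congr 1
      refine Finset.sum_bij' (fun q _ => (q.1, q.2.1, q.2.2.2, q.2.2.1))
        (fun q _ => (q.1, q.2.1, q.2.2.2, q.2.2.1)) ?_ ?_ ?_ ?_ ?_
      · rintro ⟨a, b, c, d⟩ hq
        simp only [Finset.mem_filter, mem_Quad, Dist4] at hq ⊢
        obtain ⟨⟨⟨h1, h2, h3, h4, h5, h6⟩, h8⟩, h7⟩ := hq
        exact ⟨⟨⟨h1, h3, h2, h5, h4, h6.symm⟩, h8⟩, lt_of_le_of_ne (not_lt.1 h7) h6.symm⟩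
      · rintro ⟨a, b, c, d⟩ hq
        simp only [Finset.mem_filter, mem_Quad, Dist4] at hq ⊢
        obtain ⟨⟨⟨h1, h2, h3, h4, h5, h6⟩, h8⟩, h7⟩ := hq
        exact ⟨⟨⟨h1, h3, h2, h5, h4, h6.symm⟩, h8⟩, not_lt.2 h7.le⟩
      · rintro ⟨a, b, c, d⟩ hq; rfl
      · rintro ⟨a, b, c, d⟩ hq; rfl
      · rintro ⟨a, b, c, d⟩ hq
        simp only [Finset.mem_filter, mem_Quad, Dist4] at hq
        exact (e2 a b c d hq.1.1.2.2.2.2.2).symm
    have step3 : ∑ q ∈ ((Quad n).filter (fun q => q.1 < q.2.1)).filter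
        (fun q => q.2.2.1 < q.2.2.2), f q = ∑ q ∈ Q0, |xx D q.1.1 q.1.2 q.2.1 q.2.2| := by
      refine Finset.sum_bij' (fun q _ => ((q.1, q.2.1), (q.2.2.1, q.2.2.2)))
        (fun q _ => (q.1.1, q.1.2, q.2.1, q.2.2)) ?_ ?_ ?_ ?_ ?_
      · rintro ⟨a, b, c, d⟩ hq
        simp only [Q0, Finset.mem_filter, Finset.mem_univ, true_and, mem_Quad] at hq ⊢
        exact ⟨hq.1.1, hq.1.2, hq.2⟩
      · rintro ⟨⟨a, b⟩, c, d⟩ hq
        simp only [Q0, Finset.mem_filter, Finset.mem_univ, true_and, mem_Quad] at hq ⊢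
        exact ⟨⟨hq.1, hq.2.1⟩, hq.2.2⟩
      · rintro ⟨a, b, c, d⟩ hq; rfl
      · rintro ⟨⟨a, b⟩, c, d⟩ hq; rfl
      · rintro ⟨a, b, c, d⟩ hq; rfl
    change ∑ q ∈ Quad n, f q = _
    rw [step1, step2, step3]
    ring
  rw [key]
  linarith

/-- Angle data of a drawing of `K_n` can be normalised to integers. -/
theorem exists_W (D : Drawing (⊤ : SimpleGraph (Fin n))) :
    ∃ W : Fin n → Fin n → Fin n → ℤ,
      (∀ v a b, v ≠ a → v ≠ b → a ≠ b → W v b a = - W v a b) ∧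
      ∀ a b c d, Dist4 a b c d → 2 * xx D a b c d = (X2 W a b c d : ℝ) := by
  classical
  -- symmetric potential
  let φ : Fin n → Fin n → ℝ := fun v w => if v < w then dir D v w else dir D w v
  have hφ : ∀ v w, v ≠ w → φ v w = φ w v := by
    intro v w hvw
    simp only [φ]
    rcases lt_or_gt_of_ne hvw with h | h
    · rw [if_pos h, if_neg (not_lt.2 h.le)]
    · rw [if_neg (not_lt.2 h.le), if_pos h]
  -- dir v w = φ v w + β v w + integer, β = 0 if v < w, 1/2 otherwise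
  let β : Fin n → Fin n → ℝ := fun v w => if v < w then 0 else 1 / 2
  have hβ : ∀ v w, v ≠ w → ∃ k : ℤ, dir D v w = φ v w + β v w + k := by
    intro v w hvw
    simp only [φ, β]
    rcases lt_or_gt_of_ne hvw with h | h
    · rw [if_pos h, if_pos h]
      exact ⟨0, by simp⟩
    · rw [if_neg (not_lt.2 h.le), if_neg (not_lt.2 h.le)]
      exact dir_swap D hvw
  have hex : ∀ v a b : Fin n, v ≠ a → v ≠ b → a ≠ b →
      ∃ k : ℤ, Th D a b v = (φ v b + β v b) - (φ v a + β v a) + k := by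
    intro v a b hva hvb hab
    obtain ⟨k, hk⟩ := Th_mod D (a := a) (b := b) (v := v) (by simpa using hab) hva hvb
    obtain ⟨k1, hk1⟩ := hβ v a hva
    obtain ⟨k2, hk2⟩ := hβ v b hvb
    refine ⟨k + k2 - k1, ?_⟩
    rw [hk, hk1, hk2]
    push_cast
    ring
  choose! W0 hW0 using hex
  refine ⟨W0, ?_, ?_⟩
  · intro v a b hva hvb hab
    have h1 := hW0 v a b hva hvb hab
    have h2 := hW0 v b a hvb hva hab.symm
    rw [Th_swap D hab v] at h2
    have h3 : ((W0 v b a : ℤ) : ℝ) = ((- W0 v a b : ℤ) : ℝ) := by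
      push_cast
      linarith
    exact_mod_cast h3
  · intro a b c d h
    obtain ⟨h1, h2, h3, h4, h5, h6⟩ := h
    unfold xx X2
    rw [hW0 a c d h2 h3 h6, hW0 b c d h4 h5 h6, hW0 d a b h3.symm h5.symm h1,
      hW0 c a b h2.symm h4.symm h1]
    have hs : ∀ v w : Fin n, v ≠ w → 2 * (β w v - β v w) = (s v w : ℝ) := by
      intro v w hvw
      simp only [β, s]
      rcases lt_or_gt_of_ne hvw with h | h
      · rw [if_pos h, if_neg (not_lt.2 h.le), if_pos h]; norm_num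
      · rw [if_neg (not_lt.2 h.le), if_pos h, if_neg (not_lt.2 h.le)]; norm_num
    have a1 := hs a c h2
    have a2 := hs a d h3
    have a3 := hs b c h4
    have a4 := hs b d h5
    have b1 := hφ a c h2
    have b2 := hφ a d h3
    have b3 := hφ b c h4
    have b4 := hφ b d h5
    push_cast
    linarith

/-- **Reduction for `K_n`.** -/
theorem result_of {n : ℕ} (h : KnIneq n) (D : Drawing (⊤ : SimpleGraph (Fin n)))
    (hD : IsOrdinary D) :
    (n / 2) * ((n - 1) / 2) * ((n - 2) / 2) * ((n - 3) / 2) ≤ 4 * crossingCount D := by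
  obtain ⟨W, hW, hx⟩ := exists_W D
  have h1 := h W hW
  have h2 := sum_quad_le D hD
  have h3 : ∑ q ∈ Quad n, |(X2 W q.1 q.2.1 q.2.2.1 q.2.2.2 : ℝ)| =
      2 * ∑ q ∈ Quad n, |xx D q.1 q.2.1 q.2.2.1 q.2.2.2| := by
    rw [Finset.mul_sum]
    refine Finset.sum_congr rfl fun q hq => ?_
    rw [← hx _ _ _ _ (Finset.mem_filter.1 hq).2, abs_mul]
    norm_num
  have h4 : (4 * ((((n / 2) * ((n - 1) / 2) * ((n - 2) / 2) * ((n - 3) / 2) : ℕ)) : ℝ)) ≤
      ∑ q ∈ Quad n, |(X2 W q.1 q.2.1 q.2.2.1 q.2.2.2 : ℝ)| := by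
    have h6 : ((4 * ((((n / 2) * ((n - 1) / 2) * ((n - 2) / 2) * ((n - 3) / 2) : ℕ)) : ℤ) : ℤ) : ℝ) ≤
      ((∑ q ∈ Quad n, |X2 W q.1 q.2.1 q.2.2.1 q.2.2.2| : ℤ) : ℝ) := by exact_mod_cast h1
    simpa only [Int.cast_mul, Int.cast_ofNat, Int.cast_natCast, Int.cast_sum, Int.cast_abs] using h6
  rw [h3] at h4
  have h5 : ((((n / 2) * ((n - 1) / 2) * ((n - 2) / 2) * ((n - 3) / 2) : ℕ)) : ℝ) ≤
      4 * (crossingCount D : ℝ) := by linarith
  exact_mod_cast h5

end Crest.Agent.R036.RedK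
end

-- ▼ part R36/Glue172

/-! R36 (helper172): glue.  `BipF2 m n`, `KnF2 n` = the mod 2 (van Kampen coset) counting statements;
they imply the integral inequalities `RedB.BipIneq`, `RedK.KnIneq` and hence S0049, S0048.
Even parameters follow from odd ones by counting. -/

set_option autoImplicit false
open Crest.CombinatoricsR.TopDrawing

namespace Crest.Agent.R36.G172
open Crest.Agent.R036

/-- indicator in `ZMod 2` -/
def iv (p : Prop) [Decidable p] : ZMod 2 := if p then 1 else 0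

section Bip

variable {m n : ℕ}

/-- `x(ij,kl)`, parity of the crossings of the edges `ij` and `kl` of `K_{m,n}`. -/
def xB (K : Fin n → Fin m → Fin m → ZMod 2) (M : Fin m → Fin n → Fin n → ZMod 2)
    (i : Fin m) (j : Fin n) (k : Fin m) (l : Fin n) : ZMod 2 :=
  1 + iv (i < k) + iv (j < l) + K l k i + K j i k + M i j l + M k l j

/-- the ordered odd pairs of disjoint edges -/
def SB (K : Fin n → Fin m → Fin m → ZMod 2) (M : Fin m → Fin n → Fin n → ZMod 2) :
    Finset ((Fin m × Fin n) × (Fin m × Fin n)) :=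
  Finset.univ.filter fun q => q.1.1 ≠ q.2.1 ∧ q.1.2 ≠ q.2.2 ∧ xB K M q.1.1 q.1.2 q.2.1 q.2.2 = 1

theorem mem_SB {K : Fin n → Fin m → Fin m → ZMod 2} {M : Fin m → Fin n → Fin n → ZMod 2}
    {q : (Fin m × Fin n) × (Fin m × Fin n)} :
    q ∈ SB K M ↔ q.1.1 ≠ q.2.1 ∧ q.1.2 ≠ q.2.2 ∧ xB K M q.1.1 q.1.2 q.2.1 q.2.2 = 1 := by
  simp [SB]

end Bip

/-- **The F2 form of Zarankiewicz** (count of ordered pairs, hence the factor `2`). -/
def BipF2 (m n : ℕ) : Prop :=
  ∀ (K : Fin n → Fin m → Fin m → ZMod 2) (M : Fin m → Fin n → Fin n → ZMod 2),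
    2 * ((m / 2) * ((m - 1) / 2) * (n / 2) * ((n - 1) / 2)) ≤ (SB K M).card

theorem iv_cast (p : Prop) [Decidable p] : iv p = (((if p then 1 else 0 : ℤ)) : ZMod 2) := by
  unfold iv; split_ifs <;> simp

theorem zneg (x : ZMod 2) : -x = x := by
  revert x; decide

theorem zsub (x y : ZMod 2) : x - y = x + y := by
  revert x y; decide

/-- (G1) -/
theorem bipIneq_of {m n : ℕ} (h : BipF2 m n) : RedB.BipIneq m n := by
  classical
  intro K M
  have h1 := h (fun b a a' => (K b a a' : ZMod 2)) (fun a b b' => (M a b b' : ZMod 2))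
  set S := SB (fun b a a' => (K b a a' : ZMod 2)) (fun a b b' => (M a b b' : ZMod 2)) with hS
  have hsub : S ⊆ RedB.Quad m n := by
    intro q hq
    have := mem_SB.1 hq
    obtain ⟨⟨a, b⟩, a', b'⟩ := q
    exact RedB.mem_Quad.2 ⟨this.1, this.2.1⟩
  have h2 : ∑ q ∈ S, (2 : ℤ) ≤ ∑ q ∈ RedB.Quad m n, |RedB.X2 K M q.1.1 q.1.2 q.2.1 q.2.2| := by
    refine le_trans (Finset.sum_le_sum ?_) (Finset.sum_le_sum_of_subset_of_nonneg hsub
      (fun _ _ _ => abs_nonneg _))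
    intro q hq
    obtain ⟨⟨a, b⟩, a', b'⟩ := q
    have hx := (mem_SB.1 hq).2.2
    simp only at hx ⊢
    set y : ℤ := (if a < a' then 1 else 0) + (if b < b' then 1 else 0) - 1 +
      (K b' a' a - K b a a' + M a b b' - M a' b' b) with hy
    have hX : RedB.X2 K M a b a' b' = 2 * y := by
      unfold RedB.X2 RedB.s
      rw [hy]; split_ifs <;> ring
    have hc : ((y : ℤ) : ZMod 2) = 1 := by
      rw [← hx, hy, xB, iv_cast, iv_cast]
      push_cast
      simp only [zsub]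
      ring
    have hy0 : y ≠ 0 := by
      intro h0; rw [h0] at hc; simp at hc
    rw [hX, abs_mul]
    have : 1 ≤ |y| := Int.one_le_abs hy0
    simpa using this
  rw [Finset.sum_const, nsmul_eq_mul] at h2
  refine le_trans ?_ h2
  have h3 : ((2 * ((m / 2) * ((m - 1) / 2) * (n / 2) * ((n - 1) / 2)) : ℕ) : ℤ) ≤ (S.card : ℤ) := by
    exact_mod_cast h1
  push_cast at h3 ⊢
  linarith

theorem bipF2_swap {m n : ℕ} (h : BipF2 m n) : BipF2 n m := by
  classical
  intro K M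
  have h1 := h M K
  have h2 : (SB M K).card ≤ (SB K M).card := by
    refine Finset.card_le_card_of_injOn (fun q => ((q.1.2, q.1.1), (q.2.2, q.2.1))) ?_ ?_
    · intro q hq
      have hq' := mem_SB.1 (Finset.mem_coe.1 hq)
      refine Finset.mem_coe.2 (mem_SB.2 ⟨hq'.2.1, hq'.1, ?_⟩)
      rw [← hq'.2.2]
      simp only [xB]
      ring
    · rintro ⟨⟨a, b⟩, c, d⟩ _ ⟨⟨a', b'⟩, c', d'⟩ _ heq
      simp only [Prod.mk.injEq] at heq
      obtain ⟨⟨rfl, rfl⟩, rfl, rfl⟩ := heq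
      rfl
  refine le_trans (le_of_eq ?_) (le_trans h1 h2)
  ring

/-- deleting a row -/
theorem row_count {m n : ℕ} (h : BipF2 m n) (K : Fin n → Fin (m + 1) → Fin (m + 1) → ZMod 2)
    (M : Fin (m + 1) → Fin n → Fin n → ZMod 2) :
    (m + 1) * (2 * ((m / 2) * ((m - 1) / 2) * (n / 2) * ((n - 1) / 2))) ≤
      (m - 1) * (SB K M).card := by
  classical
  have h1 : ∀ v : Fin (m + 1), 2 * ((m / 2) * ((m - 1) / 2) * (n / 2) * ((n - 1) / 2)) ≤
      ((SB K M).filter fun q => v ≠ q.1.1 ∧ v ≠ q.2.1).card := by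
    intro v
    have h2 := h (fun b a a' => K b (v.succAbove a) (v.succAbove a'))
      (fun a => M (v.succAbove a))
    refine le_trans h2 ?_
    refine Finset.card_le_card_of_injOn
      (fun q => ((v.succAbove q.1.1, q.1.2), (v.succAbove q.2.1, q.2.2))) ?_ ?_
    · intro q hq
      have hq' := mem_SB.1 (Finset.mem_coe.1 hq)
      refine Finset.mem_coe.2 (Finset.mem_filter.2 ⟨mem_SB.2 ⟨?_, hq'.2.1, ?_⟩, ?_, ?_⟩)
      · intro h0; exact hq'.1 (Fin.succAbove_right_injective h0)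
      · rw [← hq'.2.2]
        simp only [xB]
        congr 6
        simp only [iv, Fin.succAbove_lt_succAbove_iff]
      · exact (Fin.succAbove_ne v _).symm
      · exact (Fin.succAbove_ne v _).symm
    · rintro ⟨⟨a, b⟩, c, d⟩ _ ⟨⟨a', b'⟩, c', d'⟩ _ heq
      simp only [Prod.mk.injEq] at heq
      obtain ⟨⟨e1, rfl⟩, e2, rfl⟩ := heq
      have := Fin.succAbove_right_injective e1
      have := Fin.succAbove_right_injective e2
      subst_vars
      rfl
  have h3 : ∑ v : Fin (m + 1), ((SB K M).filter fun q => v ≠ q.1.1 ∧ v ≠ q.2.1).card =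
      ∑ q ∈ SB K M, ((Finset.univ : Finset (Fin (m + 1))).filter
        fun v => v ≠ q.1.1 ∧ v ≠ q.2.1).card := by
    simp only [Finset.card_filter]
    exact Finset.sum_comm
  have h4 : ∀ q ∈ SB K M, ((Finset.univ : Finset (Fin (m + 1))).filter
        fun v => v ≠ q.1.1 ∧ v ≠ q.2.1).card = m - 1 := by
    intro q hq
    have hne := (mem_SB.1 hq).1
    have : ((Finset.univ : Finset (Fin (m + 1))).filter fun v => v ≠ q.1.1 ∧ v ≠ q.2.1) =
        (Finset.univ.erase q.1.1).erase q.2.1 := by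
      ext v; simp [and_comm]
    rw [this, Finset.card_erase_of_mem, Finset.card_erase_of_mem (Finset.mem_univ _),
      Finset.card_univ, Fintype.card_fin]
    · rfl
    · exact Finset.mem_erase.2 ⟨hne.symm, Finset.mem_univ _⟩
  rw [Finset.sum_congr rfl h4, Finset.sum_const, smul_eq_mul, mul_comm] at h3
  rw [← h3]
  have h5 := Finset.sum_le_sum (s := (Finset.univ : Finset (Fin (m + 1)))) (fun v _ => h1 v)
  rw [Finset.sum_const, Finset.card_univ, Fintype.card_fin, smul_eq_mul] at h5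
  exact h5

theorem bipF2_succ {k n : ℕ} (h : BipF2 (2 * k + 1) n) : BipF2 (2 * k + 2) n := by
  intro K M
  rcases Nat.eq_zero_or_pos k with rfl | hk
  · simp
  have h1 := row_count h K M
  have e1 : (2 * k + 1) / 2 = k := by omega
  have e2 : (2 * k + 1 - 1) / 2 = k := by omega
  have e3 : (2 * k + 2) / 2 = k + 1 := by omega
  have e4 : (2 * k + 2 - 1) / 2 = k := by omega
  have e5 : 2 * k + 1 - 1 = 2 * k := by omega
  rw [e1, e2, e5] at h1
  rw [e3, e4]
  have h2 : (2 * k) * (2 * ((k + 1) * k * (n / 2) * ((n - 1) / 2))) ≤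
      (2 * k) * (SB K M).card := by
    refine le_trans (le_of_eq ?_) h1
    ring
  exact Nat.le_of_mul_le_mul_left h2 (by omega)

theorem bipF2_small {m n : ℕ} (h : m ≤ 2) : BipF2 m n := by
  intro K M
  have : (m / 2) * ((m - 1) / 2) = 0 := by
    have : (m - 1) / 2 = 0 := by omega
    rw [this]; simp
  rw [this]; simp

/-- (G3) -/
theorem bipF2_all (h : ∀ d e : ℕ, BipF2 (2 * d + 3) (2 * e + 3)) : ∀ m n : ℕ, BipF2 m n := by
  have step : ∀ n : ℕ, (∀ d : ℕ, BipF2 (2 * d + 3) n) → ∀ m, BipF2 m n := by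
    intro n hn m
    by_cases hm : m ≤ 2
    · exact bipF2_small hm
    obtain ⟨d, hd⟩ : ∃ d, m = 2 * d + 3 ∨ m = 2 * (d + 1) + 2 := by
      refine ⟨(m - 3) / 2, ?_⟩; omega
    rcases hd with rfl | rfl
    · exact hn d
    · exact bipF2_succ (by simpa [Nat.mul_add, add_assoc] using hn d)
  intro m n
  refine step n (fun d => ?_) m
  exact bipF2_swap (step (2 * d + 3) (fun e => h e d) n)

section Kn

variable {n : ℕ}

/-- `x(ab,cd)` -/
def xK (W : Fin n → Fin n → Fin n → ZMod 2) (a b c d : Fin n) : ZMod 2 :=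
  iv (a < c) + iv (a < d) + iv (b < c) + iv (b < d) + W a c d + W b c d + W d a b + W c a b

/-- ordered quadruples (8 per pair of disjoint edges) -/
def SK (W : Fin n → Fin n → Fin n → ZMod 2) : Finset (Fin n × Fin n × Fin n × Fin n) :=
  Finset.univ.filter fun q =>
    RedK.Dist4 q.1 q.2.1 q.2.2.1 q.2.2.2 ∧ xK W q.1 q.2.1 q.2.2.1 q.2.2.2 = 1

theorem mem_SK {W : Fin n → Fin n → Fin n → ZMod 2} {q : Fin n × Fin n × Fin n × Fin n} :
    q ∈ SK W ↔ RedK.Dist4 q.1 q.2.1 q.2.2.1 q.2.2.2 ∧ xK W q.1 q.2.1 q.2.2.1 q.2.2.2 = 1 := by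
  simp [SK]

end Kn

/-- **The F2 form of Harary–Hill** -/
def KnF2 (n : ℕ) : Prop :=
  ∀ W : Fin n → Fin n → Fin n → ZMod 2, (∀ v a b, W v a b = W v b a) →
    2 * ((n / 2) * ((n - 1) / 2) * ((n - 2) / 2) * ((n - 3) / 2)) ≤ (SK W).card

/-- (G2) -/
theorem knIneq_of {n : ℕ} (h : KnF2 n) : RedK.KnIneq n := by
  classical
  intro W hW
  set W' : Fin n → Fin n → Fin n → ZMod 2 := fun v a b =>
    if v ≠ a ∧ v ≠ b ∧ a ≠ b then (W v a b : ZMod 2) else 0 with hW'
  have hsymm : ∀ v a b, W' v a b = W' v b a := by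
    intro v a b
    simp only [hW']
    by_cases h0 : v ≠ a ∧ v ≠ b ∧ a ≠ b
    · rw [if_pos h0, if_pos ⟨h0.2.1, h0.1, h0.2.2.symm⟩, hW v a b h0.1 h0.2.1 h0.2.2]
      push_cast
      rw [zneg]
    · rw [if_neg h0, if_neg]
      intro h1; exact h0 ⟨h1.2.1, h1.1, h1.2.2.symm⟩
  have h1 := h W' hsymm
  set S := SK W' with hS
  have hsub : S ⊆ RedK.Quad n := by
    intro q hq
    have := (mem_SK.1 hq).1
    exact RedK.mem_Quad.2 this
  have h2 : ∑ q ∈ S, (2 : ℤ) ≤ ∑ q ∈ RedK.Quad n, |RedK.X2 W q.1 q.2.1 q.2.2.1 q.2.2.2| := by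
    refine le_trans (Finset.sum_le_sum ?_) (Finset.sum_le_sum_of_subset_of_nonneg hsub
      (fun _ _ _ => abs_nonneg _))
    intro q hq
    obtain ⟨a, b, c, d⟩ := q
    obtain ⟨⟨n1, n2, n3, n4, n5, n6⟩, hx⟩ := mem_SK.1 hq
    simp only at hx n1 n2 n3 n4 n5 n6 ⊢
    set y : ℤ := (if a < c then 1 else 0) - (if a < d then 1 else 0) - (if b < c then 1 else 0) +
      (if b < d then 1 else 0) + (W a c d - W b c d + W d a b - W c a b) with hy
    have hX : RedK.X2 W a b c d = 2 * y := by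
      unfold RedK.X2 RedK.s
      rw [hy]; split_ifs <;> ring
    have w1 : W' a c d = (W a c d : ZMod 2) := if_pos ⟨n2, n3, n6⟩
    have w2 : W' b c d = (W b c d : ZMod 2) := if_pos ⟨n4, n5, n6⟩
    have w3 : W' d a b = (W d a b : ZMod 2) := if_pos ⟨n3.symm, n5.symm, n1⟩
    have w4 : W' c a b = (W c a b : ZMod 2) := if_pos ⟨n2.symm, n4.symm, n1⟩
    have hc : ((y : ℤ) : ZMod 2) = 1 := by
      rw [← hx, hy, xK, w1, w2, w3, w4, iv_cast, iv_cast, iv_cast, iv_cast]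
      push_cast
      simp only [zsub]
      ring
    have hy0 : y ≠ 0 := by
      intro h0; rw [h0] at hc; simp at hc
    rw [hX, abs_mul]
    have : 1 ≤ |y| := Int.one_le_abs hy0
    simpa using this
  rw [Finset.sum_const, nsmul_eq_mul] at h2
  refine le_trans ?_ h2
  have h3 : ((2 * ((n / 2) * ((n - 1) / 2) * ((n - 2) / 2) * ((n - 3) / 2)) : ℕ) : ℤ) ≤
      (S.card : ℤ) := by
    exact_mod_cast h1
  push_cast at h3 ⊢
  linarith

theorem del_count {n : ℕ} (h : KnF2 n) (W : Fin (n + 1) → Fin (n + 1) → Fin (n + 1) → ZMod 2)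
    (hW : ∀ v a b, W v a b = W v b a) :
    (n + 1) * (2 * ((n / 2) * ((n - 1) / 2) * ((n - 2) / 2) * ((n - 3) / 2))) ≤
      (n - 3) * (SK W).card := by
  classical
  have h1 : ∀ v : Fin (n + 1), 2 * ((n / 2) * ((n - 1) / 2) * ((n - 2) / 2) * ((n - 3) / 2)) ≤
      ((SK W).filter fun q => v ≠ q.1 ∧ v ≠ q.2.1 ∧ v ≠ q.2.2.1 ∧ v ≠ q.2.2.2).card := by
    intro v
    have h2 := h (fun u a b => W (v.succAbove u) (v.succAbove a) (v.succAbove b))
      (fun _ _ _ => hW _ _ _)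
    refine le_trans h2 ?_
    refine Finset.card_le_card_of_injOn
      (fun q => (v.succAbove q.1, v.succAbove q.2.1, v.succAbove q.2.2.1, v.succAbove q.2.2.2))
      ?_ ?_
    · intro q hq
      obtain ⟨⟨n1, n2, n3, n4, n5, n6⟩, hx⟩ := mem_SK.1 (Finset.mem_coe.1 hq)
      have inj := Fin.succAbove_right_injective (p := v)
      refine Finset.mem_coe.2 (Finset.mem_filter.2 ⟨mem_SK.2 ⟨⟨inj.ne n1, inj.ne n2, inj.ne n3,
        inj.ne n4, inj.ne n5, inj.ne n6⟩, ?_⟩, (Fin.succAbove_ne v _).symm,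
        (Fin.succAbove_ne v _).symm, (Fin.succAbove_ne v _).symm, (Fin.succAbove_ne v _).symm⟩)
      rw [← hx]
      simp only [xK, iv, Fin.succAbove_lt_succAbove_iff]
    · rintro ⟨a, b, c, d⟩ _ ⟨a', b', c', d'⟩ _ heq
      simp only [Prod.mk.injEq] at heq
      obtain ⟨e1, e2, e3, e4⟩ := heq
      have inj := Fin.succAbove_right_injective (p := v)
      have := inj e1; have := inj e2; have := inj e3; have := inj e4
      subst_vars
      rfl
  have h3 : ∑ v : Fin (n + 1),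
        ((SK W).filter fun q => v ≠ q.1 ∧ v ≠ q.2.1 ∧ v ≠ q.2.2.1 ∧ v ≠ q.2.2.2).card =
      ∑ q ∈ SK W, ((Finset.univ : Finset (Fin (n + 1))).filter
        fun v => v ≠ q.1 ∧ v ≠ q.2.1 ∧ v ≠ q.2.2.1 ∧ v ≠ q.2.2.2).card := by
    simp only [Finset.card_filter]
    exact Finset.sum_comm
  have h4 : ∀ q ∈ SK W, ((Finset.univ : Finset (Fin (n + 1))).filter
        fun v => v ≠ q.1 ∧ v ≠ q.2.1 ∧ v ≠ q.2.2.1 ∧ v ≠ q.2.2.2).card = n - 3 := by
    intro q hq
    obtain ⟨⟨n1, n2, n3, n4, n5, n6⟩, hx⟩ := mem_SK.1 hq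
    have : ((Finset.univ : Finset (Fin (n + 1))).filter
          fun v => v ≠ q.1 ∧ v ≠ q.2.1 ∧ v ≠ q.2.2.1 ∧ v ≠ q.2.2.2) =
        Finset.univ \ {q.1, q.2.1, q.2.2.1, q.2.2.2} := by
      ext v; simp
    rw [this, Finset.card_sdiff_of_subset (Finset.subset_univ _), Finset.card_univ,
      Fintype.card_fin]
    have : ({q.1, q.2.1, q.2.2.1, q.2.2.2} : Finset (Fin (n + 1))).card = 4 := by
      rw [Finset.card_insert_of_notMem, Finset.card_insert_of_notMem,
        Finset.card_insert_of_notMem, Finset.card_singleton]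
      · simpa using n6
      · simp only [Finset.mem_insert, Finset.mem_singleton, not_or]; exact ⟨n4, n5⟩
      · simp only [Finset.mem_insert, Finset.mem_singleton, not_or]; exact ⟨n1, n2, n3⟩
    rw [this]
    rfl
  rw [Finset.sum_congr rfl h4, Finset.sum_const, smul_eq_mul, mul_comm] at h3
  rw [← h3]
  have h5 := Finset.sum_le_sum (s := (Finset.univ : Finset (Fin (n + 1)))) (fun v _ => h1 v)
  rw [Finset.sum_const, Finset.card_univ, Fintype.card_fin, smul_eq_mul] at h5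
  exact h5

theorem knF2_succ {k : ℕ} (h : KnF2 (2 * k + 1)) : KnF2 (2 * k + 2) := by
  intro W hW
  by_cases hk : k ≤ 1
  · have : (2 * k + 2 - 3) / 2 = 0 := by omega
    rw [this]; simp
  obtain ⟨j, rfl⟩ : ∃ j, k = j + 2 := ⟨k - 2, by omega⟩
  have h1 := del_count h W hW
  have e1 : (2 * (j + 2) + 1) / 2 = j + 2 := by omega
  have e2 : (2 * (j + 2) + 1 - 1) / 2 = j + 2 := by omega
  have e3 : (2 * (j + 2) + 1 - 2) / 2 = j + 1 := by omega
  have e4 : (2 * (j + 2) + 1 - 3) / 2 = j + 1 := by omega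
  have e5 : 2 * (j + 2) + 1 - 3 = 2 * (j + 1) := by omega
  have f1 : (2 * (j + 2) + 2) / 2 = j + 3 := by omega
  have f2 : (2 * (j + 2) + 2 - 1) / 2 = j + 2 := by omega
  have f3 : (2 * (j + 2) + 2 - 2) / 2 = j + 2 := by omega
  have f4 : (2 * (j + 2) + 2 - 3) / 2 = j + 1 := by omega
  rw [e1, e2, e3, e4, e5] at h1
  rw [f1, f2, f3, f4]
  have h2 : (2 * (j + 1)) * (2 * ((j + 3) * (j + 2) * (j + 2) * (j + 1))) ≤
      (2 * (j + 1)) * (SK W).card := by
    refine le_trans (le_of_eq ?_) h1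
    ring
  exact Nat.le_of_mul_le_mul_left h2 (by omega)

theorem knF2_small {n : ℕ} (h : n ≤ 4) : KnF2 n := by
  intro W hW
  have : (n - 3) / 2 = 0 := by omega
  rw [this]; simp

/-- (G4) -/
theorem knF2_all (h : ∀ r : ℕ, 2 ≤ r → KnF2 (2 * r + 1)) : ∀ n : ℕ, KnF2 n := by
  intro n
  by_cases hn : n ≤ 4
  · exact knF2_small hn
  obtain ⟨r, hr⟩ : ∃ r, n = 2 * r + 1 ∨ n = 2 * r + 2 := ⟨(n - 1) / 2, by omega⟩
  rcases hr with rfl | rfl
  · exact h r (by omega)
  · exact knF2_succ (h r (by omega))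

/-- (G5) S0049 -/
theorem s0049_of (h : ∀ d e : ℕ, BipF2 (2 * d + 3) (2 * e + 3)) :
    ∀ (m n : ℕ)
      (D : Drawing (SimpleGraph.fromRel (fun i j : Fin (m + n) => i.val < m ∧ m ≤ j.val))),
      IsOrdinary D → (m / 2) * ((m - 1) / 2) * (n / 2) * ((n - 1) / 2) ≤ crossingCount D :=
  fun m n D hD => RedB.result_of (bipIneq_of (bipF2_all h m n)) D hD

/-- (G5) S0048 -/
theorem s0048_of (h : ∀ r : ℕ, 2 ≤ r → KnF2 (2 * r + 1)) :
    ∀ (n : ℕ) (D : Drawing (⊤ : SimpleGraph (Fin n))), IsOrdinary D →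
      (n / 2) * ((n - 1) / 2) * ((n - 2) / 2) * ((n - 3) / 2) ≤ 4 * crossingCount D :=
  fun n D hD => RedK.result_of (knIneq_of (knF2_all h n)) D hD

end Crest.Agent.R36.G172
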