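import Mathlib
import Crest.Agent.R36.Glue172
import Crest.Agent.R36.Gen259

-- ▼ part R36/BIP230a
section

/-! R36 (helper230): generic tools for the char-2 proof of Zarankiewicz.
`iso_bound`: an isotropic space for a nondegenerate diagonal form has at most half the dimension.
`PB`: functions on nodes given by polynomials of bounded degree; `PB.sum_zero`: Lagrange. -/

set_option autoImplicit false
open Polynomial Finset

namespace Crest.Agent.R36.BIP230

/-! ### isotropy bound -/

theorem iso_bound {F : Type*} [Field F] {Γ : Type*} [Fintype Γ] {M : Type*} [AddCommGroup M]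
    [Module F M] [FiniteDimensional F M] (lam : Γ → F) (hlam : ∀ g, lam g ≠ 0)
    (E : M →ₗ[F] (Γ → F)) (hE : Function.Injective E)
    (hiso : ∀ u v : M, ∑ g, lam g * E u g * E v g = 0) :
    2 * Module.finrank F M ≤ Fintype.card Γ := by
  classical
  let W : Submodule F (Γ → F) := LinearMap.range E
  have hW : Module.finrank F W = Module.finrank F M := LinearMap.finrank_range_of_inj hE
  -- the map to the dual
  let φ : (Γ → F) →ₗ[F] Module.Dual F (Γ → F) :=
    LinearMap.mk₂ F (fun u v => ∑ g, lam g * u g * v g)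
      (by intro u u' v; simp only [Pi.add_apply]; rw [← Finset.sum_add_distrib]
          exact Finset.sum_congr rfl fun g _ => by ring)
      (by intro c u v; simp only [Pi.smul_apply, smul_eq_mul, Finset.mul_sum]
          exact Finset.sum_congr rfl fun g _ => by ring)
      (by intro u v v'; simp only [Pi.add_apply]; rw [← Finset.sum_add_distrib]
          exact Finset.sum_congr rfl fun g _ => by ring)
      (by intro c u v; simp only [Pi.smul_apply, smul_eq_mul, Finset.mul_sum]
          exact Finset.sum_congr rfl fun g _ => by ring)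
  have hφ : ∀ u v, φ u v = ∑ g, lam g * u g * v g := fun u v => rfl
  have hinj : Function.Injective φ := by
    rw [← LinearMap.ker_eq_bot, LinearMap.ker_eq_bot']
    intro u hu
    funext g
    have h1 : φ u (Pi.single g 1) = 0 := by rw [hu]; rfl
    rw [hφ, Finset.sum_eq_single g] at h1
    · simp only [Pi.single_eq_same, mul_one] at h1
      simpa using (mul_eq_zero.1 h1).resolve_left (hlam g)
    · intro b _ hb; rw [Pi.single_eq_of_ne hb, mul_zero]
    · intro h; exact absurd (Finset.mem_univ g) h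
  have hle : W.map φ ≤ W.dualAnnihilator := by
    rintro _ ⟨u, ⟨a, rfl⟩, rfl⟩
    rw [Submodule.mem_dualAnnihilator]
    rintro _ ⟨b, rfl⟩
    rw [hφ]; exact hiso a b
  have h2 : Module.finrank F (W.map φ) = Module.finrank F W :=
    (Submodule.equivMapOfInjective φ hinj W).finrank_eq.symm
  have h3 := Submodule.finrank_mono hle
  have h4 := Subspace.finrank_add_finrank_dualAnnihilator_eq W
  rw [Module.finrank_fintype_fun_eq_card] at h4
  omega

/-! ### polynomially bounded functions on nodes -/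

variable {F : Type*} [Field F] {ι : Type*}

/-- `g` is given by a polynomial of degree `≤ N` in the node. -/
def PB (t : ι → F) (N : ℕ) (g : ι → F) : Prop :=
  ∃ f : F[X], f.natDegree ≤ N ∧ ∀ i, g i = f.eval (t i)

variable {t : ι → F} {N N' : ℕ} {g g' : ι → F}

theorem PB.mono (h : PB t N g) (hN : N ≤ N') : PB t N' g := by
  obtain ⟨f, h1, h2⟩ := h; exact ⟨f, h1.trans hN, h2⟩

theorem PB.congr (h : PB t N g) (hg : ∀ i, g' i = g i) : PB t N g' := by
  obtain ⟨f, h1, h2⟩ := h; exact ⟨f, h1, fun i => (hg i).trans (h2 i)⟩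

theorem PB.const (c : F) : PB t N (fun _ => c) := ⟨C c, by simp, by simp⟩

theorem PB.var : PB t 1 (fun i => t i) := ⟨X, natDegree_X_le, by simp⟩

theorem PB.add (h : PB t N g) (h' : PB t N g') : PB t N (fun i => g i + g' i) := by
  obtain ⟨f, h1, h2⟩ := h
  obtain ⟨f', h1', h2'⟩ := h'
  exact ⟨f + f', (natDegree_add_le _ _).trans (max_le h1 h1'), fun i => by
    beta_reduce; rw [eval_add, h2, h2']⟩

theorem PB.mul (h : PB t N g) (h' : PB t N' g') : PB t (N + N') (fun i => g i * g' i) := by
  obtain ⟨f, h1, h2⟩ := h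
  obtain ⟨f', h1', h2'⟩ := h'
  exact ⟨f * f', natDegree_mul_le.trans (add_le_add h1 h1'), fun i => by
    beta_reduce; rw [eval_mul, h2, h2']⟩

theorem PB.cmul (c : F) (h : PB t N g) : PB t N (fun i => c * g i) := by
  have := (PB.const (t := t) (N := 0) c).mul h
  rwa [Nat.zero_add] at this

theorem PB.pow (h : PB t N g) (k : ℕ) : PB t (k * N) (fun i => g i ^ k) := by
  obtain ⟨f, h1, h2⟩ := h
  exact ⟨f ^ k, natDegree_pow_le.trans (Nat.mul_le_mul_left k h1), fun i => by
    beta_reduce; rw [eval_pow, h2]⟩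

theorem PB.sum {κ : Type*} (s : Finset κ) (G : κ → ι → F) (h : ∀ a ∈ s, PB t N (G a)) :
    PB t N (fun i => ∑ a ∈ s, G a i) := by
  classical
  induction s using Finset.induction_on with
  | empty => simpa using PB.const (t := t) (N := N) 0
  | insert a s ha ih =>
    refine ((h a (Finset.mem_insert_self _ _)).add
      (ih fun b hb => h b (Finset.mem_insert_of_mem hb))).congr fun i => ?_
    rw [Finset.sum_insert ha]

theorem PB.prod {κ : Type*} (s : Finset κ) (G : κ → ι → F) (h : ∀ a ∈ s, PB t 1 (G a)) :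
    PB t s.card (fun i => ∏ a ∈ s, G a i) := by
  classical
  induction s using Finset.induction_on with
  | empty => simpa using PB.const (t := t) (N := 0) 1
  | insert a s ha ih =>
    have := (h a (Finset.mem_insert_self _ _)).mul
      (ih fun b hb => h b (Finset.mem_insert_of_mem hb))
    rw [Finset.card_insert_of_notMem ha, Nat.add_comm]
    refine this.congr fun i => ?_
    rw [Finset.prod_insert ha]

/-- shift by a constant: degree one -/
theorem PB.lin (c : F) : PB t 1 (fun i => t i + c) :=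
  PB.var.add (PB.const c)

theorem PB.lin' (c : F) : PB t 1 (fun i => c + t i) :=
  (PB.const c).add PB.var

/-- Lagrange weights (char 2 sign convention). -/
noncomputable def wt [Fintype ι] [DecidableEq ι] (t : ι → F) (i : ι) : F :=
  (∏ k ∈ Finset.univ.erase i, (t i + t k))⁻¹

theorem add_ne_zero_of_ne [CharP F 2] {a b : F} (h : a ≠ b) : a + b ≠ 0 := by
  intro h0; exact h ((CharTwo.add_eq_zero).1 h0)

theorem wt_ne_zero [Fintype ι] [DecidableEq ι] [CharP F 2] (ht : Function.Injective t) (i : ι) :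
    wt t i ≠ 0 := by
  refine inv_ne_zero (Finset.prod_ne_zero_iff.2 fun k hk => ?_)
  exact add_ne_zero_of_ne (ht.ne (Finset.ne_of_mem_erase hk).symm)

/-- Lagrange: the weighted sum of a polynomial of degree `≤ card - 2` vanishes. -/
theorem PB.sum_zero [Fintype ι] [DecidableEq ι] [CharP F 2] (ht : Function.Injective t)
    (h : PB t N g) (hN : N + 2 ≤ Fintype.card ι) : ∑ i, wt t i * g i = 0 := by
  obtain ⟨f, h1, h2⟩ := h
  have hd : f.degree < ((Finset.univ : Finset ι).card : WithBot ℕ) := by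
    refine lt_of_le_of_lt (degree_le_of_natDegree_le h1) ?_
    rw [Finset.card_univ]; exact_mod_cast (by omega : N < Fintype.card ι)
  have h3 := Lagrange.coeff_eq_sum (s := Finset.univ) (v := t) (ht.injOn) hd
  rw [Finset.card_univ, coeff_eq_zero_of_natDegree_lt (by omega)] at h3
  rw [h3]
  refine Finset.sum_congr rfl fun i _ => ?_
  rw [wt, h2, div_eq_mul_inv, mul_comm]
  congr 2
  exact Finset.prod_congr rfl fun k _ => (CharTwo.sub_eq_add _ _).symm

end Crest.Agent.R36.BIP230
end

-- ▼ part R36/BIP230b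
section

/-! R36 (helper230): the bipartite block: from the tournament form to the lower bound for the
number of ordered odd pairs of `K_{m,n}`, `m = 2d+3`, `n = 2e+3`. -/

set_option autoImplicit false
open Polynomial Finset

namespace Crest.Agent.R36.BIP230

/-- indicator in `ZMod 2` -/
def iv (p : Prop) [Decidable p] : ZMod 2 := if p then 1 else 0

/-- crossing parity, for all indices (also `i = k` or `j = l`). -/
def xB {m n : ℕ} (K : Fin n → Fin m → Fin m → ZMod 2) (M : Fin m → Fin n → Fin n → ZMod 2)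
    (i : Fin m) (j : Fin n) (k : Fin m) (l : Fin n) : ZMod 2 :=
  1 + iv (i < k) + iv (j < l) + K l k i + K j i k + M i j l + M k l j

theorem xB_diag {m n : ℕ} (K : Fin n → Fin m → Fin m → ZMod 2)
    (M : Fin m → Fin n → Fin n → ZMod 2) (i : Fin m) {j l : Fin n} (h : j ≠ l) :
    xB K M i j i l + xB K M i l i j = 1 := by
  unfold xB
  have h1 : iv (j < l) + iv (l < j) = 1 := by
    rcases lt_or_gt_of_ne h with h | h
    · simp [iv, h, not_lt.2 h.le]
    · simp [iv, h, not_lt.2 h.le]
  have h2 : iv (i < i) = 0 := by simp [iv]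
  have h3 : ∀ a : ZMod 2, a + a = 0 := CharTwo.add_self_eq_zero
  calc (1 + iv (i < i) + iv (j < l) + K l i i + K j i i + M i j l + M i l j) +
        (1 + iv (i < i) + iv (l < j) + K j i i + K l i i + M i l j + M i j l)
      = (iv (j < l) + iv (l < j)) + ((1 + 1) + (iv (i < i) + iv (i < i)) + (K l i i + K l i i) +
          (K j i i + K j i i) + (M i j l + M i j l) + (M i l j + M i l j)) := by ring
    _ = 1 := by
        rw [h1, h3 1, h3 (iv (i < i)), h3 (K l i i), h3 (K j i i), h3 (M i j l), h3 (M i l j)]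
        simp

variable {F : Type*} [Field F] [CharP F 2]

/-- evaluation of a coefficient array -/
def ev {e : ℕ} (p : Fin (e + 1) → Fin (e + 1) → F) (x y : F) : F :=
  ∑ a, ∑ b, p a b * x ^ (a : ℕ) * y ^ (b : ℕ)

/-- the tournament statement `(T)` on the nodes `τ` -/
def TForm {n : ℕ} (e : ℕ) (τ : Fin n → F) : Prop :=
  ∀ T : Fin n → Fin n → ZMod 2, (∀ i j, i ≠ j → T i j + T j i = 1) →
    ∀ p : Fin (e + 1) → Fin (e + 1) → F,
      (∀ k : Fin (e + 1) → Fin (e + 1) → F,
        ∑ i, ∑ j, (if T i j = 1 ∧ i ≠ j then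
          wt τ i * wt τ j * (τ i + τ j) * ev p (τ i) (τ j) * ev k (τ i) (τ j) else 0) = 0) →
      p = 0

/-- the cast -/
noncomputable def cz : ZMod 2 →+* F := ZMod.castHom (dvd_refl 2) F

theorem cz_ite (a : ZMod 2) (b : F) : (cz a : F) * b = if a = 1 then b else 0 := by
  have : a = 0 ∨ a = 1 := by revert a; decide
  rcases this with rfl | rfl
  · simp
  · simp

section E

variable {m n : ℕ} {t : Fin m → F} {τ : Fin n → F}

/-- the four-fold weighted sum -/
noncomputable def S4 (t : Fin m → F) (τ : Fin n → F) (A U : Fin m → Fin m → Fin n → Fin n → F) : F :=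
  ∑ i, ∑ k, ∑ j, ∑ l, A i k j l * (wt t i * wt t k * wt τ j * wt τ l * U i k j l)

omit [CharP F 2] in
theorem S4_add (A B U : Fin m → Fin m → Fin n → Fin n → F) :
    S4 t τ (fun i k j l => A i k j l + B i k j l) U = S4 t τ A U + S4 t τ B U := by
  unfold S4
  simp only [add_mul, Finset.sum_add_distrib]

theorem S4_l (hτ : Function.Injective τ) {N : ℕ} (hN : N + 2 ≤ n)
    (U : Fin m → Fin m → Fin n → Fin n → F) (hU : ∀ i k j, PB τ N (fun l => U i k j l))
    (A : Fin m → Fin m → Fin n → F) : S4 t τ (fun i k j _ => A i k j) U = 0 := by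
  unfold S4
  refine Finset.sum_eq_zero fun i _ => Finset.sum_eq_zero fun k _ => Finset.sum_eq_zero fun j _ => ?_
  have h := PB.sum_zero hτ (hU i k j) (by simpa using hN)
  calc ∑ l, A i k j * (wt t i * wt t k * wt τ j * wt τ l * U i k j l)
      = A i k j * (wt t i * wt t k * wt τ j) * ∑ l, wt τ l * U i k j l := by
        rw [Finset.mul_sum]; exact Finset.sum_congr rfl fun l _ => by ring
    _ = 0 := by rw [h, mul_zero]

theorem S4_j (hτ : Function.Injective τ) {N : ℕ} (hN : N + 2 ≤ n)
    (U : Fin m → Fin m → Fin n → Fin n → F) (hU : ∀ i k l, PB τ N (fun j => U i k j l))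
    (A : Fin m → Fin m → Fin n → F) : S4 t τ (fun i k _ l => A i k l) U = 0 := by
  unfold S4
  refine Finset.sum_eq_zero fun i _ => Finset.sum_eq_zero fun k _ => ?_
  rw [Finset.sum_comm]
  refine Finset.sum_eq_zero fun l _ => ?_
  have h := PB.sum_zero hτ (hU i k l) (by simpa using hN)
  calc ∑ j, A i k l * (wt t i * wt t k * wt τ j * wt τ l * U i k j l)
      = A i k l * (wt t i * wt t k * wt τ l) * ∑ j, wt τ j * U i k j l := by
        rw [Finset.mul_sum]; exact Finset.sum_congr rfl fun l _ => by ring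
    _ = 0 := by rw [h, mul_zero]

theorem S4_k (ht : Function.Injective t) {N : ℕ} (hN : N + 2 ≤ m)
    (U : Fin m → Fin m → Fin n → Fin n → F) (hU : ∀ i j l, PB t N (fun k => U i k j l))
    (A : Fin m → Fin n → Fin n → F) : S4 t τ (fun i _ j l => A i j l) U = 0 := by
  unfold S4
  refine Finset.sum_eq_zero fun i _ => ?_
  rw [Finset.sum_comm]
  refine Finset.sum_eq_zero fun j _ => ?_
  rw [Finset.sum_comm]
  refine Finset.sum_eq_zero fun l _ => ?_
  have h := PB.sum_zero ht (hU i j l) (by simpa using hN)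
  calc ∑ k, A i j l * (wt t i * wt t k * wt τ j * wt τ l * U i k j l)
      = A i j l * (wt t i * wt τ j * wt τ l) * ∑ k, wt t k * U i k j l := by
        rw [Finset.mul_sum]; exact Finset.sum_congr rfl fun l _ => by ring
    _ = 0 := by rw [h, mul_zero]

theorem S4_i (ht : Function.Injective t) {N : ℕ} (hN : N + 2 ≤ m)
    (U : Fin m → Fin m → Fin n → Fin n → F) (hU : ∀ k j l, PB t N (fun i => U i k j l))
    (A : Fin m → Fin n → Fin n → F) : S4 t τ (fun _ k j l => A k j l) U = 0 := by
  unfold S4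
  rw [Finset.sum_comm]
  refine Finset.sum_eq_zero fun k _ => ?_
  rw [Finset.sum_comm]
  refine Finset.sum_eq_zero fun j _ => ?_
  rw [Finset.sum_comm]
  refine Finset.sum_eq_zero fun l _ => ?_
  have h := PB.sum_zero ht (hU k j l) (by simpa using hN)
  calc ∑ i, A k j l * (wt t i * wt t k * wt τ j * wt τ l * U i k j l)
      = A k j l * (wt t k * wt τ j * wt τ l) * ∑ i, wt t i * U i k j l := by
        rw [Finset.mul_sum]; exact Finset.sum_congr rfl fun l _ => by ring
    _ = 0 := by rw [h, mul_zero]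

/-- **(E)** the full intersection identity. -/
theorem E_zero (ht : Function.Injective t) (hτ : Function.Injective τ) {N N' : ℕ}
    (hN : N + 2 ≤ m) (hN' : N' + 2 ≤ n) (K : Fin n → Fin m → Fin m → ZMod 2)
    (M : Fin m → Fin n → Fin n → ZMod 2) (U : Fin m → Fin m → Fin n → Fin n → F)
    (h1 : ∀ k j l, PB t N (fun i => U i k j l)) (h2 : ∀ i j l, PB t N (fun k => U i k j l))
    (h3 : ∀ i k l, PB τ N' (fun j => U i k j l)) (h4 : ∀ i k j, PB τ N' (fun l => U i k j l)) :
    S4 t τ (fun i k j l => cz (xB K M i j k l)) U = 0 := by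
  have e : (fun i k j l => (cz (xB K M i j k l) : F)) =
      fun i k j l => ((((cz (1 + iv (i < k) + K j i k) : F)) + cz (iv (j < l) + M i j l)) +
        cz (K l k i)) + cz (M k l j) := by
    funext i k j l
    rw [← map_add, ← map_add, ← map_add]
    congr 1
    unfold xB; ring
  rw [e, S4_add, S4_add, S4_add,
    S4_l hτ hN' U h4 (fun i k j => cz (1 + iv (i < k) + K j i k)),
    S4_k ht hN U h2 (fun i j l => cz (iv (j < l) + M i j l)),
    S4_j hτ hN' U h3 (fun i k l => cz (K l k i)),
    S4_i ht hN U h1 (fun k j l => cz (M k l j))]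
  simp

end E

end Crest.Agent.R36.BIP230
end

-- ▼ part R36/BIP230c
section

/-! R36 (helper230): the bipartite block, main part. -/

set_option autoImplicit false
open Polynomial Finset

namespace Crest.Agent.R36.BIP230

variable {F : Type*} [Field F] [CharP F 2] {m n : ℕ} {t : Fin m → F} {τ : Fin n → F}

/-- index set of the adapted basis `(x+y)^s x^⌈c/2⌉ y^⌊c/2⌋`, `s ≤ d`, `c ≤ 2 (d - s)`. -/
abbrev Ix (d : ℕ) := (s : Fin (d + 1)) × Fin (2 * (d - s) + 1)

theorem card_Ix (d : ℕ) : Fintype.card (Ix d) = (d + 1) ^ 2 := by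
  simp only [Fintype.card_sigma, Fintype.card_fin]
  rw [Fin.sum_univ_eq_sum_range (fun s => 2 * (d - s) + 1) (d + 1)]
  have h : ∀ N, ∑ s ∈ Finset.range (N + 1), (2 * (N - s) + 1) = (N + 1) ^ 2 := by
    intro N
    rw [← Finset.sum_range_reflect]
    have : ∀ s ∈ Finset.range (N + 1), 2 * (N - (N + 1 - 1 - s)) + 1 = 2 * s + 1 := by
      intro s hs
      have := Finset.mem_range.1 hs
      omega
    rw [Finset.sum_congr rfl this]
    have h2 : ∀ k, ∑ s ∈ Finset.range k, (2 * s + 1) = k ^ 2 := by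
      intro k
      induction k with
      | zero => simp
      | succ k ih => rw [Finset.sum_range_succ, ih]; ring
    exact h2 _
  exact h d

/-- full index set of coefficients -/
abbrev Cx (d e : ℕ) := Ix d × Fin (e + 1) × Fin (e + 1)

/-- `(x+y)^(s(g) - s) x^⌈c/2⌉ y^⌊c/2⌋` -/
def mon {d : ℕ} (s : ℕ) (g : Ix d) (x y : F) : F :=
  (x + y) ^ ((g.1 : ℕ) - s) * x ^ (((g.2 : ℕ) + 1) / 2) * y ^ ((g.2 : ℕ) / 2)

/-- the value of the polynomial with coefficients `ρ`, divided by `(x+y)^s` -/
def PP {d e : ℕ} (s : ℕ) (ρ : Cx d e → F) (x y z w : F) : F :=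
  ∑ g : Cx d e, ρ g * (mon s g.1 x y * z ^ (g.2.1 : ℕ) * w ^ (g.2.2 : ℕ))

omit [CharP F 2] in
theorem PB_mon_x {d : ℕ} (s : ℕ) (g : Ix d) (y : F) : PB t d (fun i => mon s g (t i) y) := by
  have h1 : PB t (((g.1 : ℕ) - s) * 1 + (((g.2 : ℕ) + 1) / 2) * 1 + 0)
      (fun i => mon s g (t i) y) :=
    (((PB.lin y).pow ((g.1 : ℕ) - s)).mul (PB.var.pow (((g.2 : ℕ) + 1) / 2))).mul
      (PB.const (y ^ ((g.2 : ℕ) / 2)))
  refine h1.mono ?_
  have := g.1.2
  have := g.2.2
  omega

omit [CharP F 2] in
theorem PB_mon_y {d : ℕ} (s : ℕ) (g : Ix d) (x : F) : PB t d (fun k => mon s g x (t k)) := by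
  have h1 : PB t (((g.1 : ℕ) - s) * 1 + 0 + ((g.2 : ℕ) / 2) * 1)
      (fun k => mon s g x (t k)) :=
    (((PB.lin' x).pow ((g.1 : ℕ) - s)).mul (PB.const (x ^ (((g.2 : ℕ) + 1) / 2)))).mul
      (PB.var.pow ((g.2 : ℕ) / 2))
  refine h1.mono ?_
  have := g.1.2
  have := g.2.2
  omega

omit [CharP F 2] in
theorem PB_PP_x {d e : ℕ} (s : ℕ) (ρ : Cx d e → F) (y z w : F) :
    PB t d (fun i => PP s ρ (t i) y z w) := by
  refine PB.sum Finset.univ (fun g i => ρ g * (mon s g.1 (t i) y * z ^ (g.2.1 : ℕ) * w ^ (g.2.2 : ℕ)))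
    fun g _ => ?_
  refine PB.cmul (ρ g) ?_
  have h := ((PB_mon_x (t := t) s g.1 y).mul (PB.const (N := 0) (z ^ (g.2.1 : ℕ)))).mul
    (PB.const (N := 0) (w ^ (g.2.2 : ℕ)))
  exact h.mono (by omega)

omit [CharP F 2] in
theorem PB_PP_y {d e : ℕ} (s : ℕ) (ρ : Cx d e → F) (x z w : F) :
    PB t d (fun k => PP s ρ x (t k) z w) := by
  refine PB.sum Finset.univ (fun g i => ρ g * (mon s g.1 x (t i) * z ^ (g.2.1 : ℕ) * w ^ (g.2.2 : ℕ)))
    fun g _ => ?_
  refine PB.cmul (ρ g) ?_
  have h := ((PB_mon_y (t := t) s g.1 x).mul (PB.const (N := 0) (z ^ (g.2.1 : ℕ)))).mul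
    (PB.const (N := 0) (w ^ (g.2.2 : ℕ)))
  exact h.mono (by omega)

omit [CharP F 2] in
theorem PB_PP_z {d e : ℕ} (s : ℕ) (ρ : Cx d e → F) (x y w : F) :
    PB τ e (fun j => PP s ρ x y (τ j) w) := by
  refine PB.sum Finset.univ (fun g i => ρ g * (mon s g.1 x y * (τ i) ^ (g.2.1 : ℕ) * w ^ (g.2.2 : ℕ)))
    fun g _ => ?_
  refine PB.cmul (ρ g) ?_
  have h := ((PB.const (t := τ) (N := 0) (mon s g.1 x y)).mul (PB.var.pow (g.2.1 : ℕ))).mul
    (PB.const (N := 0) (w ^ (g.2.2 : ℕ)))
  have := g.2.1.2
  exact h.mono (by omega)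

omit [CharP F 2] in
theorem PB_PP_w {d e : ℕ} (s : ℕ) (ρ : Cx d e → F) (x y z : F) :
    PB τ e (fun l => PP s ρ x y z (τ l)) := by
  refine PB.sum Finset.univ (fun g i => ρ g * (mon s g.1 x y * z ^ (g.2.1 : ℕ) * (τ i) ^ (g.2.2 : ℕ)))
    fun g _ => ?_
  refine PB.cmul (ρ g) ?_
  have h := ((PB.const (t := τ) (N := 0) (mon s g.1 x y)).mul (PB.const (N := 0) (z ^ (g.2.1 : ℕ)))).mul
    (PB.var.pow (g.2.2 : ℕ))
  have := g.2.2.2
  exact h.mono (by omega)

omit [CharP F 2] in
theorem PB_ev_z {e : ℕ} (p : Fin (e + 1) → Fin (e + 1) → F) (w : F) :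
    PB τ e (fun j => ev p (τ j) w) := by
  refine PB.sum Finset.univ (fun a i => ∑ b, p a b * (τ i) ^ (a : ℕ) * w ^ (b : ℕ)) fun a _ => ?_
  refine PB.sum Finset.univ (fun b i => p a b * (τ i) ^ (a : ℕ) * w ^ (b : ℕ)) fun b _ => ?_
  have h := ((PB.const (t := τ) (N := 0) (p a b)).mul (PB.var.pow (a : ℕ))).mul
    (PB.const (N := 0) (w ^ (b : ℕ)))
  have := a.2
  exact h.mono (by omega)

omit [CharP F 2] in
theorem PB_ev_w {e : ℕ} (p : Fin (e + 1) → Fin (e + 1) → F) (z : F) :
    PB τ e (fun j => ev p z (τ j)) := by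
  refine PB.sum Finset.univ (fun a i => ∑ b, p a b * z ^ (a : ℕ) * (τ i) ^ (b : ℕ)) fun a _ => ?_
  refine PB.sum Finset.univ (fun b i => p a b * z ^ (a : ℕ) * (τ i) ^ (b : ℕ)) fun b _ => ?_
  have h := (PB.const (t := τ) (N := 0) (p a b * z ^ (a : ℕ))).mul (PB.var.pow (b : ℕ))
  have := b.2
  exact h.mono (by omega)

/-- the cells -/
def IsCell (K : Fin n → Fin m → Fin m → ZMod 2) (M : Fin m → Fin n → Fin n → ZMod 2)
    (i : Fin m) (j : Fin n) (k : Fin m) (l : Fin n) : Prop :=
  i ≠ k ∧ j ≠ l ∧ xB K M i j k l = 1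

/-- **(N), diagonal step**: if `ρ` vanishes below level `s` and `PP 0 ρ` vanishes on all cells, then
the diagonal of `PP s ρ` vanishes at every node. -/
theorem diag_zero {d e : ℕ} (hm : m = 2 * d + 3) (hn : n = 2 * e + 3)
    (ht : Function.Injective t) (hτ : Function.Injective τ) (hT : TForm e τ)
    (K : Fin n → Fin m → Fin m → ZMod 2) (M : Fin m → Fin n → Fin n → ZMod 2)
    (ρ : Cx d e → F) (s : ℕ) (hs : ∀ g : Cx d e, (g.1.1 : ℕ) < s → ρ g = 0)
    (h0 : ∀ i j k l, IsCell K M i j k l → PP 0 ρ (t i) (t k) (τ j) (τ l) = 0) (i0 : Fin m)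
    (a b : Fin (e + 1)) : ∑ g : Ix d, ρ (g, a, b) * mon s g (t i0) (t i0) = 0 := by
  classical
  -- the factor
  have hfac : ∀ x y z w : F, PP 0 ρ x y z w = (x + y) ^ s * PP s ρ x y z w := by
    intro x y z w
    unfold PP
    rw [Finset.mul_sum]
    refine Finset.sum_congr rfl fun g _ => ?_
    by_cases hg : (g.1.1 : ℕ) < s
    · rw [hs g hg]; ring
    · have : (g.1.1 : ℕ) - 0 = s + ((g.1.1 : ℕ) - s) := by omega
      unfold mon
      rw [this, pow_add]; ring
  have h1 : ∀ i j k l, IsCell K M i j k l → PP s ρ (t i) (t k) (τ j) (τ l) = 0 := by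
    intro i j k l h
    have h2 := h0 i j k l h
    rw [hfac] at h2
    exact (mul_eq_zero.1 h2).resolve_left
      (pow_ne_zero _ (add_ne_zero_of_ne (ht.ne h.1)))
  -- split the other rows
  obtain ⟨A, hA, hAc⟩ : ∃ A ⊆ (Finset.univ.erase i0 : Finset (Fin m)), A.card = d + 1 := by
    refine Finset.exists_subset_card_eq ?_
    rw [Finset.card_erase_of_mem (Finset.mem_univ _), Finset.card_univ, Fintype.card_fin]
    omega
  set B := (Finset.univ.erase i0) \ A with hB
  have hBc : B.card = d + 1 := by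
    rw [hB, Finset.card_sdiff_of_subset hA, Finset.card_erase_of_mem (Finset.mem_univ _),
      Finset.card_univ, Fintype.card_fin]
    omega
  have hAB : A ∪ B = Finset.univ.erase i0 := Finset.union_sdiff_of_subset hA
  have hdis : Disjoint A B := Finset.disjoint_sdiff
  let φ : F → F → F := fun x y => (∏ q ∈ A, (x + t q)) * ∏ q ∈ B, (y + t q)
  have hφ : ∀ x, φ x x = ∏ q ∈ Finset.univ.erase i0, (x + t q) := by
    intro x
    rw [← hAB, Finset.prod_union hdis]
  have hφ0 : ∀ i, i ≠ i0 → φ (t i) (t i) = 0 := by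
    intro i hi
    rw [hφ]
    refine Finset.prod_eq_zero (i := i) (by simp [hi]) (CharTwo.add_self_eq_zero _)
  have hφ1 : φ (t i0) (t i0) ≠ 0 := by
    rw [hφ]
    refine Finset.prod_ne_zero_iff.2 fun q hq => ?_
    exact add_ne_zero_of_ne (ht.ne (Finset.ne_of_mem_erase hq).symm)
  -- the tournament
  have key := hT (fun j l => xB K M i0 j i0 l) (fun j l hjl => xB_diag K M i0 hjl)
    (fun a b => ∑ g : Ix d, ρ (g, a, b) * mon s g (t i0) (t i0)) ?_
  · exact congrFun (congrFun key a) b
  intro kk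
  let U : Fin m → Fin m → Fin n → Fin n → F := fun i k j l =>
    φ (t i) (t k) * PP s ρ (t i) (t k) (τ j) (τ l) * ((τ j + τ l) * ev kk (τ j) (τ l))
  have hE := E_zero (N := 2 * d + 1) (N' := 2 * e + 1) ht hτ (by omega) (by omega) K M U
    (fun k j l => by
      have h := ((PB.prod A (fun q i => t i + t q) fun q _ => PB.lin (t q)).mul
        (PB.const (N := 0) (∏ q ∈ B, (t k + t q)))).mul (PB_PP_x (t := t) s ρ (t k) (τ j) (τ l))
      exact (h.mul (PB.const (N := 0) ((τ j + τ l) * ev kk (τ j) (τ l)))).mono (by omega))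
    (fun i j l => by
      have h := ((PB.const (t := t) (N := 0) (∏ q ∈ A, (t i + t q))).mul
        (PB.prod B (fun q i => t i + t q) fun q _ => PB.lin (t q))).mul
          (PB_PP_y (t := t) s ρ (t i) (τ j) (τ l))
      exact (h.mul (PB.const (N := 0) ((τ j + τ l) * ev kk (τ j) (τ l)))).mono (by omega))
    (fun i k l => by
      have h := (PB_PP_z (τ := τ) s ρ (t i) (t k) (τ l)).cmul (φ (t i) (t k))
      exact (h.mul ((PB.lin (τ l)).mul (PB_ev_z kk (τ l)))).mono (by omega))
    (fun i k j => by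
      have h := (PB_PP_w (τ := τ) s ρ (t i) (t k) (τ j)).cmul (φ (t i) (t k))
      exact (h.mul ((PB.lin' (τ j)).mul (PB_ev_w kk (τ j)))).mono (by omega))
  -- evaluate
  have hterm : ∀ i k j l, (i ≠ i0 ∨ k ≠ i0 ∨ j = l) →
      (cz (xB K M i j k l) : F) * (wt t i * wt t k * wt τ j * wt τ l * U i k j l) = 0 := by
    intro i k j l h
    by_cases hjl : j = l
    · subst hjl
      simp only [U, CharTwo.add_self_eq_zero, zero_mul, mul_zero]
    by_cases hik : i = k
    · subst hik
      have hi : i ≠ i0 := by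
        rcases h with h | h | h
        · exact h
        · exact h
        · exact absurd h hjl
      simp only [U, hφ0 i hi, zero_mul, mul_zero]
    · rw [cz_ite]
      by_cases hx : xB K M i j k l = 1
      · rw [if_pos hx]
        simp only [U, h1 i j k l ⟨hik, hjl, hx⟩, mul_zero, zero_mul]
      · rw [if_neg hx]
  have hS : S4 t τ (fun i k j l => cz (xB K M i j k l)) U =
      (wt t i0 * wt t i0 * φ (t i0) (t i0)) * ∑ j, ∑ l, (if xB K M i0 j i0 l = 1 ∧ j ≠ l then
        wt τ j * wt τ l * (τ j + τ l) *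
          ev (fun a b => ∑ g : Ix d, ρ (g, a, b) * mon s g (t i0) (t i0)) (τ j) (τ l) *
            ev kk (τ j) (τ l) else 0) := by
    unfold S4
    rw [Finset.sum_eq_single i0]
    rotate_left
    · intro i _ hi
      exact Finset.sum_eq_zero fun k _ => Finset.sum_eq_zero fun j _ =>
        Finset.sum_eq_zero fun l _ => hterm i k j l (Or.inl hi)
    · intro h; exact absurd (Finset.mem_univ _) h
    rw [Finset.sum_eq_single i0]
    rotate_left
    · intro k _ hk
      exact Finset.sum_eq_zero fun j _ =>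
        Finset.sum_eq_zero fun l _ => hterm i0 k j l (Or.inr (Or.inl hk))
    · intro h; exact absurd (Finset.mem_univ _) h
    rw [Finset.mul_sum]
    refine Finset.sum_congr rfl fun j _ => ?_
    rw [Finset.mul_sum]
    refine Finset.sum_congr rfl fun l _ => ?_
    by_cases hjl : j = l
    · rw [hterm i0 i0 j l (Or.inr (Or.inr hjl))]
      simp [hjl]
    rw [cz_ite]
    by_cases hx : xB K M i0 j i0 l = 1
    · rw [if_pos hx, if_pos ⟨hx, hjl⟩]
      have hev : PP s ρ (t i0) (t i0) (τ j) (τ l) =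
          ev (fun a b => ∑ g : Ix d, ρ (g, a, b) * mon s g (t i0) (t i0)) (τ j) (τ l) := by
        unfold PP ev
        rw [Fintype.sum_prod_type]
        simp only [Fintype.sum_prod_type, Finset.sum_mul]
        rw [Finset.sum_comm]
        refine Finset.sum_congr rfl fun a _ => ?_
        rw [Finset.sum_comm]
        refine Finset.sum_congr rfl fun b _ => ?_
        refine Finset.sum_congr rfl fun g _ => ?_
        ring
      simp only [U, hev]
      ring
    · rw [if_neg hx, if_neg (fun h => hx h.1), mul_zero]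
  rw [hE] at hS
  have hne : wt t i0 * wt t i0 * φ (t i0) (t i0) ≠ 0 :=
    mul_ne_zero (mul_ne_zero (wt_ne_zero ht i0) (wt_ne_zero ht i0)) hφ1
  exact (mul_eq_zero.1 hS.symm).resolve_left hne

end Crest.Agent.R36.BIP230
end

-- ▼ part R36/BIP230d
section

/-! R36 (helper230): the bipartite block, end: injectivity, dimension count. -/

set_option autoImplicit false
open Polynomial Finset

namespace Crest.Agent.R36.BIP230

variable {F : Type*} [Field F] [CharP F 2] {m n : ℕ} {t : Fin m → F} {τ : Fin n → F}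

/-- **(N)** -/
theorem inj {d e : ℕ} (hm : m = 2 * d + 3) (hn : n = 2 * e + 3)
    (ht : Function.Injective t) (hτ : Function.Injective τ) (hT : TForm e τ)
    (K : Fin n → Fin m → Fin m → ZMod 2) (M : Fin m → Fin n → Fin n → ZMod 2)
    (ρ : Cx d e → F)
    (h0 : ∀ i j k l, IsCell K M i j k l → PP 0 ρ (t i) (t k) (τ j) (τ l) = 0) : ρ = 0 := by
  have main : ∀ s : ℕ, ∀ g : Cx d e, (g.1.1 : ℕ) < s → ρ g = 0 := by
    intro s
    induction s with
    | zero => intro g hg; exact absurd hg (Nat.not_lt_zero _)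
    | succ s ih =>
      rintro ⟨⟨S, c0⟩, a, b⟩ hg
      rcases lt_or_eq_of_le (Nat.lt_succ_iff.1 hg) with h | h
      · exact ih _ h
      replace h : (S : ℕ) = s := h
      have hdz := diag_zero hm hn ht hτ hT K M ρ s ih h0
      let f : F[X] := ∑ c : Fin (2 * (d - S) + 1), C (ρ (⟨S, c⟩, a, b)) * X ^ (c : ℕ)
      have hfd : f.natDegree < m := by
        refine lt_of_le_of_lt (natDegree_sum_le_of_forall_le (n := 2 * (d - S)) _ _ fun c _ => ?_)
          (by omega)
        exact (natDegree_C_mul_X_pow_le _ _).trans (Nat.lt_succ_iff.1 c.2)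
      have hev : ∀ i, f.eval (t i) = 0 := by
        intro i
        rw [← hdz i a b, Fintype.sum_sigma, Finset.sum_eq_single S]
        · simp only [f, eval_finsetSum, eval_mul, eval_C, eval_pow, eval_X]
          refine Finset.sum_congr rfl fun c _ => ?_
          change _ = ρ (⟨S, c⟩, a, b) * ((t i + t i) ^ ((S : ℕ) - s) * t i ^ (((c : ℕ) + 1) / 2) *
            t i ^ ((c : ℕ) / 2))
          have h3 : (S : ℕ) - s = 0 := by omega
          rw [h3, pow_zero, one_mul, ← pow_add]
          congr 2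
          omega
        · intro S' _ hS'
          refine Finset.sum_eq_zero fun c _ => ?_
          rcases lt_or_gt_of_ne (fun hh => hS' (Fin.ext (hh.trans h.symm)) : (S' : ℕ) ≠ s) with h' | h'
          · rw [ih (⟨S', c⟩, a, b) h', zero_mul]
          · unfold mon
            rw [CharTwo.add_self_eq_zero, zero_pow (by simp only; omega), zero_mul, zero_mul,
              mul_zero]
        · intro h; exact absurd (Finset.mem_univ _) h
      have hf0 : f = 0 :=
        eq_zero_of_natDegree_lt_card_of_eval_eq_zero f ht hev (by simpa using hfd)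
      have hc := congrArg (fun q : F[X] => q.coeff (c0 : ℕ)) hf0
      simp only [f, finsetSum_coeff, coeff_C_mul, coeff_X_pow, coeff_zero, mul_ite, mul_one,
        mul_zero] at hc
      rw [Finset.sum_eq_single c0] at hc
      · simpa using hc
      · intro c _ hc'
        rw [if_neg]
        intro h'; exact hc' (Fin.ext h'.symm)
      · intro h; exact absurd (Finset.mem_univ _) h
  funext g
  exact main (g.1.1 + 1) g (Nat.lt_succ_self _)

/-- the ordered odd pairs -/
def Cells (K : Fin n → Fin m → Fin m → ZMod 2) (M : Fin m → Fin n → Fin n → ZMod 2) :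
    Finset ((Fin m × Fin n) × (Fin m × Fin n)) :=
  Finset.univ.filter fun q => q.1.1 ≠ q.2.1 ∧ q.1.2 ≠ q.2.2 ∧ xB K M q.1.1 q.1.2 q.2.1 q.2.2 = 1

/-- evaluation at the cells -/
def EV {d e : ℕ} (t : Fin m → F) (τ : Fin n → F) (K : Fin n → Fin m → Fin m → ZMod 2)
    (M : Fin m → Fin n → Fin n → ZMod 2) : (Cx d e → F) →ₗ[F] (Cells K M → F) where
  toFun ρ γ := PP 0 ρ (t γ.1.1.1) (t γ.1.2.1) (τ γ.1.1.2) (τ γ.1.2.2)
  map_add' u v := by
    funext γ
    simp only [PP, Pi.add_apply, add_mul, Finset.sum_add_distrib]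
  map_smul' c u := by
    funext γ
    simp only [PP, Pi.smul_apply, smul_eq_mul, RingHom.id_apply, Finset.mul_sum, mul_assoc]

theorem core {d e : ℕ} (hm : m = 2 * d + 3) (hn : n = 2 * e + 3)
    (ht : Function.Injective t) (hτ : Function.Injective τ) (hT : TForm e τ)
    (K : Fin n → Fin m → Fin m → ZMod 2) (M : Fin m → Fin n → Fin n → ZMod 2) :
    2 * ((d + 1) ^ 2 * (e + 1) ^ 2) ≤ (Cells K M).card := by
  classical
  let lam : Cells K M → F := fun γ => wt t γ.1.1.1 * wt t γ.1.2.1 * wt τ γ.1.1.2 * wt τ γ.1.2.2 *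
    ((t γ.1.1.1 + t γ.1.2.1) * (τ γ.1.1.2 + τ γ.1.2.2))
  have hlam : ∀ γ, lam γ ≠ 0 := by
    rintro ⟨q, hq⟩
    obtain ⟨-, h1, h2, -⟩ := Finset.mem_filter.1 hq
    exact mul_ne_zero (mul_ne_zero (mul_ne_zero (mul_ne_zero (wt_ne_zero ht _) (wt_ne_zero ht _))
      (wt_ne_zero hτ _)) (wt_ne_zero hτ _))
      (mul_ne_zero (add_ne_zero_of_ne (ht.ne h1)) (add_ne_zero_of_ne (hτ.ne h2)))
  have hinj : Function.Injective (EV (d := d) (e := e) t τ K M) := by
    rw [← LinearMap.ker_eq_bot, LinearMap.ker_eq_bot']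
    intro ρ hρ
    refine inj hm hn ht hτ hT K M ρ fun i j k l h => ?_
    exact congrFun hρ ⟨((i, j), (k, l)), Finset.mem_filter.2 ⟨Finset.mem_univ _, h⟩⟩
  have hiso : ∀ u v : Cx d e → F, ∑ γ, lam γ * EV t τ K M u γ * EV t τ K M v γ = 0 := by
    intro u v
    let U : Fin m → Fin m → Fin n → Fin n → F := fun i k j l =>
      (t i + t k) * (τ j + τ l) * (PP 0 u (t i) (t k) (τ j) (τ l) * PP 0 v (t i) (t k) (τ j) (τ l))
    have hE := E_zero (N := 2 * d + 1) (N' := 2 * e + 1) ht hτ (by omega) (by omega) K M U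
      (fun k j l => by
        have h := ((PB.lin (t := t) (t k)).mul (PB.const (N := 0) (τ j + τ l))).mul
          ((PB_PP_x (t := t) 0 u (t k) (τ j) (τ l)).mul (PB_PP_x (t := t) 0 v (t k) (τ j) (τ l)))
        exact h.mono (by omega))
      (fun i j l => by
        have h := ((PB.lin' (t := t) (t i)).mul (PB.const (N := 0) (τ j + τ l))).mul
          ((PB_PP_y (t := t) 0 u (t i) (τ j) (τ l)).mul (PB_PP_y (t := t) 0 v (t i) (τ j) (τ l)))
        exact h.mono (by omega))
      (fun i k l => by
        have h := ((PB.const (t := τ) (N := 0) (t i + t k)).mul (PB.lin (τ l))).mul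
          ((PB_PP_z (τ := τ) 0 u (t i) (t k) (τ l)).mul (PB_PP_z (τ := τ) 0 v (t i) (t k) (τ l)))
        exact h.mono (by omega))
      (fun i k j => by
        have h := ((PB.const (t := τ) (N := 0) (t i + t k)).mul (PB.lin' (τ j))).mul
          ((PB_PP_w (τ := τ) 0 u (t i) (t k) (τ j)).mul (PB_PP_w (τ := τ) 0 v (t i) (t k) (τ j)))
        exact h.mono (by omega))
    let G : (Fin m × Fin n) × (Fin m × Fin n) → F := fun q =>
      wt t q.1.1 * wt t q.2.1 * wt τ q.1.2 * wt τ q.2.2 * U q.1.1 q.2.1 q.1.2 q.2.2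
    have h1 : ∑ γ : Cells K M, lam γ * EV t τ K M u γ * EV t τ K M v γ =
        ∑ q ∈ Cells K M, G q := by
      rw [← Finset.sum_coe_sort (Cells K M) G]
      refine Finset.sum_congr rfl fun γ _ => ?_
      simp only [lam, G, U, EV, LinearMap.coe_mk, AddHom.coe_mk]
      ring
    rw [h1, Cells, Finset.sum_filter, Fintype.sum_prod_type]
    simp only [Fintype.sum_prod_type]
    have h2 : S4 t τ (fun i k j l => cz (xB K M i j k l)) U =
        ∑ i, ∑ j, ∑ k, ∑ l, (if i ≠ k ∧ j ≠ l ∧ xB K M i j k l = 1 then G ((i, j), (k, l)) else 0) := by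
      unfold S4
      refine Finset.sum_congr rfl fun i _ => ?_
      rw [Finset.sum_comm]
      refine Finset.sum_congr rfl fun j _ => ?_
      refine Finset.sum_congr rfl fun k _ => ?_
      refine Finset.sum_congr rfl fun l _ => ?_
      rw [cz_ite]
      by_cases hx : xB K M i j k l = 1
      · by_cases hik : i = k
        · simp [hik, U, CharTwo.add_self_eq_zero]
        by_cases hjl : j = l
        · simp [hjl, U, CharTwo.add_self_eq_zero]
        rw [if_pos hx, if_pos ⟨hik, hjl, hx⟩]
      · rw [if_neg hx, if_neg (fun h => hx h.2.2)]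
    rw [← h2, hE]
  have := iso_bound lam hlam (EV (d := d) (e := e) t τ K M) hinj hiso
  rw [Module.finrank_fintype_fun_eq_card, Fintype.card_coe, Fintype.card_prod, Fintype.card_prod,
    Fintype.card_fin, card_Ix] at this
  calc 2 * ((d + 1) ^ 2 * (e + 1) ^ 2) = 2 * ((d + 1) ^ 2 * ((e + 1) * (e + 1))) := by ring
    _ ≤ _ := this

end Crest.Agent.R36.BIP230
end

-- ▼ part R36/T635
section

/-!
# R36, block (T): the tournament theorem (helper635, #12247)

`K` a field of characteristic 2, `t : ι → K` with derivations `D i (t j) = δ_ij`, `card ι = 2e+3`,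
`T` a tournament on `ι` (with values in `ZMod 2`).  A polynomial `p` of degree `≤ e` in each of two
variables whose pairing `∑_{T i j = 1} w_i w_j (t_i + t_j) p(t_i,t_j) t_i^a t_j^b` with all monomials
of degree `≤ e` vanishes is `0`.
-/

open Finset Polynomial

namespace Crest.Agent.R36.T635

variable {K ι : Type*} [Field K] [Fintype ι] [DecidableEq ι]

/-- Lagrange weights in characteristic 2. -/
def om (t : ι → K) (j : ι) : K := (∏ l ∈ univ.erase j, (t j + t l))⁻¹

/-- evaluation of a coefficient array -/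
def ev {N : ℕ} (p : Fin N → Fin N → K) (x y : K) : K := ∑ a, ∑ b, p a b * x ^ (a:ℕ) * y ^ (b:ℕ)

/-- evaluation of an `ℕ`-indexed coefficient array -/
def evN (N : ℕ) (p : ℕ → ℕ → K) (x y : K) : K :=
  ∑ a ∈ range N, ∑ b ∈ range N, p a b * x ^ a * y ^ b

omit [Fintype ι] in
theorem inj_of_D (t : ι → K) (D : ι → Derivation ℤ K K)
    (hD : ∀ i j, D i (t j) = if i = j then 1 else 0) : Function.Injective t := by
  intro i j h
  by_contra hne
  have h1 := hD i i
  have h2 := hD i j
  rw [← h, h1] at h2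
  simp [hne] at h2

section char2
variable [CharP K 2]

theorem om_eq (t : ι → K) (j : ι) : om t j = (∏ l ∈ univ.erase j, (t j - t l))⁻¹ := by
  simp [om, CharTwo.sub_eq_add]

theorem om_ne_zero (t : ι → K) (ht : Function.Injective t) (j : ι) : om t j ≠ 0 := by
  rw [om_eq]
  apply inv_ne_zero
  rw [prod_ne_zero_iff]
  intro l hl
  exact sub_ne_zero_of_ne fun h => (ne_of_mem_erase hl) (ht h.symm)

/-- Lagrange: `∑ w_j f(t_j)` is the coefficient of degree `n-1`. -/
theorem lagr (t : ι → K) (ht : Function.Injective t) (f : K[X])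
    (hf : f.degree < (Fintype.card ι : ℕ)) :
    ∑ j, om t j * f.eval (t j) = f.coeff (Fintype.card ι - 1) := by
  have h := Lagrange.coeff_eq_sum (s := (univ : Finset ι)) (v := t) ht.injOn (P := f)
    (by simpa using hf)
  rw [card_univ] at h
  rw [h]
  refine sum_congr rfl fun j _ => ?_
  rw [om_eq, div_eq_mul_inv, mul_comm]

theorem lagr_pow (t : ι → K) (ht : Function.Injective t) (m : ℕ) (hm : m + 2 ≤ Fintype.card ι) :
    ∑ j, om t j * t j ^ m = 0 := by
  have h := lagr t ht (X ^ m) (by rw [degree_X_pow]; exact_mod_cast (by omega))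
  simp only [eval_pow, eval_X, coeff_X_pow] at h
  rw [h, if_neg (by omega)]

omit [CharP K 2] [Fintype ι] in
/-- derivations on the coefficients of the nodal polynomial -/
theorem D_nodal (t : ι → K) (D : ι → Derivation ℤ K K)
    (hD : ∀ i j, D i (t j) = if i = j then 1 else 0) (i : ι) (s : Finset ι) (k : ℕ) :
    D i ((Lagrange.nodal s t).coeff k) =
      if i ∈ s then -(Lagrange.nodal (s.erase i) t).coeff k else 0 := by
  induction s using Finset.induction_on generalizing k with
  | empty => 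
    simp only [Lagrange.nodal_empty, coeff_one, notMem_empty, if_false]
    split_ifs <;> simp
  | insert a s ha ih =>
    rw [Lagrange.nodal_insert_eq_nodal ha, sub_mul, coeff_sub, coeff_C_mul, map_sub,
      Derivation.leibniz, hD, ih]
    have hX : D i ((X * Lagrange.nodal s t).coeff k) =
        if i ∈ s then -(X * Lagrange.nodal (s.erase i) t).coeff k else 0 := by
      cases k with
      | zero => simp
      | succ k => rw [coeff_X_mul, coeff_X_mul, ih]
    rw [hX]
    by_cases hia : i = a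
    · subst hia
      rw [erase_insert ha]
      simp [ha]
    · by_cases his : i ∈ s
      · rw [erase_insert_of_ne (fun h => hia h.symm), Lagrange.nodal_insert_eq_nodal
          (fun h => ha (mem_of_mem_erase h))]
        simp only [his, if_true, hia, if_false, mem_insert, or_true, smul_eq_mul, sub_mul,
          coeff_sub, coeff_C_mul]
        ring
      · simp [his, hia]

/-- the derivation dual to the coefficient `k0` -/
theorem exists_der (t : ι → K) (D : ι → Derivation ℤ K K)
    (hD : ∀ i j, D i (t j) = if i = j then 1 else 0) (k0 : ℕ) (hk0 : k0 < Fintype.card ι) :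
    ∃ δ : Derivation ℤ K K, ∀ k, δ ((Lagrange.nodal univ t).coeff k) = if k = k0 then 1 else 0 := by
  have ht := inj_of_D t D hD
  refine ⟨∑ j, (om t j * t j ^ k0) • D j, fun k => ?_⟩
  have h := Lagrange.eq_interpolate (s := (univ : Finset ι)) (v := t) (f := (X ^ k0 : K[X]))
    ht.injOn (by rw [degree_X_pow, card_univ]; exact_mod_cast hk0)
  rw [Lagrange.interpolate_eq_sum] at h
  have h2 := congrArg (fun f => coeff f k) h
  simp only [coeff_X_pow, finsetSum_coeff, coeff_C_mul, eval_pow, eval_X] at h2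
  have hs : ∀ (s : Finset ι) (x : K), (∑ j ∈ s, (om t j * t j ^ k0) • D j) x =
      ∑ j ∈ s, (om t j * t j ^ k0) * D j x := by
    intro s x
    induction s using Finset.induction_on with
    | empty => simp
    | insert a s ha ih =>
      rw [sum_insert ha, sum_insert ha, Derivation.add_apply, ih, Derivation.smul_apply, smul_eq_mul]
  rw [hs, h2]
  refine sum_congr rfl fun j _ => ?_
  rw [D_nodal t D hD, if_pos (mem_univ j), om_eq, CharTwo.neg_eq, Lagrange.nodal_eq, div_eq_mul_inv]
  ring

theorem der_mul_sq (δ : Derivation ℤ K K) (x y : K) : δ (x * y ^ 2) = y ^ 2 * δ x := by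
  rw [Derivation.leibniz, sq, Derivation.leibniz]
  simp only [smul_eq_mul, CharTwo.add_self_eq_zero, mul_zero, zero_add]

/-- `t_j` are linearly independent over the squares. -/
theorem sq_indep (t : ι → K) (D : ι → Derivation ℤ K K)
    (hD : ∀ i j, D i (t j) = if i = j then 1 else 0) (Y : ι → K)
    (h : ∑ j, t j * Y j ^ 2 = 0) (j : ι) : Y j = 0 := by
  have h1 := congrArg (D j) h
  rw [map_sum, map_zero] at h1
  simp only [der_mul_sq, hD] at h1
  simpa using h1

/-- independence of the products of coefficients of the nodal polynomial over the squares. -/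
theorem coeff_indep (t : ι → K) (D : ι → Derivation ℤ K K)
    (hD : ∀ i j, D i (t j) = if i = j then 1 else 0) (e : ℕ) (hcard : Fintype.card ι = 2 * e + 3)
    (Y : ℕ → ℕ → K)
    (h : ∑ a ∈ range (e + 2), ∑ b ∈ range (e + 2), (Lagrange.nodal univ t).coeff (2 * a) *
      (Lagrange.nodal univ t).coeff (2 * b + 1) * Y a b ^ 2 = 0) :
    ∀ a < e + 2, ∀ b < e + 2, Y a b = 0 := by
  intro a0 ha0
  obtain ⟨δ, hδ⟩ := exists_der t D hD (2 * a0) (by omega)
  have h1 := congrArg δ h
  rw [map_sum, map_zero] at h1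
  have h2 : ∑ b ∈ range (e + 2), (Lagrange.nodal univ t).coeff (2 * b + 1) * Y a0 b ^ 2 = 0 := by
    rw [Finset.sum_eq_single a0] at h1
    · rw [← h1, map_sum]
      refine sum_congr rfl fun b _ => ?_
      rw [der_mul_sq, Derivation.leibniz, hδ, hδ, if_pos rfl, if_neg (by omega)]
      simp [mul_comm]
    · intro a _ ha
      rw [map_sum]
      refine sum_eq_zero fun b _ => ?_
      rw [der_mul_sq, Derivation.leibniz, hδ, hδ, if_neg (by omega), if_neg (by omega)]
      simp
    · intro ha
      exact absurd (mem_range.2 ha0) ha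
  have h3 : ∀ b < e + 1, Y a0 b = 0 := by
    intro b0 hb0
    obtain ⟨δ', hδ'⟩ := exists_der t D hD (2 * b0 + 1) (by omega)
    have h4 := congrArg δ' h2
    rw [map_sum, map_zero] at h4
    simp only [der_mul_sq, hδ'] at h4
    rw [Finset.sum_eq_single b0] at h4
    · simpa using h4
    · intro b _ hb
      rw [if_neg (by omega), mul_zero]
    · intro hb
      exact absurd (mem_range.2 (by omega)) hb
  intro b hb
  rcases Nat.lt_or_ge b (e + 1) with hb' | hb'
  · exact h3 b hb'
  · obtain rfl : b = e + 1 := by omega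
    rw [sum_range_succ, sum_eq_zero (fun b hb => by rw [h3 b (mem_range.1 hb)]; simp), zero_add] at h2
    have hn : (Lagrange.nodal univ t).coeff (2 * (e + 1) + 1) = 1 := by
      have hm := Lagrange.nodal_monic (s := (univ : Finset ι)) (v := t)
      rw [Monic, leadingCoeff, Lagrange.natDegree_nodal, card_univ, hcard] at hm
      exact hm
    rw [hn] at h2
    simpa using h2

omit [CharP K 2] [Fintype ι] [DecidableEq ι] in
theorem sum_range_two_mul (f : ℕ → K) (m : ℕ) :
    ∑ k ∈ range (2 * m), f k = ∑ b ∈ range m, (f (2 * b) + f (2 * b + 1)) := by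
  induction m with
  | zero => simp
  | succ m ih =>
    rw [sum_range_succ _ m, ← ih, show 2 * (m + 1) = 2 * m + 1 + 1 by ring, sum_range_succ,
      sum_range_succ]
    ring

/-- `w_j⁻¹ = Π'(t_j)` is even in `t_j`. -/
theorem om_inv (t : ι → K) (e : ℕ) (hcard : Fintype.card ι = 2 * e + 3) (j : ι) :
    (om t j)⁻¹ = ∑ b ∈ range (e + 2), (Lagrange.nodal univ t).coeff (2 * b + 1) * (t j ^ b) ^ 2 := by
  rw [om_eq, inv_inv, ← Lagrange.eval_nodal (s := univ.erase j) (v := t) (x := t j),
    ← Lagrange.eval_nodal_derivative_eval_node_eq (mem_univ j)]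
  have hdeg : (Lagrange.nodal univ t).derivative.natDegree < 2 * (e + 2) := by
    have h1 := natDegree_derivative_le (Lagrange.nodal univ t)
    rw [Lagrange.natDegree_nodal, card_univ, hcard] at h1
    omega
  rw [eval_eq_sum_range' hdeg, sum_range_two_mul]
  refine sum_congr rfl fun b _ => ?_
  rw [coeff_derivative, coeff_derivative]
  have h2 : (2 : K) = 0 := CharTwo.two_eq_zero
  have e1 : ((2 * b : ℕ) : K) + 1 = 1 := by push_cast; rw [h2]; ring
  have e2 : ((2 * b + 1 : ℕ) : K) + 1 = 0 := by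
    push_cast
    linear_combination (b + 1 : K) * h2
  rw [e1, e2]
  ring

theorem t_om_inv (t : ι → K) (e : ℕ) (hcard : Fintype.card ι = 2 * e + 3) (j : ι) :
    t j * (om t j)⁻¹ = ∑ a ∈ range (e + 2), (Lagrange.nodal univ t).coeff (2 * a) * (t j ^ a) ^ 2 := by
  have h0 : (Lagrange.nodal univ t).eval (t j) = 0 := Lagrange.eval_nodal_at_node (mem_univ j)
  have hdeg : (Lagrange.nodal univ t).natDegree < 2 * (e + 2) := by
    rw [Lagrange.natDegree_nodal, card_univ, hcard]
    omega
  rw [eval_eq_sum_range' hdeg, sum_range_two_mul, sum_add_distrib] at h0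
  have h1 := CharTwo.add_eq_zero.1 h0
  rw [om_inv t e hcard, mul_sum]
  calc ∑ b ∈ range (e + 2), t j * ((Lagrange.nodal univ t).coeff (2 * b + 1) * (t j ^ b) ^ 2)
      = ∑ b ∈ range (e + 2), (Lagrange.nodal univ t).coeff (2 * b + 1) * t j ^ (2 * b + 1) :=
        sum_congr rfl fun b _ => by ring
    _ = ∑ b ∈ range (e + 2), (Lagrange.nodal univ t).coeff (2 * b) * t j ^ (2 * b) := h1.symm
    _ = _ := sum_congr rfl fun b _ => by ring

/-- the square trick -/
theorem key (t : ι → K) (D : ι → Derivation ℤ K K)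
    (hD : ∀ i j, D i (t j) = if i = j then 1 else 0) (e : ℕ) (hcard : Fintype.card ι = 2 * e + 3)
    (c : ι → ι → K) (hc : ∀ i j, c i j ^ 2 = c i j) (G : ι → ι → K)
    (h : ∑ i, ∑ j, c i j * (om t i * om t j * (t i * G i j ^ 2)) = 0) :
    ∀ a < e + 2, ∀ b < e + 2,
      ∑ i, ∑ j, c i j * (om t i * om t j * (t i ^ a * t j ^ b * G i j)) = 0 := by
  have ht := inj_of_D t D hD
  apply coeff_indep t D hD e hcard
  rw [← h]
  have hsq : ∀ a b, (∑ i, ∑ j, c i j * (om t i * om t j * (t i ^ a * t j ^ b * G i j))) ^ 2 =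
      ∑ i, ∑ j, c i j * (om t i ^ 2 * om t j ^ 2 * ((t i ^ a) ^ 2 * (t j ^ b) ^ 2 * G i j ^ 2)) := by
    intro a b
    rw [CharTwo.sum_sq]
    refine sum_congr rfl fun i _ => ?_
    rw [CharTwo.sum_sq]
    refine sum_congr rfl fun j _ => ?_
    rw [mul_pow, hc]
    ring
  simp_rw [hsq, mul_sum]
  calc ∑ a ∈ range (e + 2), ∑ b ∈ range (e + 2), ∑ i, ∑ j,
        (Lagrange.nodal univ t).coeff (2 * a) * (Lagrange.nodal univ t).coeff (2 * b + 1) *
          (c i j * (om t i ^ 2 * om t j ^ 2 * ((t i ^ a) ^ 2 * (t j ^ b) ^ 2 * G i j ^ 2)))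
      = ∑ i, ∑ j, ∑ a ∈ range (e + 2), ∑ b ∈ range (e + 2),
        (Lagrange.nodal univ t).coeff (2 * a) * (Lagrange.nodal univ t).coeff (2 * b + 1) *
          (c i j * (om t i ^ 2 * om t j ^ 2 * ((t i ^ a) ^ 2 * (t j ^ b) ^ 2 * G i j ^ 2))) := by
        simp_rw [sum_comm (s := range (e + 2)) (t := (univ : Finset ι))]
    _ = ∑ i, ∑ j, c i j * (om t i ^ 2 * om t j ^ 2 * G i j ^ 2) *
          ((∑ a ∈ range (e + 2), (Lagrange.nodal univ t).coeff (2 * a) * (t i ^ a) ^ 2) *
          ∑ b ∈ range (e + 2), (Lagrange.nodal univ t).coeff (2 * b + 1) * (t j ^ b) ^ 2) := by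
        refine sum_congr rfl fun i _ => sum_congr rfl fun j _ => ?_
        rw [sum_mul_sum, mul_sum]
        refine sum_congr rfl fun a _ => ?_
        rw [mul_sum]
        refine sum_congr rfl fun b _ => ?_
        ring
    _ = _ := by
        refine sum_congr rfl fun i _ => sum_congr rfl fun j _ => ?_
        rw [← om_inv t e hcard, ← t_om_inv t e hcard]
        have h1 := om_ne_zero t ht i
        have h2 := om_ne_zero t ht j
        field_simp

/-- the tournament functional -/
def Psi (t : ι → K) (c : ι → ι → K) : (ι → ι → K) →ₗ[K] K where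
  toFun F := ∑ i, ∑ j, c i j * (om t i * om t j * F i j)
  map_add' F G := by simp [mul_add, sum_add_distrib]
  map_smul' r F := by
    simp only [Pi.smul_apply, smul_eq_mul, RingHom.id_apply, mul_sum]
    refine sum_congr rfl fun i _ => sum_congr rfl fun j _ => ?_
    ring

omit [CharP K 2] in
theorem Psi_apply (t : ι → K) (c : ι → ι → K) (F : ι → ι → K) :
    Psi t c F = ∑ i, ∑ j, c i j * (om t i * om t j * F i j) := rfl

omit [CharP K 2] in
theorem Psi_test (t : ι → K) (c : ι → ι → K) (P : ι → ι → K) (e : ℕ)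
    (h : ∀ u v, u ≤ e → v ≤ e →
      Psi t c (fun i j => (t i + t j) * P i j * (t i ^ u * t j ^ v)) = 0)
    (q : ℕ → ℕ → K) (N s : ℕ) (hN : N + s ≤ e + 1) :
    Psi t c (fun i j => (t i + t j) * P i j * (t i ^ s * evN N q (t i) (t j))) = 0 := by
  have h1 : (fun i j => (t i + t j) * P i j * (t i ^ s * evN N q (t i) (t j))) =
      ∑ a ∈ range N, ∑ b ∈ range N,
        q a b • (fun i j => (t i + t j) * P i j * (t i ^ (a + s) * t j ^ b)) := by
    funext i j
    simp only [evN, mul_sum, Finset.sum_apply, Pi.smul_apply, smul_eq_mul]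
    refine sum_congr rfl fun a _ => sum_congr rfl fun b _ => ?_
    ring
  rw [h1, map_sum]
  refine sum_eq_zero fun a ha => ?_
  rw [map_sum]
  refine sum_eq_zero fun b hb => ?_
  rw [mem_range] at ha hb
  rw [map_smul, h _ _ (by omega) (by omega), smul_zero]

omit [CharP K 2] [Fintype ι] [DecidableEq ι] in
theorem evN_succ (N : ℕ) (p : ℕ → ℕ → K) (x y : K) :
    evN (N + 1) p x y = evN N p x y + (∑ a ∈ range N, p a N * x ^ a * y ^ N) +
      (∑ b ∈ range N, p N b * x ^ N * y ^ b) + p N N * x ^ N * y ^ N := by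
  unfold evN
  rw [sum_range_succ]
  simp_rw [sum_range_succ _ N]
  rw [sum_add_distrib]
  ring

omit [Fintype ι] [DecidableEq ι] in
theorem evN_diag (N : ℕ) (p : ℕ → ℕ → K) (hp : ∀ a b, p a b = p b a) (x : K) :
    evN N p x x = ∑ a ∈ range N, p a a * x ^ (2 * a) := by
  induction N with
  | zero => simp [evN]
  | succ N ih =>
    rw [evN_succ, ih, sum_range_succ]
    have h1 : ∑ a ∈ range N, p a N * x ^ a * x ^ N = ∑ b ∈ range N, p N b * x ^ N * x ^ b :=
      sum_congr rfl fun a _ => by rw [hp]; ring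
    rw [h1, add_assoc (∑ a ∈ range N, p a a * x ^ (2 * a)), CharTwo.add_self_eq_zero]
    ring

omit [CharP K 2] [DecidableEq ι] in
theorem uniq1 (t : ι → K) (ht : Function.Injective t) (N : ℕ) (hN : N ≤ Fintype.card ι)
    (c : ℕ → K) (h : ∀ j, ∑ a ∈ range N, c a * t j ^ a = 0) : ∀ a < N, c a = 0 := by
  have hf : (∑ a ∈ range N, C (c a) * X ^ a : K[X]) = 0 := by
    apply eq_zero_of_degree_lt_of_eval_index_eq_zero (s := (univ : Finset ι)) (v := t) ht.injOn
    · rw [card_univ]
      refine lt_of_lt_of_le ?_ (by exact_mod_cast hN : ((N : ℕ) : WithBot ℕ) ≤ _)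
      rw [degree_lt_iff_coeff_zero]
      intro m hm
      rw [finsetSum_coeff]
      refine sum_eq_zero fun a ha => ?_
      rw [coeff_C_mul, coeff_X_pow, if_neg (by rw [mem_range] at ha; omega), mul_zero]
    · intro j _
      rw [eval_finsetSum, ← h j]
      refine sum_congr rfl fun a _ => ?_
      simp
  intro a ha
  have h1 := congrArg (fun f => coeff f a) hf
  simp only [finsetSum_coeff, coeff_C_mul, coeff_X_pow, coeff_zero] at h1
  rw [sum_eq_single a] at h1
  · simpa using h1
  · intro b _ hb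
    rw [if_neg (fun h => hb h.symm), mul_zero]
  · intro h2
    exact absurd (mem_range.2 ha) h2

omit [CharP K 2] [DecidableEq ι] in
theorem uniq2 (t : ι → K) (ht : Function.Injective t) (N : ℕ) (hN : N ≤ Fintype.card ι)
    (p : ℕ → ℕ → K) (h : ∀ i j, evN N p (t i) (t j) = 0) :
    ∀ a < N, ∀ b < N, p a b = 0 := by
  have h1 : ∀ j, ∀ a < N, ∑ b ∈ range N, p a b * t j ^ b = 0 := by
    intro j
    apply uniq1 t ht N hN
    intro i
    rw [← h i j, evN]
    refine sum_congr rfl fun a _ => ?_
    rw [sum_mul]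
    refine sum_congr rfl fun b _ => ?_
    ring
  intro a ha
  exact uniq1 t ht N hN _ fun j => h1 j a ha

omit [Fintype ι] [DecidableEq ι] in
/-- quotient of `x^a y^b + x^b y^a` by `x + y` -/
theorem quot_mono (N a b : ℕ) (hab : a < b) (hb : b ≤ N) (x y : K) :
    (x + y) * evN N (fun u v => if u + v + 1 = a + b ∧ a ≤ u ∧ a ≤ v then 1 else 0) x y =
      x ^ a * y ^ b + x ^ b * y ^ a := by
  have h1 : evN N (fun u v => if u + v + 1 = a + b ∧ a ≤ u ∧ a ≤ v then (1 : K) else 0) x y =
      ∑ u ∈ Ico a b, x ^ u * y ^ (a + b - 1 - u) := by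
    unfold evN
    rw [← sum_subset (s₁ := Ico a b) (s₂ := range N)]
    · refine sum_congr rfl fun u hu => ?_
      rw [mem_Ico] at hu
      rw [sum_eq_single (a + b - 1 - u)]
      · beta_reduce
        rw [if_pos (by omega), one_mul]
      · intro v _ hv
        beta_reduce
        rw [if_neg (by omega), zero_mul, zero_mul]
      · intro h
        rw [mem_range] at h
        omega
    · intro u hu
      rw [mem_Ico] at hu
      rw [mem_range]
      omega
    · intro u _ hu
      rw [mem_Ico] at hu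
      refine sum_eq_zero fun v _ => ?_
      beta_reduce
      rw [if_neg (by omega), zero_mul, zero_mul]
  rw [h1, sum_Ico_eq_sum_range]
  have h2 : ∑ i ∈ range (b - a), x ^ (a + i) * y ^ (a + b - 1 - (a + i)) =
      (x * y) ^ a * ∑ i ∈ range (b - a), x ^ i * y ^ (b - a - 1 - i) := by
    rw [mul_sum]
    refine sum_congr rfl fun i hi => ?_
    rw [mem_range] at hi
    rw [show a + b - 1 - (a + i) = a + (b - a - 1 - i) by omega, pow_add, pow_add, mul_pow]
    ring
  have h3 := geom_sum₂_mul x y (b - a)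
  rw [CharTwo.sub_eq_add, CharTwo.sub_eq_add] at h3
  rw [h2, show (x + y) * ((x * y) ^ a * ∑ i ∈ range (b - a), x ^ i * y ^ (b - a - 1 - i)) =
    (x * y) ^ a * ((∑ i ∈ range (b - a), x ^ i * y ^ (b - a - 1 - i)) * (x + y)) by ring, h3]
  obtain ⟨d, rfl⟩ := Nat.exists_eq_add_of_lt hab
  rw [show a + d + 1 - a = d + 1 by omega]
  ring

omit [CharP K 2] [Fintype ι] [DecidableEq ι] in
theorem evN_sum {α : Type*} (s : Finset α) (N : ℕ) (r : α → K) (q : α → ℕ → ℕ → K) (x y : K) :
    evN N (fun u v => ∑ k ∈ s, r k * q k u v) x y = ∑ k ∈ s, r k * evN N (q k) x y := by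
  unfold evN
  simp_rw [mul_sum]
  rw [sum_comm' (s := s) (t' := range N) (s' := fun _ => s) (by simp)]
  refine sum_congr rfl fun a _ => ?_
  rw [sum_comm' (s := s) (t' := range N) (s' := fun _ => s) (by simp)]
  refine sum_congr rfl fun b _ => ?_
  rw [sum_mul, sum_mul]
  refine sum_congr rfl fun k _ => ?_
  ring

omit [CharP K 2] [Fintype ι] [DecidableEq ι] in
theorem evN_symm (N : ℕ) (p : ℕ → ℕ → K) (hp : ∀ a b, p a b = p b a)
    (hd : ∀ a < N, p a a = 0) (x y : K) :
    evN N p x y = ∑ b ∈ range N, ∑ a ∈ range b, p a b * (x ^ a * y ^ b + x ^ b * y ^ a) := by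
  induction N with
  | zero => simp [evN]
  | succ N ih =>
    rw [evN_succ, ih (fun a ha => hd a (by omega)), sum_range_succ, hd N (by omega), zero_mul,
      zero_mul, add_zero, add_assoc, ← sum_add_distrib]
    congr 1
    refine sum_congr rfl fun a _ => ?_
    rw [hp N a]
    ring

/-- a symmetric array with zero diagonal is divisible by `x + y`. -/
theorem exists_quot (N : ℕ) (p : ℕ → ℕ → K) (hp : ∀ a b, p a b = p b a)
    (hd : ∀ a < N + 1, p a a = 0) :
    ∃ q : ℕ → ℕ → K, (∀ a b, q a b = q b a) ∧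
      ∀ x y, (x + y) * evN N q x y = evN (N + 1) p x y := by
  refine ⟨fun u v => ∑ b ∈ range (N + 1), 1 * ∑ a ∈ range b, p a b *
    (if u + v + 1 = a + b ∧ a ≤ u ∧ a ≤ v then 1 else 0), ?_, ?_⟩
  · intro u v
    refine sum_congr rfl fun b _ => ?_
    congr 1
    refine sum_congr rfl fun a _ => ?_
    congr 1
    exact if_congr (by constructor <;> (intro h; omega)) rfl rfl
  · intro x y
    rw [evN_symm (N + 1) p hp hd, evN_sum (range (N + 1)) N (fun _ => 1)
      (fun b u v => ∑ a ∈ range b, p a b *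
        (if u + v + 1 = a + b ∧ a ≤ u ∧ a ≤ v then 1 else 0)), mul_sum]
    refine sum_congr rfl fun b hb => ?_
    rw [mem_range] at hb
    rw [one_mul, evN_sum (range b) N (fun a => p a b)
      (fun a u v => if u + v + 1 = a + b ∧ a ≤ u ∧ a ≤ v then 1 else 0), mul_sum]
    refine sum_congr rfl fun a ha => ?_
    rw [mem_range] at ha
    rw [← quot_mono N a b ha (by omega) x y]
    ring

omit [Fintype ι] [DecidableEq ι] in
theorem evN_sq (N : ℕ) (p : ℕ → ℕ → K) (x y : K) :
    evN N p x y ^ 2 = ∑ a ∈ range N, ∑ b ∈ range N, p a b ^ 2 * x ^ (2 * a) * y ^ (2 * b) := by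
  rw [evN, CharTwo.sum_sq]
  refine sum_congr rfl fun a _ => ?_
  rw [CharTwo.sum_sq]
  refine sum_congr rfl fun b _ => ?_
  ring

omit [Fintype ι] [DecidableEq ι] [CharP K 2] in
theorem evN_swap (N : ℕ) (p : ℕ → ℕ → K) (hp : ∀ a b, p a b = p b a) (x y : K) :
    evN N p x y = evN N p y x := by
  unfold evN
  rw [sum_comm]
  refine sum_congr rfl fun a _ => sum_congr rfl fun b _ => ?_
  rw [hp]
  ring

/-- diagonal step: `Psi((t_i+t_j) P²) = ∑ t_j (w_j P_jj)²`. -/
theorem diag_step (t : ι → K) (ht : Function.Injective t) (e : ℕ)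
    (hcard : Fintype.card ι = 2 * e + 3)
    (c : ι → ι → K) (hc0 : ∀ i, c i i = 0) (hc1 : ∀ i j, i ≠ j → c i j + c j i = 1)
    (N : ℕ) (hN : N ≤ e + 1) (p : ℕ → ℕ → K) (hp : ∀ a b, p a b = p b a) :
    Psi t c (fun i j => (t i + t j) * evN N p (t i) (t j) * evN N p (t i) (t j)) =
      ∑ j, t j * (om t j * evN N p (t j) (t j)) ^ 2 := by
  set P : ι → ι → K := fun i j => evN N p (t i) (t j) with hP
  have hPs : ∀ i j, P i j = P j i := fun i j => evN_swap N p hp _ _
  have h1 : Psi t c (fun i j => (t i + t j) * P i j * P i j) =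
      ∑ i, ∑ j, (c i j + c j i) * (om t i * om t j * t i * P i j ^ 2) := by
    rw [Psi_apply]
    have h2 : ∑ i, ∑ j, (c i j + c j i) * (om t i * om t j * t i * P i j ^ 2) =
        ∑ i, ∑ j, c i j * (om t i * om t j * t i * P i j ^ 2) +
        ∑ i, ∑ j, c j i * (om t i * om t j * t i * P i j ^ 2) := by
      rw [← sum_add_distrib]
      refine sum_congr rfl fun i _ => ?_
      rw [← sum_add_distrib]
      refine sum_congr rfl fun j _ => ?_
      ring
    rw [h2, sum_comm (f := fun i j => c j i * (om t i * om t j * t i * P i j ^ 2)),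
      ← sum_add_distrib]
    refine sum_congr rfl fun i _ => ?_
    rw [← sum_add_distrib]
    refine sum_congr rfl fun j _ => ?_
    rw [hPs j i]
    ring
  have h3 : ∀ i, ∑ j, (c i j + c j i) * (om t i * om t j * t i * P i j ^ 2) =
      ∑ j, om t i * om t j * t i * P i j ^ 2 + t i * (om t i * P i i) ^ 2 := by
    intro i
    rw [← add_sum_erase univ _ (mem_univ i),
      ← add_sum_erase univ (fun j => om t i * om t j * t i * P i j ^ 2) (mem_univ i), hc0]
    have h4 : ∑ j ∈ univ.erase i, (c i j + c j i) * (om t i * om t j * t i * P i j ^ 2) =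
        ∑ j ∈ univ.erase i, om t i * om t j * t i * P i j ^ 2 := by
      refine sum_congr rfl fun j hj => ?_
      rw [hc1 i j (fun h => (ne_of_mem_erase hj) h.symm), one_mul]
    rw [h4]
    have h5 : t i * (om t i * P i i) ^ 2 = om t i * om t i * t i * P i i ^ 2 := by ring
    rw [h5, add_zero, zero_mul, zero_add,
      add_comm (om t i * om t i * t i * P i i ^ 2) (∑ j ∈ univ.erase i, _), add_assoc,
      CharTwo.add_self_eq_zero, add_zero]
  have h6 : ∀ i, ∑ j, om t i * om t j * t i * P i j ^ 2 = 0 := by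
    intro i
    have h7 : ∀ j, om t i * om t j * t i * P i j ^ 2 =
        ∑ a ∈ range N, ∑ b ∈ range N,
          (om t i * t i * (p a b ^ 2 * t i ^ (2 * a))) * (om t j * t j ^ (2 * b)) := by
      intro j
      rw [hP]
      simp only
      rw [evN_sq, mul_sum]
      refine sum_congr rfl fun a _ => ?_
      rw [mul_sum]
      refine sum_congr rfl fun b _ => ?_
      ring
    simp_rw [h7]
    rw [sum_comm]
    refine sum_eq_zero fun a _ => ?_
    rw [sum_comm]
    refine sum_eq_zero fun b hb => ?_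
    rw [mem_range] at hb
    rw [← mul_sum, lagr_pow t ht (2 * b) (by omega), mul_zero]
  rw [h1]
  simp_rw [h3, h6, zero_add]
  rfl

/-- The descent. -/
theorem descent (t : ι → K) (D : ι → Derivation ℤ K K)
    (hD : ∀ i j, D i (t j) = if i = j then 1 else 0) (e : ℕ) (hcard : Fintype.card ι = 2 * e + 3)
    (c : ι → ι → K) (hc : ∀ i j, c i j ^ 2 = c i j) (hc0 : ∀ i, c i i = 0)
    (hc1 : ∀ i j, i ≠ j → c i j + c j i = 1) (N : ℕ) (hN : N ≤ e + 1) (p : ℕ → ℕ → K)
    (hp : ∀ a b, p a b = p b a)
    (h : ∀ u v, u ≤ e → v ≤ e →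
      Psi t c (fun i j => (t i + t j) * evN N p (t i) (t j) * (t i ^ u * t j ^ v)) = 0) :
    ∀ i j, evN N p (t i) (t j) = 0 := by
  have ht := inj_of_D t D hD
  induction N generalizing p with
  | zero => intro i j; simp [evN]
  | succ N ih =>
    -- the diagonal vanishes
    have h1 := Psi_test t c (fun i j => evN (N + 1) p (t i) (t j)) e h p (N + 1) 0 (by omega)
    simp only [pow_zero, one_mul] at h1
    rw [diag_step t ht e hcard c hc0 hc1 (N + 1) hN p hp] at h1
    have h2 : ∀ j, evN (N + 1) p (t j) (t j) = 0 := fun j =>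
      (mul_eq_zero.1 (sq_indep t D hD _ h1 j)).resolve_left (om_ne_zero t ht j)
    have h3 : ∀ a < N + 1, p a a = 0 := by
      have h4 : ∀ a < 2 * (N + 1), (if Even a then p (a / 2) (a / 2) else 0) = 0 := by
        apply uniq1 t ht (2 * (N + 1)) (by omega)
        intro j
        rw [sum_range_two_mul]
        refine Eq.trans (sum_congr rfl fun a _ => ?_) ((evN_diag _ p hp _).symm.trans (h2 j))
        rw [if_pos (by simp), if_neg (by simp), zero_mul, add_zero,
          Nat.mul_div_cancel_left a (by norm_num)]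
      intro a ha
      have h5 := h4 (2 * a) (by omega)
      rwa [if_pos (by simp), Nat.mul_div_cancel_left a (by norm_num)] at h5
    obtain ⟨q, hq, hqp⟩ := exists_quot N p hp h3
    have h6 := Psi_test t c (fun i j => evN (N + 1) p (t i) (t j)) e h q N 1 (by omega)
    have h7 : (fun i j => (t i + t j) * evN (N + 1) p (t i) (t j) *
        (t i ^ 1 * evN N q (t i) (t j))) =
        fun i j => t i * evN (N + 1) p (t i) (t j) ^ 2 := by
      funext i j
      rw [show (t i + t j) * evN (N + 1) p (t i) (t j) * (t i ^ 1 * evN N q (t i) (t j)) =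
        t i * evN (N + 1) p (t i) (t j) * ((t i + t j) * evN N q (t i) (t j)) by ring, hqp]
      ring
    rw [h7, Psi_apply] at h6
    have h8 := key t D hD e hcard c hc (fun i j => evN (N + 1) p (t i) (t j)) h6
    have h9 := ih (by omega) q hq (by
      intro u v hu hv
      rw [Psi_apply, ← h8 u (by omega) v (by omega)]
      refine sum_congr rfl fun i _ => sum_congr rfl fun j _ => ?_
      rw [← hqp]
      ring)
    intro i j
    rw [← hqp, h9, mul_zero]

/-- **The tournament theorem (T)**, `ℕ`-indexed form. -/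
theorem tformN (t : ι → K) (D : ι → Derivation ℤ K K)
    (hD : ∀ i j, D i (t j) = if i = j then 1 else 0) (e : ℕ) (hcard : Fintype.card ι = 2 * e + 3)
    (c : ι → ι → K) (hc : ∀ i j, c i j ^ 2 = c i j) (hc0 : ∀ i, c i i = 0)
    (hc1 : ∀ i j, i ≠ j → c i j + c j i = 1) (p : ℕ → ℕ → K)
    (h : ∀ u v, u ≤ e → v ≤ e →
      Psi t c (fun i j => (t i + t j) * evN (e + 1) p (t i) (t j) * (t i ^ u * t j ^ v)) = 0) :
    ∀ a < e + 1, ∀ b < e + 1, p a b = 0 := by
  have ht := inj_of_D t D hD
  -- the swapped array is in the radical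
  have hsw : ∀ u v, u ≤ e → v ≤ e →
      Psi t c (fun i j => (t i + t j) * evN (e + 1) p (t j) (t i) * (t i ^ u * t j ^ v)) = 0 := by
    intro u v hu hv
    have h0 := h v u hv hu
    rw [Psi_apply] at h0 ⊢
    rw [sum_comm]
    have h1 : ∑ i, ∑ j, (c i j + c j i) * (om t i * om t j * ((t i + t j) *
        evN (e + 1) p (t i) (t j) * (t i ^ v * t j ^ u))) = 0 := by
      have h2 : ∀ i j, (c i j + c j i) * (om t i * om t j * ((t i + t j) *
          evN (e + 1) p (t i) (t j) * (t i ^ v * t j ^ u))) = om t i * om t j * ((t i + t j) *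
          evN (e + 1) p (t i) (t j) * (t i ^ v * t j ^ u)) := by
        intro i j
        rcases eq_or_ne i j with rfl | hij
        · rw [CharTwo.add_self_eq_zero (t i)]
          ring
        · rw [hc1 i j hij, one_mul]
      simp_rw [h2]
      have h3 : ∀ i j, om t i * om t j * ((t i + t j) *
          evN (e + 1) p (t i) (t j) * (t i ^ v * t j ^ u)) =
          ∑ a ∈ range (e + 1), ∑ b ∈ range (e + 1),
          (om t i * t i ^ (a + v + 1) * p a b * (om t j * t j ^ (b + u)) +
            om t i * t i ^ (a + v) * p a b * (om t j * t j ^ (b + u + 1))) := by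
        intro i j
        rw [evN, show ∀ S : K, om t i * om t j * ((t i + t j) * S * (t i ^ v * t j ^ u)) =
          om t i * om t j * ((t i + t j) * (t i ^ v * t j ^ u)) * S from fun S => by ring, mul_sum]
        refine sum_congr rfl fun a _ => ?_
        rw [mul_sum]
        refine sum_congr rfl fun b _ => ?_
        ring
      simp_rw [h3]
      refine sum_eq_zero fun i _ => ?_
      rw [sum_comm]
      refine sum_eq_zero fun a ha => ?_
      rw [sum_comm]
      refine sum_eq_zero fun b hb => ?_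
      rw [mem_range] at ha hb
      rw [sum_add_distrib, ← mul_sum, ← mul_sum, lagr_pow t ht _ (by omega),
        lagr_pow t ht _ (by omega), mul_zero, mul_zero, add_zero]
    have h4 : ∑ i, ∑ j, (c i j + c j i) * (om t i * om t j * ((t i + t j) *
        evN (e + 1) p (t i) (t j) * (t i ^ v * t j ^ u))) =
        (∑ i, ∑ j, c i j * (om t i * om t j * ((t i + t j) *
          evN (e + 1) p (t i) (t j) * (t i ^ v * t j ^ u)))) +
        ∑ i, ∑ j, c j i * (om t j * om t i * ((t j + t i) *
          evN (e + 1) p (t i) (t j) * (t j ^ u * t i ^ v))) := by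
      rw [← sum_add_distrib]
      refine sum_congr rfl fun i _ => ?_
      rw [← sum_add_distrib]
      refine sum_congr rfl fun j _ => ?_
      ring
    rw [h4, h0, zero_add] at h1
    exact h1
  -- symmetrised array
  have hsym : ∀ i j, evN (e + 1) (fun a b => p a b + p b a) (t i) (t j) = 0 := by
    apply descent t D hD e hcard c hc hc0 hc1 (e + 1) le_rfl
    · intro a b
      exact add_comm _ _
    · intro u v hu hv
      have h5 : (fun i j => (t i + t j) * evN (e + 1) (fun a b => p a b + p b a) (t i) (t j) *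
          (t i ^ u * t j ^ v)) =
          (fun i j => (t i + t j) * evN (e + 1) p (t i) (t j) * (t i ^ u * t j ^ v)) +
          (fun i j => (t i + t j) * evN (e + 1) p (t j) (t i) * (t i ^ u * t j ^ v)) := by
        funext i j
        simp only [Pi.add_apply]
        rw [← add_mul, ← mul_add]
        congr 2
        unfold evN
        rw [sum_comm (f := fun a b => p a b * t j ^ a * t i ^ b), ← sum_add_distrib]
        refine sum_congr rfl fun a _ => ?_
        rw [← sum_add_distrib]
        refine sum_congr rfl fun b _ => ?_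
        ring
      rw [h5, map_add, h u v hu hv, hsw u v hu hv, add_zero]
  have hs2 := uniq2 t ht (e + 1) (by omega) _ hsym
  -- truncate, to get a symmetric array everywhere
  set p' : ℕ → ℕ → K := fun a b => if a < e + 1 ∧ b < e + 1 then p a b else 0 with hp'
  have hev : ∀ x y, evN (e + 1) p' x y = evN (e + 1) p x y := by
    intro x y
    unfold evN
    refine sum_congr rfl fun a ha => sum_congr rfl fun b hb => ?_
    rw [mem_range] at ha hb
    rw [hp']
    simp only
    rw [if_pos ⟨ha, hb⟩]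
  have hps : ∀ a b, p' a b = p' b a := by
    intro a b
    rw [hp']
    simp only
    by_cases hab : a < e + 1 ∧ b < e + 1
    · rw [if_pos hab, if_pos hab.symm]
      exact CharTwo.add_eq_zero.1 (hs2 a hab.1 b hab.2)
    · rw [if_neg hab, if_neg (fun h => hab h.symm)]
  have hfin := descent t D hD e hcard c hc hc0 hc1 (e + 1) le_rfl p' hps (by
    intro u v hu hv
    simp_rw [hev]
    exact h u v hu hv)
  simp_rw [hev] at hfin
  exact uniq2 t ht (e + 1) (by omega) p hfin

/-- **The tournament theorem (T)**. -/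
theorem tform (t : ι → K) (D : ι → Derivation ℤ K K)
    (hD : ∀ i j, D i (t j) = if i = j then 1 else 0) (e : ℕ) (hcard : Fintype.card ι = 2 * e + 3)
    (T : ι → ι → ZMod 2) (hT : ∀ i j, i ≠ j → T i j + T j i = 1)
    (p : Fin (e + 1) → Fin (e + 1) → K)
    (h : ∀ a b : ℕ, a ≤ e → b ≤ e → ∑ i, ∑ j, (if T i j = 1 ∧ i ≠ j then
      om t i * om t j * (t i + t j) * ev p (t i) (t j) * t i ^ a * t j ^ b else 0) = 0) :
    p = 0 := by
  set c : ι → ι → K := fun i j => if T i j = 1 ∧ i ≠ j then 1 else 0 with hc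
  set p' : ℕ → ℕ → K := fun a b =>
    if h : a < e + 1 ∧ b < e + 1 then p ⟨a, h.1⟩ ⟨b, h.2⟩ else 0 with hp'
  have hev : ∀ x y, evN (e + 1) p' x y = ev p x y := by
    intro x y
    unfold evN ev
    rw [Finset.sum_range]
    refine sum_congr rfl fun a _ => ?_
    rw [Finset.sum_range]
    refine sum_congr rfl fun b _ => ?_
    rw [hp']
    simp only
    rw [dif_pos ⟨a.2, b.2⟩]
  have hz : ∀ z : ZMod 2, z = 0 ∨ z = 1 := by decide
  have hmain := tformN t D hD e hcard c
    (by
      intro i j
      simp only [hc]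
      split_ifs <;> simp)
    (by
      intro i
      simp [hc])
    (by
      intro i j hij
      have h1 := hT i j hij
      simp only [hc]
      rcases hz (T i j) with h2 | h2 <;> rcases hz (T j i) with h3 | h3 <;>
        rw [h2, h3] at h1 <;> simp [h2, h3, hij, hij.symm] at h1 ⊢)
    p' (by
      intro u v hu hv
      rw [Psi_apply, ← h u v hu hv]
      refine sum_congr rfl fun i _ => sum_congr rfl fun j _ => ?_
      rw [hev]
      simp only [hc]
      split_ifs
      · ring
      · ring)
  funext a b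
  have h1 := hmain a a.2 b b.2
  rw [hp'] at h1
  simp only at h1
  rw [dif_pos ⟨a.2, b.2⟩] at h1
  exact h1

/-- **(T)** tested against all polynomials `k`. -/
theorem tform' (t : ι → K) (D : ι → Derivation ℤ K K)
    (hD : ∀ i j, D i (t j) = if i = j then 1 else 0) (e : ℕ) (hcard : Fintype.card ι = 2 * e + 3)
    (T : ι → ι → ZMod 2) (hT : ∀ i j, i ≠ j → T i j + T j i = 1)
    (p : Fin (e + 1) → Fin (e + 1) → K)
    (h : ∀ k : Fin (e + 1) → Fin (e + 1) → K, ∑ i, ∑ j, (if T i j = 1 ∧ i ≠ j then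
      om t i * om t j * (t i + t j) * ev p (t i) (t j) * ev k (t i) (t j) else 0) = 0) :
    p = 0 := by
  apply tform t D hD e hcard T hT p
  intro a b ha hb
  refine Eq.trans ?_ (h (fun u v => if u = (⟨a, by omega⟩ : Fin (e + 1)) ∧
    v = (⟨b, by omega⟩ : Fin (e + 1)) then 1 else 0))
  have hk : ∀ x y : K, ev (fun u v : Fin (e + 1) => if u = (⟨a, by omega⟩ : Fin (e + 1)) ∧
      v = (⟨b, by omega⟩ : Fin (e + 1)) then (1 : K) else 0) x y = x ^ a * y ^ b := by
    intro x y
    unfold ev
    rw [sum_eq_single ⟨a, by omega⟩, sum_eq_single ⟨b, by omega⟩]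
    · simp
    · intro v _ hv
      simp [hv]
    · intro hh
      exact absurd (mem_univ _) hh
    · intro u _ hu
      simp [hu]
    · intro hh
      exact absurd (mem_univ _) hh
  refine sum_congr rfl fun i _ => sum_congr rfl fun j _ => ?_
  rw [hk]
  split_ifs
  · ring
  · rfl

end char2

end Crest.Agent.R36.T635
end

-- ▼ part R36/BIP230e

/-! R36 (helper230): `K_{m,n}`: assembly.  `BIP230.core` (isotropy + dimension count) +
`T635.tform'` (the tournament theorem) + `Gen259.exists_field` (generic points with derivations)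
+ `G172.s0049_of` (drawing => van Kampen coset, and even parameters). -/

set_option autoImplicit false
open Crest.CombinatoricsR.TopDrawing

namespace Crest.Agent.R36.BIP230

/-- (T) on a family of points with dual derivations -/
theorem tForm_of_der {K : Type*} [Field K] [CharP K 2] (e : ℕ) (τ : Fin (2 * e + 3) → K)
    (D : Fin (2 * e + 3) → Derivation ℤ K K) (hD : ∀ i j, D i (τ j) = if i = j then 1 else 0) :
    TForm e τ := by
  intro T hT p h
  exact T635.tform' τ D hD e (Fintype.card_fin _) T hT p h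

theorem bipF2_odd (d e : ℕ) : G172.BipF2 (2 * d + 3) (2 * e + 3) := by
  intro K M
  obtain ⟨F, _, _, _, τ, D, hD⟩ := Gen259.exists_field (2 * e + 3)
  have hτ : Function.Injective τ := T635.inj_of_D τ D hD
  let t : Fin (2 * d + 3) → F := fun i => Infinite.natEmbedding F i
  have ht : Function.Injective t := fun i j h => Fin.ext ((Infinite.natEmbedding F).injective h)
  have h := core (t := t) (τ := τ) (d := d) (e := e) rfl rfl ht hτ (tForm_of_der e τ D hD) K M
  have h1 : (2 * d + 3) / 2 = d + 1 := by omega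
  have h2 : (2 * d + 3 - 1) / 2 = d + 1 := by omega
  have h3 : (2 * e + 3) / 2 = e + 1 := by omega
  have h4 : (2 * e + 3 - 1) / 2 = e + 1 := by omega
  rw [h1, h2, h3, h4]
  calc 2 * ((d + 1) * (d + 1) * (e + 1) * (e + 1)) = 2 * ((d + 1) ^ 2 * (e + 1) ^ 2) := by ring
    _ ≤ (Cells K M).card := h
    _ = (G172.SB K M).card := rfl

/-- **Zarankiewicz** -/
theorem s0049 : ∀ (m n : ℕ)
      (D : Drawing (SimpleGraph.fromRel (fun i j : Fin (m + n) => i.val < m ∧ m ≤ j.val))),
      IsOrdinary D → (m / 2) * ((m - 1) / 2) * (n / 2) * ((n - 1) / 2) ≤ crossingCount D :=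
  G172.s0049_of bipF2_odd

end Crest.Agent.R36.BIP230
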