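import Mathlib
import Crest.Agent.R36.Glue172
import Crest.Agent.R36.Gen259

-- ▼ part R36/Bip127
section

/-! R36 (helper127): **the algebra of `K_{m,n}`** (m, n odd), from the tournament form (T).

`bip_core`: let `m = 2d+3`, `n = 2e+3`, `t : Fin m → K`, `tau : Fin n → K` injective, `K` a field of
characteristic 2, and suppose the tournament form on `tau` is nondegenerate (T).  Then every state
`xB K M` has at least `2 (d+1)^2 (e+1)^2` ordered crossing pairs. -/

set_option autoImplicit false
open Finset Polynomial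

namespace Crest.Agent.R36.Bip127

/-! ### Polynomial functions of bounded degree, Lagrange sums -/

section IsP

variable {K : Type*} [Field K]

/-- Lagrange weights (characteristic 2). -/
noncomputable def wt {ι : Type*} [Fintype ι] [DecidableEq ι] (t : ι → K) (i : ι) : K :=
  (∏ k ∈ univ.erase i, (t i + t k))⁻¹

/-- `f` is a polynomial function of degree `≤ N`. -/
def IsP (N : ℕ) (f : K → K) : Prop := ∃ p : K[X], p.natDegree ≤ N ∧ ∀ x, f x = p.eval x

theorem IsP.mono {M N : ℕ} {f : K → K} (h : IsP M f) (hMN : M ≤ N) : IsP N f := by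
  obtain ⟨p, h1, h2⟩ := h
  exact ⟨p, h1.trans hMN, h2⟩

theorem IsP.const (N : ℕ) (c : K) : IsP N (fun _ => c) :=
  ⟨C c, by simp, fun x => by simp⟩

theorem IsP.mul {M N : ℕ} {f g : K → K} (hf : IsP M f) (hg : IsP N g) :
    IsP (M + N) (fun x => f x * g x) := by
  obtain ⟨p, h1, h2⟩ := hf
  obtain ⟨q, h3, h4⟩ := hg
  exact ⟨p * q, natDegree_mul_le.trans (add_le_add h1 h3), fun x => by
    show f x * g x = _
    rw [eval_mul, h2, h4]⟩

theorem IsP.const_mul {N : ℕ} {f : K → K} (c : K) (hf : IsP N f) : IsP N (fun x => c * f x) := by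
  have := (IsP.const 0 c).mul hf
  rwa [zero_add] at this

theorem IsP.mul_const {N : ℕ} {f : K → K} (hf : IsP N f) (c : K) : IsP N (fun x => f x * c) := by
  have := hf.mul (IsP.const 0 c)
  rwa [add_zero] at this

theorem IsP.add {N : ℕ} {f g : K → K} (hf : IsP N f) (hg : IsP N g) :
    IsP N (fun x => f x + g x) := by
  obtain ⟨p, h1, h2⟩ := hf
  obtain ⟨q, h3, h4⟩ := hg
  exact ⟨p + q, (natDegree_add_le _ _).trans (max_le h1 h3), fun x => by
    show f x + g x = _
    rw [eval_add, h2, h4]⟩

theorem IsP.sum {N : ℕ} {α : Type*} (s : Finset α) (f : α → K → K) (hf : ∀ a ∈ s, IsP N (f a)) :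
    IsP N (fun x => ∑ a ∈ s, f a x) := by
  classical
  induction s using Finset.induction_on with
  | empty => simpa using IsP.const N (0 : K)
  | insert a s ha ih =>
    simp only [Finset.sum_insert ha]
    exact (hf a (mem_insert_self a s)).add (ih fun b hb => hf b (mem_insert_of_mem hb))

theorem IsP.pow {M N : ℕ} (h : M ≤ N) : IsP N (fun x : K => x ^ M) :=
  ⟨X ^ M, by simpa using h, fun x => by simp⟩

theorem IsP.add_const (c : K) : IsP 1 (fun x : K => x + c) :=
  ⟨X + C c, by simp, fun x => by simp⟩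

theorem IsP.prod {α : Type*} (s : Finset α) (t : α → K) :
    IsP s.card (fun x => ∏ a ∈ s, (x + t a)) := by
  classical
  induction s using Finset.induction_on with
  | empty => simpa using IsP.const 0 (1 : K)
  | insert a s ha ih =>
    simp only [Finset.prod_insert ha, Finset.card_insert_of_notMem ha]
    rw [add_comm]
    exact (IsP.add_const (t a)).mul ih

variable [CharP K 2]

theorem wt_ne_zero {ι : Type*} [Fintype ι] [DecidableEq ι] {t : ι → K}
    (ht : Function.Injective t) (i : ι) : wt t i ≠ 0 := by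
  unfold wt
  refine inv_ne_zero (Finset.prod_ne_zero_iff.2 fun k hk h => ?_)
  have h1 : t i = t k := by
    rw [← CharTwo.sub_eq_add, sub_eq_zero] at h
    exact h
  exact (Finset.mem_erase.1 hk).1 (ht h1).symm

theorem IsP.lagrange {ι : Type*} [Fintype ι] [DecidableEq ι] {t : ι → K}
    (ht : Function.Injective t) {N : ℕ} (hN : N + 2 ≤ Fintype.card ι) {f : K → K} (hf : IsP N f) :
    ∑ i, wt t i * f (t i) = 0 := by
  obtain ⟨p, h1, h2⟩ := hf
  have h3 := Lagrange.coeff_eq_sum (s := (univ : Finset ι)) (v := t) ht.injOn (P := p) (by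
    rw [Finset.card_univ]
    refine lt_of_le_of_lt degree_le_natDegree ?_
    exact_mod_cast (by omega : p.natDegree < Fintype.card ι))
  rw [coeff_eq_zero_of_natDegree_lt (by rw [Finset.card_univ]; omega)] at h3
  rw [h3]
  refine Finset.sum_congr rfl fun i _ => ?_
  rw [wt, h2, div_eq_mul_inv, mul_comm]
  congr 2
  refine Finset.prod_congr rfl fun k _ => ?_
  rw [CharTwo.sub_eq_add]

end IsP

/-! ### (F1) in abstract form -/

theorem F1 {K : Type*} [Field K] {m n : ℕ} (f1 f2 : Fin m → Fin m → Fin n → K)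
    (f3 f4 : Fin m → Fin n → Fin n → K) (G : Fin m → Fin m → Fin n → Fin n → K)
    (hi : ∀ k j l, ∑ i, G i k j l = 0) (hk : ∀ i j l, ∑ k, G i k j l = 0)
    (hj : ∀ i k l, ∑ j, G i k j l = 0) (hl : ∀ i k j, ∑ l, G i k j l = 0) :
    ∑ i, ∑ k, ∑ j, ∑ l, (f1 i k l + f2 i k j + f3 i j l + f4 k j l) * G i k j l = 0 := by
  have h1 : ∑ i, ∑ k, ∑ j, ∑ l, f1 i k l * G i k j l = 0 := by
    refine Finset.sum_eq_zero fun i _ => Finset.sum_eq_zero fun k _ => ?_
    rw [Finset.sum_comm]
    refine Finset.sum_eq_zero fun l _ => ?_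
    rw [← Finset.mul_sum, hj, mul_zero]
  have h2 : ∑ i, ∑ k, ∑ j, ∑ l, f2 i k j * G i k j l = 0 := by
    refine Finset.sum_eq_zero fun i _ => Finset.sum_eq_zero fun k _ =>
      Finset.sum_eq_zero fun j _ => ?_
    rw [← Finset.mul_sum, hl, mul_zero]
  have h3 : ∑ i, ∑ k, ∑ j, ∑ l, f3 i j l * G i k j l = 0 := by
    refine Finset.sum_eq_zero fun i _ => ?_
    rw [Finset.sum_comm]
    refine Finset.sum_eq_zero fun j _ => ?_
    rw [Finset.sum_comm]
    refine Finset.sum_eq_zero fun l _ => ?_
    rw [← Finset.mul_sum, hk, mul_zero]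
  have h4 : ∑ i, ∑ k, ∑ j, ∑ l, f4 k j l * G i k j l = 0 := by
    rw [Finset.sum_comm]
    refine Finset.sum_eq_zero fun k _ => ?_
    rw [Finset.sum_comm]
    refine Finset.sum_eq_zero fun j _ => ?_
    rw [Finset.sum_comm]
    refine Finset.sum_eq_zero fun l _ => ?_
    rw [← Finset.mul_sum, hi, mul_zero]
  simp only [add_mul, Finset.sum_add_distrib]
  rw [h1, h2, h3, h4]
  simp

/-! ### The state `xB` of #12269 -/

/-- `1` if `p`, else `0`. -/
def iv (p : Prop) [Decidable p] : ZMod 2 := if p then 1 else 0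

/-- The general state of the van Kampen coset of `K_{m,n}`, modulo 2 (ordered pair of edges `ij`,
`kl`). -/
def xB {m n : ℕ} (Kf : Fin n → Fin m → Fin m → ZMod 2) (M : Fin m → Fin n → Fin n → ZMod 2)
    (i : Fin m) (j : Fin n) (k : Fin m) (l : Fin n) : ZMod 2 :=
  1 + iv (i < k) + iv (j < l) + Kf l k i + Kf j i k + M i j l + M k l j

theorem xB_tour {m n : ℕ} (Kf : Fin n → Fin m → Fin m → ZMod 2)
    (M : Fin m → Fin n → Fin n → ZMod 2) (i : Fin m) (j l : Fin n) (h : j ≠ l) :
    xB Kf M i j i l + xB Kf M i l i j = 1 := by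
  have h0 : iv (j < l) + iv (l < j) = 1 := by
    rcases lt_or_gt_of_ne h with h | h
    · simp [iv, h, not_lt.2 h.le]
    · simp [iv, h, not_lt.2 h.le]
  have h1 : ∀ a b c d f g h : ZMod 2, f + g = 1 →
      (1 + a + f + b + c + d + h) + (1 + a + g + c + b + h + d) = 1 := by
    decide
  exact h1 _ _ _ _ _ _ _ h0

section Core

variable {K : Type*} [Field K] [CharP K 2]

/-- `ZMod 2 → K`. -/
noncomputable def phi (K : Type*) [Field K] [CharP K 2] : ZMod 2 →+* K :=
  ZMod.castHom (dvd_refl 2) K

theorem phi_mul (x : ZMod 2) (y : K) : phi K x * y = if x = 1 then y else 0 := by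
  have hx : ∀ x : ZMod 2, x = 0 ∨ x = 1 := by decide
  rcases hx x with rfl | rfl
  · simp
  · simp

theorem F1' {m n : ℕ} (Kf : Fin n → Fin m → Fin m → ZMod 2)
    (M : Fin m → Fin n → Fin n → ZMod 2) (G : Fin m → Fin m → Fin n → Fin n → K)
    (hi : ∀ k j l, ∑ i, G i k j l = 0) (hk : ∀ i j l, ∑ k, G i k j l = 0)
    (hj : ∀ i k l, ∑ j, G i k j l = 0) (hl : ∀ i k j, ∑ l, G i k j l = 0) :
    ∑ i, ∑ k, ∑ j, ∑ l, phi K (xB Kf M i j k l) * G i k j l = 0 := by
  rw [← F1 (fun i k l => phi K (1 + iv (i < k) + Kf l k i)) (fun i k j => phi K (Kf j i k))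
    (fun i j l => phi K (iv (j < l) + M i j l)) (fun k j l => phi K (M k l j)) G hi hk hj hl]
  refine Finset.sum_congr rfl fun i _ => Finset.sum_congr rfl fun k _ =>
    Finset.sum_congr rfl fun j _ => Finset.sum_congr rfl fun l _ => ?_
  rw [← map_add, ← map_add, ← map_add]
  congr 2
  unfold xB
  ring

/-- Evaluation of a coefficient array in two variables. -/
def ev {e : ℕ} (p : Fin (e + 1) → Fin (e + 1) → K) (z w : K) : K :=
  ∑ a, ∑ b, p a b * z ^ (a : ℕ) * w ^ (b : ℕ)

omit [CharP K 2] in
theorem isP_ev_left {e : ℕ} (p : Fin (e + 1) → Fin (e + 1) → K) (w : K) :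
    IsP e (fun z => ev p z w) :=
  IsP.sum _ _ fun a _ => IsP.sum _ _ fun b _ =>
    ((IsP.pow (by omega : (a : ℕ) ≤ e)).const_mul (p a b)).mul_const _

omit [CharP K 2] in
theorem isP_ev_right {e : ℕ} (p : Fin (e + 1) → Fin (e + 1) → K) (z : K) :
    IsP e (fun w => ev p z w) :=
  IsP.sum _ _ fun a _ => IsP.sum _ _ fun b _ =>
    (IsP.pow (by omega : (b : ℕ) ≤ e)).const_mul (p a b * z ^ (a : ℕ))

/-- A bivariate polynomial with fewer than `s` coefficients in each variable. -/
def Box (s : ℕ) (P : K[X][X]) : Prop := ∀ n i, s ≤ n ∨ s ≤ i → (P.coeff n).coeff i = 0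

omit [CharP K 2] in
theorem Box.left {s d : ℕ} (hs : s ≤ d + 1) {P : K[X][X]} (hP : Box s P) (y : K) :
    IsP d (fun x => P.evalEval x y) := by
  refine ⟨P.eval (C y), ?_, fun x => rfl⟩
  rw [natDegree_le_iff_coeff_eq_zero]
  intro i hi
  rw [eval_eq_sum_range, finsetSum_coeff]
  refine Finset.sum_eq_zero fun n _ => ?_
  rw [← C_pow, coeff_mul_C, hP n i (Or.inr (by omega)), zero_mul]

omit [CharP K 2] in
theorem Box.right {s d : ℕ} (hs : s ≤ d + 1) {P : K[X][X]} (hP : Box s P) (x : K) :
    IsP d (fun y => P.evalEval x y) := by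
  refine ⟨P.map (evalRingHom x), ?_, fun y => ?_⟩
  · rw [natDegree_le_iff_coeff_eq_zero]
    intro n hn
    rw [coeff_map]
    have : P.coeff n = 0 := by
      ext i
      rw [hP n i (Or.inl (by omega)), coeff_zero]
    rw [this, map_zero]
  · rw [← eval₂_evalRingHom, eval_map]

omit [CharP K 2] in
theorem Box.diag {s d : ℕ} (hs : s ≤ d + 1) {P : K[X][X]} (hP : Box s P) :
    (P.eval X).natDegree ≤ 2 * d := by
  rw [natDegree_le_iff_coeff_eq_zero]
  intro i hi
  rw [eval_eq_sum_range, finsetSum_coeff]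
  refine Finset.sum_eq_zero fun n _ => ?_
  rw [coeff_mul_X_pow']
  split_ifs with h
  · by_cases hn : s ≤ n
    · exact hP n _ (Or.inl hn)
    · exact hP n _ (Or.inr (by omega))
  · rfl

omit [CharP K 2] in
theorem Box.divide {s : ℕ} {P : K[X][X]} (hP : Box (s + 1) P) (h0 : P.eval X = 0) :
    ∃ Q : K[X][X], Box s Q ∧ P = (X - C X) * Q := by
  obtain ⟨Q, hQ⟩ := dvd_iff_isRoot.2 h0
  refine ⟨Q, ?_, hQ⟩
  have key : ∀ n i, s ≤ i → (Q.coeff n).coeff i = 0 := by
    intro n
    induction n with
    | zero =>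
      intro i hi
      have h1 := hP 0 (i + 1) (Or.inr (by omega))
      rw [hQ, sub_mul, coeff_sub, coeff_X_mul_zero, coeff_C_mul, zero_sub, coeff_neg,
        coeff_X_mul, neg_eq_zero] at h1
      exact h1
    | succ n ih =>
      intro i hi
      have h1 := hP (n + 1) (i + 1) (Or.inr (by omega))
      rw [hQ, sub_mul, coeff_sub, coeff_X_mul, coeff_C_mul, coeff_sub, coeff_X_mul,
        ih (i + 1) (by omega), zero_sub, neg_eq_zero] at h1
      exact h1
  have key2 : ∀ n, s ≤ n → Q.coeff n = 0 := by
    by_contra hcon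
    push Not at hcon
    obtain ⟨n, hn, hne⟩ := hcon
    -- the leading coefficient
    have hQ0 : Q ≠ 0 := by rintro rfl; simp at hne
    have h2 : n ≤ Q.natDegree := le_natDegree_of_ne_zero hne
    have h3 := congrArg (fun R => coeff R (Q.natDegree + 1)) hQ
    simp only [sub_mul, coeff_sub, coeff_X_mul, coeff_C_mul] at h3
    rw [coeff_eq_zero_of_natDegree_lt (Nat.lt_succ_self _), mul_zero, sub_zero] at h3
    have h4 : P.coeff (Q.natDegree + 1) = 0 := by
      ext i
      rw [hP _ i (Or.inl (by omega)), coeff_zero]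
    rw [h4] at h3
    exact hQ0 (leadingCoeff_eq_zero.1 h3.symm)
  intro n i h
  rcases h with h | h
  · rw [key2 n h, coeff_zero]
  · exact key n i h

omit [CharP K 2] in
theorem eval_eval_X (P : K[X][X]) (x : K) : (P.eval X).eval x = P.evalEval x x := by
  have h : ∀ y : K[X], (P.eval y).eval x = P.eval₂ (evalRingHom x) (y.eval x) := fun y => by
    have := hom_eval₂ P (RingHom.id _) (evalRingHom x) y
    simpa using this
  unfold evalEval
  rw [h, h, eval_X, eval_C]

/-- Evaluation of an array of bivariate polynomials. -/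
noncomputable def evP {e : ℕ} (P : Fin (e + 1) → Fin (e + 1) → K[X][X]) (x y z w : K) : K :=
  ev (fun a b => (P a b).evalEval x y) z w

omit [CharP K 2] in
theorem isP_evP_x {d e s : ℕ} (hs : s ≤ d + 1) {P : Fin (e + 1) → Fin (e + 1) → K[X][X]}
    (hP : ∀ a b, Box s (P a b)) (y z w : K) : IsP d (fun x => evP P x y z w) := by
  show IsP d (fun x => ∑ a : Fin (e + 1), ∑ b : Fin (e + 1),
    (P a b).evalEval x y * z ^ (a : ℕ) * w ^ (b : ℕ))
  exact IsP.sum _ _ fun a _ => IsP.sum _ _ fun b _ =>
    (((hP a b).left hs y).mul_const (z ^ (a : ℕ))).mul_const (w ^ (b : ℕ))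

omit [CharP K 2] in
theorem isP_evP_y {d e s : ℕ} (hs : s ≤ d + 1) {P : Fin (e + 1) → Fin (e + 1) → K[X][X]}
    (hP : ∀ a b, Box s (P a b)) (x z w : K) : IsP d (fun y => evP P x y z w) := by
  show IsP d (fun y => ∑ a : Fin (e + 1), ∑ b : Fin (e + 1),
    (P a b).evalEval x y * z ^ (a : ℕ) * w ^ (b : ℕ))
  exact IsP.sum _ _ fun a _ => IsP.sum _ _ fun b _ =>
    (((hP a b).right hs x).mul_const (z ^ (a : ℕ))).mul_const (w ^ (b : ℕ))

omit [CharP K 2] in
theorem isP_evP_z {e : ℕ} (P : Fin (e + 1) → Fin (e + 1) → K[X][X]) (x y w : K) :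
    IsP e (fun z => evP P x y z w) := isP_ev_left _ w

omit [CharP K 2] in
theorem isP_evP_w {e : ℕ} (P : Fin (e + 1) → Fin (e + 1) → K[X][X]) (x y z : K) :
    IsP e (fun w => evP P x y z w) := isP_ev_right _ z

/-- **(F1)**, the universal identity: the weighted sum over all ordered pairs of edges (adjacent
pairs included) vanishes. -/
theorem total_zero {m n d e : ℕ} (hm : m = 2 * d + 3) (hn : n = 2 * e + 3) {t : Fin m → K}
    (ht : Function.Injective t) {tau : Fin n → K} (htau : Function.Injective tau)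
    (Kf : Fin n → Fin m → Fin m → ZMod 2) (M : Fin m → Fin n → Fin n → ZMod 2)
    (U : K → K → K → K → K) (hx : ∀ y z w, IsP (2 * d + 1) fun x => U x y z w)
    (hy : ∀ x z w, IsP (2 * d + 1) fun y => U x y z w) (hz : ∀ x y w, IsP (2 * e) fun z => U x y z w)
    (hw : ∀ x y z, IsP (2 * e) fun w => U x y z w) :
    ∑ i, ∑ k, ∑ j, ∑ l, phi K (xB Kf M i j k l) *
      (wt t i * wt t k * (wt tau j * wt tau l * (tau j + tau l)) *
        U (t i) (t k) (tau j) (tau l)) = 0 := by
  refine F1' Kf M (fun i k j l => wt t i * wt t k * (wt tau j * wt tau l * (tau j + tau l)) *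
        U (t i) (t k) (tau j) (tau l)) ?_ ?_ ?_ ?_
  · intro k j l
    have h := IsP.lagrange ht (by rw [Fintype.card_fin]; omega) (hx (t k) (tau j) (tau l))
    rw [← mul_zero (wt t k * (wt tau j * wt tau l * (tau j + tau l))), ← h, Finset.mul_sum]
    refine Finset.sum_congr rfl fun i _ => ?_
    ring
  · intro i j l
    have h := IsP.lagrange ht (by rw [Fintype.card_fin]; omega) (hy (t i) (tau j) (tau l))
    rw [← mul_zero (wt t i * (wt tau j * wt tau l * (tau j + tau l))), ← h, Finset.mul_sum]
    refine Finset.sum_congr rfl fun k _ => ?_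
    ring
  · intro i k l
    have h := IsP.lagrange htau (by rw [Fintype.card_fin]; omega)
      ((IsP.add_const (tau l)).mul (hz (t i) (t k) (tau l)))
    rw [← mul_zero (wt t i * wt t k * wt tau l), ← h, Finset.mul_sum]
    refine Finset.sum_congr rfl fun j _ => ?_
    ring
  · intro i k j
    have h := IsP.lagrange htau (by rw [Fintype.card_fin]; omega)
      ((IsP.add_const (tau j)).mul (hw (t i) (t k) (tau j)))
    rw [← mul_zero (wt t i * wt t k * wt tau j), ← h, Finset.mul_sum]
    refine Finset.sum_congr rfl fun l _ => ?_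
    ring

/-- The tournament statement (T) for the points `tau`. -/
def TProp {n : ℕ} (e : ℕ) (tau : Fin n → K) : Prop :=
  ∀ T : Fin n → Fin n → ZMod 2, (∀ j l, j ≠ l → T j l + T l j = 1) →
    ∀ p : Fin (e + 1) → Fin (e + 1) → K,
      (∀ k : Fin (e + 1) → Fin (e + 1) → K, ∑ j, ∑ l, (if T j l = 1 ∧ j ≠ l then
        wt tau j * wt tau l * (tau j + tau l) * ev p (tau j) (tau l) * ev k (tau j) (tau l)
        else 0) = 0) → p = 0

/-- **(N)**: no nonzero polynomial of the box vanishes at all ordered crossing pairs. -/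
theorem injective_aux {m n d e : ℕ} (hm : m = 2 * d + 3) (hn : n = 2 * e + 3) {t : Fin m → K}
    (ht : Function.Injective t) {tau : Fin n → K} (htau : Function.Injective tau)
    (hT : TProp e tau) (Kf : Fin n → Fin m → Fin m → ZMod 2) (M : Fin m → Fin n → Fin n → ZMod 2) :
    ∀ s, s ≤ d + 1 → ∀ P : Fin (e + 1) → Fin (e + 1) → K[X][X], (∀ a b, Box s (P a b)) →
      (∀ i j k l, i ≠ k → j ≠ l → xB Kf M i j k l = 1 →
        evP P (t i) (t k) (tau j) (tau l) = 0) → P = 0 := by
  intro s
  induction s with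
  | zero =>
    intro _ P hP _
    ext a b n i
    exact hP a b n i (Or.inl (Nat.zero_le _))
  | succ s ih =>
    intro hs P hP hvan
    -- vanishing on the diagonal
    have hdiag : ∀ (i0 : Fin m) a b, (P a b).evalEval (t i0) (t i0) = 0 := by
      intro i0
      have hcard : (univ.erase i0).card = (d + 1) + (d + 1) := by
        rw [Finset.card_erase_of_mem (mem_univ _), Finset.card_univ, Fintype.card_fin]; omega
      obtain ⟨A, hA, hAc⟩ := Finset.exists_subset_card_eq (s := univ.erase i0) (n := d + 1)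
        (by omega)
      have hBc : ((univ.erase i0) \ A).card = d + 1 := by
        rw [Finset.card_sdiff_of_subset hA]; omega
      set B := (univ.erase i0) \ A with hB
      have hA0 : IsP (d + 1) (fun x : K => ∏ q ∈ A, (x + t q)) := by
        have := IsP.prod A t
        rwa [hAc] at this
      have hB0 : IsP (d + 1) (fun x : K => ∏ q ∈ B, (x + t q)) := by
        have := IsP.prod B t
        rwa [hBc] at this
      have hp := hT (fun j l => xB Kf M i0 j i0 l) (xB_tour Kf M i0)
        (fun a b => (P a b).evalEval (t i0) (t i0)) (by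
          intro κ
          have h := total_zero hm hn ht htau Kf M
            (fun x y z w => evP P x y z w * (∏ q ∈ A, (x + t q)) * (∏ q ∈ B, (y + t q)) * ev κ z w)
            (fun y z w => by
              refine IsP.mono ?_ (by omega : d + (d + 1) ≤ 2 * d + 1)
              exact ((((isP_evP_x hs hP y z w).mul hA0).mul_const _).mul_const _))
            (fun x z w => by
              refine IsP.mono ?_ (by omega : d + (d + 1) ≤ 2 * d + 1)
              exact ((((isP_evP_y hs hP x z w).mul_const _).mul hB0).mul_const _))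
            (fun x y w => by
              refine IsP.mono ?_ (by omega : e + e ≤ 2 * e)
              exact ((((isP_evP_z P x y w).mul_const _).mul_const _).mul (isP_ev_left κ w)))
            (fun x y z => by
              refine IsP.mono ?_ (by omega : e + e ≤ 2 * e)
              exact ((((isP_evP_w P x y z).mul_const _).mul_const _).mul (isP_ev_right κ z)))
          -- only i = k = i0 survives
          rw [Finset.sum_eq_single i0, Finset.sum_eq_single i0] at h
          · have hc : wt t i0 * wt t i0 * ((∏ q ∈ A, (t i0 + t q)) * (∏ q ∈ B, (t i0 + t q))) ≠ 0 := by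
              have h0 : ∀ q ∈ univ.erase i0, t i0 + t q ≠ 0 := by
                intro q hq h0
                rw [← CharTwo.sub_eq_add, sub_eq_zero] at h0
                exact (Finset.mem_erase.1 hq).1 (ht h0).symm
              refine mul_ne_zero (mul_ne_zero (wt_ne_zero ht _) (wt_ne_zero ht _)) (mul_ne_zero ?_ ?_)
              · exact Finset.prod_ne_zero_iff.2 fun q hq => h0 q (hA hq)
              · exact Finset.prod_ne_zero_iff.2 fun q hq => h0 q ((Finset.mem_sdiff.1 hq).1)
            refine mul_left_cancel₀ hc (Eq.trans ?_ (h.trans (mul_zero _).symm))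
            rw [Finset.mul_sum]
            refine Finset.sum_congr rfl fun j _ => ?_
            rw [Finset.mul_sum]
            refine Finset.sum_congr rfl fun l _ => ?_
            rw [phi_mul]
            by_cases hx : xB Kf M i0 j i0 l = 1
            · by_cases hjl : j = l
              · subst hjl
                rw [if_neg (by simp), if_pos hx, CharTwo.add_self_eq_zero]
                ring
              · rw [if_pos ⟨hx, hjl⟩, if_pos hx]
                unfold evP
                ring
            · rw [if_neg (fun h => hx h.1), if_neg hx, mul_zero]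
          · intro k _ hk
            refine Finset.sum_eq_zero fun j _ => Finset.sum_eq_zero fun l _ => ?_
            by_cases hjl : j = l
            · subst hjl
              rw [CharTwo.add_self_eq_zero]
              ring
            · rw [phi_mul]
              split_ifs with hx
              · rw [hvan i0 j k l (Ne.symm hk) hjl hx]
                ring
              · rfl
          · intro h; exact absurd (mem_univ _) h
          · intro i _ hi
            refine Finset.sum_eq_zero fun k _ => Finset.sum_eq_zero fun j _ =>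
              Finset.sum_eq_zero fun l _ => ?_
            by_cases hjl : j = l
            · subst hjl
              rw [CharTwo.add_self_eq_zero]
              ring
            · by_cases hik : i = k
              · subst hik
                by_cases hiA : i ∈ A
                · rw [Finset.prod_eq_zero hiA (CharTwo.add_self_eq_zero (t i))]
                  ring
                · have hiB : i ∈ B := Finset.mem_sdiff.2 ⟨Finset.mem_erase.2 ⟨hi, mem_univ _⟩, hiA⟩
                  rw [Finset.prod_eq_zero hiB (CharTwo.add_self_eq_zero (t i))]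
                  ring
              · rw [phi_mul]
                split_ifs with hx
                · rw [hvan i j k l hik hjl hx]
                  ring
                · rfl
          · intro h; exact absurd (mem_univ _) h)
      intro a b
      exact congrFun (congrFun hp a) b
    have hdiag2 : ∀ a b, (P a b).eval X = 0 := by
      intro a b
      refine eq_zero_of_natDegree_lt_card_of_eval_eq_zero (ι := Fin m) _ ht ?_ ?_
      · intro i
        have h1 := hdiag i a b
        rw [← h1]
        exact eval_eval_X _ _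
      · rw [Fintype.card_fin]
        have := (hP a b).diag hs
        omega
    choose Q hQbox hPQ using fun a b => (hP a b).divide (hdiag2 a b)
    have hPQ2 : ∀ x y z w, evP P x y z w = (y - x) * evP Q x y z w := by
      intro x y z w
      unfold evP ev
      rw [Finset.mul_sum]
      refine Finset.sum_congr rfl fun a _ => ?_
      rw [Finset.mul_sum]
      refine Finset.sum_congr rfl fun b _ => ?_
      show (P a b).evalEval x y * z ^ (a : ℕ) * w ^ (b : ℕ) =
        (y - x) * ((Q a b).evalEval x y * z ^ (a : ℕ) * w ^ (b : ℕ))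
      rw [hPQ a b, evalEval_mul, evalEval_sub, evalEval_X, evalEval_C, eval_X]
      ring
    have hQ0 := ih (by omega) Q hQbox (fun i j k l hik hjl hx => by
      have h1 := hvan i j k l hik hjl hx
      rw [hPQ2] at h1
      refine (mul_eq_zero.1 h1).resolve_left fun h2 => ?_
      exact hik (ht (sub_eq_zero.1 h2)).symm)
    ext1 a
    ext1 b
    rw [hPQ a b, hQ0]
    simp

/-! ### The count -/

/-- The space of polynomials (coefficient arrays). -/
abbrev VV (K : Type*) (d e : ℕ) : Type _ :=
  Fin (d + 1) → Fin (d + 1) → Fin (e + 1) → Fin (e + 1) → K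

/-- A coefficient array as an array of bivariate polynomials. -/
noncomputable def toP {d e : ℕ} (c : VV K d e) (a b : Fin (e + 1)) : K[X][X] :=
  ∑ i : Fin (d + 1), ∑ k : Fin (d + 1), monomial (k : ℕ) (monomial (i : ℕ) (c i k a b))

/-- Evaluation as a linear map. -/
noncomputable def evL {d e : ℕ} (x y z w : K) : VV K d e →ₗ[K] K where
  toFun c := ∑ a, ∑ b, (∑ i, ∑ k, c i k a b * x ^ (i : ℕ) * y ^ (k : ℕ)) * z ^ (a : ℕ) * w ^ (b : ℕ)
  map_add' c c' := by
    simp only [Pi.add_apply, add_mul, Finset.sum_add_distrib]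
  map_smul' r c := by
    simp only [Pi.smul_apply, smul_eq_mul, RingHom.id_apply, Finset.mul_sum, Finset.sum_mul]
    refine Finset.sum_congr rfl fun a _ => Finset.sum_congr rfl fun b _ =>
      Finset.sum_congr rfl fun i _ => Finset.sum_congr rfl fun k _ => ?_
    ring

omit [CharP K 2] in
theorem toP_coeff {d e : ℕ} (c : VV K d e) (a b : Fin (e + 1)) (n i : ℕ) :
    ((toP c a b).coeff n).coeff i =
      if h : n < d + 1 ∧ i < d + 1 then c ⟨i, h.2⟩ ⟨n, h.1⟩ a b else 0 := by
  unfold toP
  simp only [finsetSum_coeff, coeff_monomial]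
  split_ifs with h
  · rw [Finset.sum_eq_single ⟨i, h.2⟩, Finset.sum_eq_single ⟨n, h.1⟩]
    · simp
    · intro k _ hk
      rw [if_neg (fun h' => hk (Fin.ext h')), coeff_zero]
    · intro h'; exact absurd (mem_univ _) h'
    · intro i' _ hi'
      refine Finset.sum_eq_zero fun k _ => ?_
      split_ifs
      · rw [coeff_monomial, if_neg (fun h' => hi' (Fin.ext h'))]
      · rw [coeff_zero]
    · intro h'; exact absurd (mem_univ _) h'
  · refine Finset.sum_eq_zero fun i' _ => Finset.sum_eq_zero fun k _ => ?_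
    split_ifs with h1
    · rw [coeff_monomial, if_neg]
      intro h2
      exact h ⟨h1 ▸ k.2, h2 ▸ i'.2⟩
    · rw [coeff_zero]

omit [CharP K 2] in
theorem toP_box {d e : ℕ} (c : VV K d e) (a b : Fin (e + 1)) : Box (d + 1) (toP c a b) := by
  intro n i h
  rw [toP_coeff, dif_neg (by omega)]

omit [CharP K 2] in
theorem toP_inj {d e : ℕ} (c : VV K d e) (h : toP c = 0) : c = 0 := by
  ext i k a b
  have h1 := toP_coeff c a b (k : ℕ) (i : ℕ)
  rw [h, dif_pos ⟨k.2, i.2⟩] at h1
  simpa using h1.symm

omit [CharP K 2] in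
theorem evP_toP {d e : ℕ} (c : VV K d e) (x y z w : K) : evP (toP c) x y z w = evL x y z w c := by
  show ∑ a : Fin (e + 1), ∑ b : Fin (e + 1),
    (toP c a b).evalEval x y * z ^ (a : ℕ) * w ^ (b : ℕ) =
    ∑ a : Fin (e + 1), ∑ b : Fin (e + 1), (∑ i : Fin (d + 1), ∑ k : Fin (d + 1),
      c i k a b * x ^ (i : ℕ) * y ^ (k : ℕ)) * z ^ (a : ℕ) * w ^ (b : ℕ)
  refine Finset.sum_congr rfl fun a _ => Finset.sum_congr rfl fun b _ => ?_
  congr 2
  unfold toP
  rw [evalEval_finsetSum]
  refine Finset.sum_congr rfl fun i _ => ?_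
  rw [evalEval_finsetSum]
  refine Finset.sum_congr rfl fun k _ => ?_
  unfold evalEval
  rw [eval_monomial, eval_mul, eval_monomial, eval_pow, eval_C]



end Core

end Crest.Agent.R36.Bip127
end

-- ▼ part R36/TL100
section

/-! R36 (helper100): the tournament lemma (T)/(TL) for an odd number `2e+3` of points.

`K` is a field of characteristic two, `t : ι → K` are `2e+3` points such that there are derivations
`D i` of `K` with `D i (t j) = δ_ij` (this is the genericity), `T` is a tournament on `ι`. If a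
polynomial `p(z,w)` of degree `≤ e` in each variable satisfies
`∑_{j → l} om_j om_l (t_j + t_l) p(t_j,t_l) k(t_j,t_l) = 0` for all `k` of degree `≤ e` in each
variable, then `p = 0`. -/

set_option autoImplicit false
open Polynomial Finset

namespace Crest.Agent.R36.TL100

section basics

variable {K : Type*} [Field K] [CharP K 2] {ι : Type*} [Fintype ι] [DecidableEq ι]

/-- The Lagrange weights. -/
noncomputable def om (t : ι → K) (j : ι) : K := (∏ q ∈ univ.erase j, (t j + t q))⁻¹

omit [CharP K 2] in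
theorem injective_of_der (t : ι → K) (D : ι → Derivation ℤ K K)
    (hD : ∀ i j, D i (t j) = if i = j then 1 else 0) : Function.Injective t := by
  intro i j h
  by_contra hij
  have h1 := hD i j
  rw [← h, hD i i, if_pos rfl, if_neg hij] at h1
  exact one_ne_zero h1

theorem lag_aux (t : ι → K) (j : ι) :
    ∏ q ∈ univ.erase j, (t j - t q) = ∏ q ∈ univ.erase j, (t j + t q) :=
  prod_congr rfl fun q _ => CharTwo.sub_eq_add _ _

theorem lag (t : ι → K) (ht : Function.Injective t) (f : K[X])
    (hf : f.natDegree + 1 < Fintype.card ι) : ∑ j, om t j * f.eval (t j) = 0 := by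
  have hvs : Set.InjOn t (univ : Finset ι) := ht.injOn
  have h1 : f.degree < #(univ : Finset ι) := by
    rw [card_univ]
    refine lt_of_le_of_lt f.degree_le_natDegree ?_
    exact_mod_cast (by omega : f.natDegree < Fintype.card ι)
  have h2 := Lagrange.coeff_eq_sum hvs h1
  rw [coeff_eq_zero_of_natDegree_lt (by rw [card_univ]; omega)] at h2
  rw [h2]
  refine sum_congr rfl fun j _ => ?_
  rw [om, lag_aux, div_eq_mul_inv, mul_comm]

theorem der_sq (D : Derivation ℤ K K) (x : K) : D (x ^ 2) = 0 := by
  rw [D.leibniz_pow]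
  simp [CharTwo.two_eq_zero]

theorem der_mul_sq (D : Derivation ℤ K K) (x y : K) : D (y * x ^ 2) = D y * x ^ 2 := by
  rw [D.leibniz, der_sq]
  simp [mul_comm]

theorem sq_indep (t : ι → K) (D : ι → Derivation ℤ K K)
    (hD : ∀ i j, D i (t j) = if i = j then 1 else 0) (y : ι → K)
    (h : ∑ j, t j * y j ^ 2 = 0) (i : ι) : y i = 0 := by
  have h1 : D i (∑ j, t j * y j ^ 2) = y i ^ 2 := by
    rw [map_sum]
    simp only [der_mul_sq, hD]
    simp
  rw [h, map_zero] at h1
  exact pow_eq_zero_iff (two_ne_zero) |>.1 h1.symm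

theorem der_prod (D : Derivation ℤ K K) (s : Finset ι) (f : ι → K) :
    D (∏ i ∈ s, f i) = ∑ i ∈ s, (∏ j ∈ s.erase i, f j) * D (f i) := by
  induction s using Finset.induction_on with
  | empty => simp
  | insert a s ha ih =>
    rw [prod_insert ha, D.leibniz, ih, sum_insert ha, erase_insert ha, smul_eq_mul, smul_eq_mul,
      mul_sum, add_comm]
    congr 1
    refine sum_congr rfl fun i hi => ?_
    have hia : i ≠ a := fun h => ha (h ▸ hi)
    rw [erase_insert_of_ne hia.symm, prod_insert (by simp [ha]), mul_assoc]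

/-- `E` acts on the points by `E t_j = om_j g(t_j)`; then `E Π'(t_l) = g'(t_l)`. -/
theorem der_Q (t : ι → K) (ht : Function.Injective t) (E : Derivation ℤ K K) (g : K[X])
    (hg : g.natDegree < Fintype.card ι) (hE : ∀ j, E (t j) = om t j * g.eval (t j)) (l : ι) :
    E (∏ q ∈ univ.erase l, (t l + t q)) = (derivative g).eval (t l) := by
  have hvs : Set.InjOn t (univ : Finset ι) := ht.injOn
  have h1 : g.degree < #(univ : Finset ι) := by
    rw [card_univ]
    refine lt_of_le_of_lt g.degree_le_natDegree ?_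
    exact_mod_cast hg
  have h2 : g = ∑ i, C (om t i * g.eval (t i)) * (∏ j ∈ univ.erase i, (X - C (t j))) := by
    conv_lhs => rw [Lagrange.eq_interpolate hvs h1, Lagrange.interpolate_eq_sum]
    refine sum_congr rfl fun i _ => ?_
    rw [om, lag_aux, div_eq_mul_inv, mul_comm (eval _ _)]
  have h3 : (derivative g).eval (t l) = ∑ i, om t i * g.eval (t i) *
      ∑ s ∈ univ.erase i, ∏ r ∈ (univ.erase i).erase s, (t l + t r) := by
    conv_lhs => rw [h2]
    rw [derivative_sum, eval_finsetSum]
    refine sum_congr rfl fun i _ => ?_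
    rw [derivative_C_mul, eval_mul, eval_C, derivative_prod_finset, eval_finsetSum]
    congr 1
    refine sum_congr rfl fun s _ => ?_
    rw [derivative_X_sub_C, mul_one, eval_prod]
    refine prod_congr rfl fun r _ => ?_
    simp [CharTwo.sub_eq_add]
  rw [h3, der_prod, ← add_sum_erase univ _ (mem_univ l)]
  have h4 : ∀ i ∈ univ.erase l, om t i * g.eval (t i) *
      ∑ s ∈ univ.erase i, ∏ r ∈ (univ.erase i).erase s, (t l + t r) =
      om t i * g.eval (t i) * ∏ r ∈ (univ.erase l).erase i, (t l + t r) := by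
    intro i hi
    have hil : i ≠ l := (mem_erase.1 hi).1
    congr 1
    rw [sum_eq_single l]
    · rw [erase_right_comm]
    · intro s hs hsl
      refine prod_eq_zero (i := l) ?_ (CharTwo.add_self_eq_zero _)
      simp [hsl.symm, hil.symm]
    · intro h; exact absurd (by simp [hil.symm]) h
  rw [sum_congr rfl h4, mul_sum, ← sum_add_distrib]
  refine sum_congr rfl fun i _ => ?_
  rw [map_add, hE, hE]
  ring

end basics

section main

variable {K : Type*} [Field K] [CharP K 2] {ι : Type*} [Fintype ι] [DecidableEq ι]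

/-- The weighted sum. -/
noncomputable def S (t : ι → K) (θ : ι → ι → K) (F : ι → ι → K) : K :=
  ∑ j, ∑ l, θ j l * om t j * om t l * F j l

/-- Evaluation of a coefficient array. -/
def ev (e : ℕ) (c : ℕ → ℕ → K) (x y : K) : K :=
  ∑ a ∈ range (e + 1), ∑ b ∈ range (e + 1), c a b * x ^ a * y ^ b

theorem S_sym (t : ι → K) (θ : ι → ι → K) (hθ : ∀ j l, j ≠ l → θ j l + θ l j = 1)
    (H : ι → ι → K) (hs : ∀ j l, H j l = H l j) (h0 : ∀ j, ∑ l, om t l * H j l = 0) :
    S t θ (fun j l => (t j + t l) * H j l) = ∑ j, t j * (om t j) ^ 2 * H j j := by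
  have h1 : S t θ (fun j l => (t j + t l) * H j l) =
      (∑ j, ∑ l, θ j l * om t j * om t l * t j * H j l) +
      ∑ j, ∑ l, θ l j * om t j * om t l * t j * H j l := by
    rw [show (∑ j, ∑ l, θ l j * om t j * om t l * t j * H j l) =
      ∑ j, ∑ l, θ j l * om t l * om t j * t l * H l j from sum_comm]
    rw [S, ← sum_add_distrib]
    refine sum_congr rfl fun j _ => ?_
    rw [← sum_add_distrib]
    refine sum_congr rfl fun l _ => ?_
    rw [hs l j]
    ring
  have h2 : ∀ j l, θ j l * om t j * om t l * t j * H j l + θ l j * om t j * om t l * t j * H j l =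
      om t j * t j * (om t l * H j l) + if j = l then t j * (om t j) ^ 2 * H j j else 0 := by
    intro j l
    by_cases h : j = l
    · subst h
      rw [if_pos rfl]
      have h3 := CharTwo.add_self_eq_zero (θ j j * om t j * om t j * t j * H j j)
      have h4 := CharTwo.add_self_eq_zero (om t j * t j * (om t j * H j j))
      rw [h3, ← h4]
      ring
    · rw [if_neg h, add_zero]
      calc _ = (θ j l + θ l j) * (om t j * t j * (om t l * H j l)) := by ring
        _ = _ := by rw [hθ j l h, one_mul]
  rw [h1, ← sum_add_distrib]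
  refine sum_congr rfl fun j _ => ?_
  rw [← sum_add_distrib, sum_congr rfl fun l _ => h2 j l, sum_add_distrib, ← mul_sum, h0 j]
  simp

/-- The polynomial `y ↦ ev e c x y`. -/
noncomputable def pY (e : ℕ) (c : ℕ → ℕ → K) (x : K) : K[X] :=
  ∑ b ∈ range (e + 1), C (∑ a ∈ range (e + 1), c a b * x ^ a) * X ^ b

theorem pY_natDegree (e : ℕ) (c : ℕ → ℕ → K) (x : K) : (pY e c x).natDegree ≤ e := by
  refine natDegree_sum_le_of_forall_le _ _ fun b hb => ?_
  refine (natDegree_C_mul_X_pow_le _ _).trans ?_
  have := mem_range.1 hb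
  omega

theorem pY_eval (e : ℕ) (c : ℕ → ℕ → K) (x y : K) : (pY e c x).eval y = ev e c x y := by
  rw [pY, eval_finsetSum, ev, sum_comm]
  refine sum_congr rfl fun b _ => ?_
  rw [eval_mul, eval_C, eval_pow, eval_X, sum_mul]

theorem ev_swap (e : ℕ) (c : ℕ → ℕ → K) (x y : K) :
    ev e (fun a b => c b a) x y = ev e c y x := by
  rw [ev, ev, sum_comm]
  refine sum_congr rfl fun b _ => sum_congr rfl fun a _ => ?_
  ring


theorem S_add (t : ι → K) (θ : ι → ι → K) (F G : ι → ι → K) :
    S t θ (fun j l => F j l + G j l) = S t θ F + S t θ G := by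
  simp only [S, mul_add, sum_add_distrib]

theorem S_mul (t : ι → K) (θ : ι → ι → K) (a : K) (F : ι → ι → K) :
    S t θ (fun j l => a * F j l) = a * S t θ F := by
  simp only [S, mul_sum]
  refine sum_congr rfl fun j _ => sum_congr rfl fun l _ => ?_
  ring

theorem S_sum (t : ι → K) (θ : ι → ι → K) {κ : Type*} (s : Finset κ) (F : κ → ι → ι → K) :
    S t θ (fun j l => ∑ i ∈ s, F i j l) = ∑ i ∈ s, S t θ (F i) := by
  classical
  induction s using Finset.induction_on with
  | empty => simp [S]
  | insert a s ha ih =>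
    simp only [sum_insert ha]
    rw [S_add, ih]

theorem S_ev (t : ι → K) (θ : ι → ι → K) (e : ℕ) (G : ι → ι → K) (k : ℕ → ℕ → K)
    (h : ∀ a ≤ e, ∀ b ≤ e, S t θ (fun j l => G j l * (t j ^ a * t l ^ b)) = 0) :
    S t θ (fun j l => G j l * ev e k (t j) (t l)) = 0 := by
  have h1 : (fun j l => G j l * ev e k (t j) (t l)) = fun j l =>
      ∑ a ∈ range (e + 1), ∑ b ∈ range (e + 1), k a b * (G j l * (t j ^ a * t l ^ b)) := by
    funext j l
    rw [ev, mul_sum]
    refine sum_congr rfl fun a _ => ?_
    rw [mul_sum]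
    refine sum_congr rfl fun b _ => ?_
    ring
  rw [h1, S_sum]
  refine sum_eq_zero fun a ha => ?_
  rw [S_sum]
  refine sum_eq_zero fun b hb => ?_
  rw [S_mul, h a (by simpa [Nat.lt_succ_iff] using ha) b (by simpa [Nat.lt_succ_iff] using hb),
    mul_zero]

/-- Division by `x + y` of an array with vanishing anti-diagonal sums. -/
def dv (c : ℕ → ℕ → K) (a b : ℕ) : K := ∑ k ∈ range (a + 1), c k (a + b + 1 - k)

theorem dv_succ_succ (c : ℕ → ℕ → K) (a b : ℕ) :
    c (a + 1) (b + 1) = dv c a (b + 1) + dv c (a + 1) b := by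
  have h1 : dv c (a + 1) b = dv c a (b + 1) + c (a + 1) (b + 1) := by
    rw [dv, dv, sum_range_succ]
    congr 1
    · refine sum_congr rfl fun k _ => ?_
      congr 1
      omega
    · congr 1
      omega
  rw [h1, ← add_assoc, CharTwo.add_self_eq_zero, zero_add]

theorem dv_zero_succ (c : ℕ → ℕ → K) (b : ℕ) : c 0 (b + 1) = dv c 0 b := by
  simp [dv]

theorem dv_succ_zero (c : ℕ → ℕ → K) (hc : ∀ s, ∑ k ∈ range (s + 1), c k (s - k) = 0) (a : ℕ) :
    c (a + 1) 0 = dv c a 0 := by
  have h := hc (a + 1)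
  rw [sum_range_succ, Nat.sub_self] at h
  have h2 : dv c a 0 = ∑ k ∈ range (a + 1), c k (a + 1 - k) := rfl
  rw [← h2] at h
  have h3 : c (a + 1) 0 = - dv c a 0 := by linear_combination h
  rw [h3, CharTwo.neg_eq]

theorem dv_support_right (c : ℕ → ℕ → K) (d : ℕ) (hc : ∀ a b, d < b → c a b = 0) (a b : ℕ)
    (hb : d ≤ b) : dv c a b = 0 := by
  refine sum_eq_zero fun k hk => hc _ _ ?_
  have := mem_range.1 hk
  omega

theorem dv_support_left (c : ℕ → ℕ → K) (d : ℕ) (hc : ∀ a b, d < a → c a b = 0)
    (h0 : ∀ s, ∑ k ∈ range (s + 1), c k (s - k) = 0) (a b : ℕ)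
    (ha : d ≤ a) : dv c a b = 0 := by
  have h1 := h0 (a + b + 1)
  rw [← h1, dv]
  refine sum_subset (range_subset_range.2 (by omega)) fun k _ hk2 => hc _ _ ?_
  have : ¬ k < a + 1 := fun h => hk2 (mem_range.2 h)
  omega

/-- `p = (x + y) p₁`. -/
theorem ev_dv (e : ℕ) (c : ℕ → ℕ → K) (h1 : ∀ a b, e < a → c a b = 0)
    (h2 : ∀ a b, e < b → c a b = 0) (h0 : ∀ s, ∑ k ∈ range (s + 1), c k (s - k) = 0) (x y : K) :
    ev e c x y = (x + y) * ev e (dv c) x y := by
  have hl := dv_support_left c e h1 h0
  have hr := dv_support_right c e h2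
  -- the array `z * dv c`
  have hx : x * ev e (dv c) x y = ev e (fun a b => if a = 0 then 0 else dv c (a - 1) b) x y := by
    rw [ev, ev, sum_range_succ, sum_range_succ' (fun a => ∑ b ∈ range (e + 1),
      (if a = 0 then 0 else dv c (a - 1) b) * x ^ a * y ^ b)]
    have h3 : ∑ b ∈ range (e + 1), dv c e b * x ^ e * y ^ b = 0 :=
      sum_eq_zero fun b _ => by rw [hl e b le_rfl]; ring
    rw [h3]
    simp only [if_true, zero_mul, sum_const_zero, add_zero, Nat.succ_ne_zero, if_false,
      Nat.add_sub_cancel, mul_sum]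
    refine sum_congr rfl fun a _ => sum_congr rfl fun b _ => ?_
    ring
  have hy : y * ev e (dv c) x y = ev e (fun a b => if b = 0 then 0 else dv c a (b - 1)) x y := by
    rw [ev, ev, mul_sum]
    refine sum_congr rfl fun a _ => ?_
    rw [sum_range_succ, sum_range_succ' (fun b =>
      (if b = 0 then 0 else dv c a (b - 1)) * x ^ a * y ^ b), hr a e le_rfl]
    simp only [if_true, zero_mul, add_zero, Nat.succ_ne_zero, if_false,
      Nat.add_sub_cancel, mul_sum]
    refine sum_congr rfl fun b _ => ?_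
    ring
  rw [add_mul, hx, hy]
  simp only [ev, ← sum_add_distrib]
  refine sum_congr rfl fun a _ => sum_congr rfl fun b _ => ?_
  rw [← add_mul, ← add_mul]
  congr 2
  rcases a with _ | a
  · rcases b with _ | b
    · have := h0 0
      simp at this
      simp [this]
    · simp [dv_zero_succ c b]
  · rcases b with _ | b
    · simp [dv_succ_zero c h0 a]
    · simp [dv_succ_succ c a b]

/-- Diagonal vanishing gives vanishing anti-diagonal sums. -/
theorem diag_zero (t : ι → K) (ht : Function.Injective t) (e : ℕ)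
    (hN : 2 * e < Fintype.card ι) (c : ℕ → ℕ → K)
    (h1 : ∀ a b, e < a → c a b = 0) (h2 : ∀ a b, e < b → c a b = 0)
    (h : ∀ j, ev e c (t j) (t j) = 0) (s : ℕ) : ∑ k ∈ range (s + 1), c k (s - k) = 0 := by
  set f : K[X] := ∑ a ∈ range (e + 1), ∑ b ∈ range (e + 1), C (c a b) * X ^ (a + b) with hf
  have hev : ∀ x, f.eval x = ev e c x x := by
    intro x
    rw [hf, eval_finsetSum, ev]
    refine sum_congr rfl fun a _ => ?_
    rw [eval_finsetSum]
    refine sum_congr rfl fun b _ => ?_
    rw [eval_mul, eval_C, eval_pow, eval_X, pow_add, mul_assoc]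
  have hdeg : f.natDegree ≤ 2 * e := by
    refine natDegree_sum_le_of_forall_le _ _ fun a ha => ?_
    refine natDegree_sum_le_of_forall_le _ _ fun b hb => ?_
    refine (natDegree_C_mul_X_pow_le _ _).trans ?_
    have := mem_range.1 ha
    have := mem_range.1 hb
    omega
  have hf0 : f = 0 := by
    refine eq_zero_of_natDegree_lt_card_of_eval_eq_zero f ht (fun j => ?_) (by omega)
    rw [hev, h j]
  have hco : f.coeff s = ∑ k ∈ range (s + 1), c k (s - k) := by
    rw [hf]
    simp only [finsetSum_coeff, coeff_C_mul, coeff_X_pow]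
    by_cases hse : s ≤ e
    · rw [show range (s + 1) = (range (e + 1)).filter (fun k => k ≤ s) from ?_, sum_filter]
      · refine sum_congr rfl fun a ha => ?_
        by_cases has : a ≤ s
        · rw [if_pos has, sum_eq_single (s - a)]
          · rw [if_pos (by omega), mul_one]
          · intro b _ hb
            rw [if_neg (by omega), mul_zero]
          · intro hb
            exact absurd (mem_range.2 (by omega)) hb
        · rw [if_neg has]
          refine sum_eq_zero fun b _ => ?_
          rw [if_neg (by omega), mul_zero]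
      · ext k
        simp only [mem_range, mem_filter]
        omega
    · have h3 : ∑ k ∈ range (s + 1), c k (s - k) = ∑ k ∈ range (e + 1), c k (s - k) := by
        symm
        refine sum_subset (range_subset_range.2 (by omega)) fun k _ hk => h1 _ _ ?_
        have : ¬ k < e + 1 := fun h => hk (mem_range.2 h)
        omega
      rw [h3]
      refine sum_congr rfl fun a ha => ?_
      have ha' := mem_range.1 ha
      by_cases hb : s - a ≤ e
      · rw [sum_eq_single (s - a)]
        · rw [if_pos (by omega), mul_one]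
        · intro b _ hb
          rw [if_neg (by omega), mul_zero]
        · intro hb
          exact absurd (mem_range.2 (by omega)) hb
      · rw [h2 _ _ (by omega)]
        refine sum_eq_zero fun b hb => ?_
        have := mem_range.1 hb
        rw [if_neg (by omega), mul_zero]
  rw [← hco, hf0, coeff_zero]

/-- Key step (two derivations). -/
theorem two_der (t : ι → K) (D : ι → Derivation ℤ K K)
    (hD : ∀ i j, D i (t j) = if i = j then 1 else 0) (θ : ι → ι → K)
    (hθ : ∀ j l, θ j l ^ 2 = θ j l) (g : ι → ι → K)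
    (h : S t θ (fun j l => t j * g j l ^ 2) = 0) (i i' : ℕ)
    (hi : 2 * i < Fintype.card ι) (hi' : 2 * i' + 1 < Fintype.card ι) :
    S t θ (fun j l => t j ^ i * t l ^ i' * g j l) = 0 := by
  have ht := injective_of_der t D hD
  have hQ0 : ∀ l, (∏ q ∈ univ.erase l, (t l + t q)) ≠ 0 := by
    intro l
    rw [prod_ne_zero_iff]
    intro q hq h0
    have h1 : t l = t q := by
      rw [← CharTwo.sub_eq_add, sub_eq_zero] at h0
      exact h0
    exact (mem_erase.1 hq).1 (ht h1.symm)
  set Q : ι → K := fun l => ∏ q ∈ univ.erase l, (t l + t q) with hQ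
  have hom : ∀ l, om t l = Q l * om t l ^ 2 := by
    intro l
    rw [om, pow_two, ← mul_assoc, mul_inv_cancel₀ (hQ0 l), one_mul]
  have homQ : ∀ l, om t l * Q l = 1 := by
    intro l
    rw [om, inv_mul_cancel₀ (hQ0 l)]
  -- the derivation attached to a polynomial
  have hder : ∀ f : K[X], f.natDegree < Fintype.card ι → ∃ E : Derivation ℤ K K,
      (∀ j, E (t j) = om t j * f.eval (t j)) ∧ ∀ l, E (Q l) = (derivative f).eval (t l) := by
    intro f hf
    refine ⟨∑ q, (om t q * f.eval (t q)) • D q, ?_, ?_⟩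
    · intro j
      rw [← Derivation.coeFnAddMonoidHom_apply, map_sum, Finset.sum_apply, sum_eq_single j]
      · simp [hD]
      · intro q _ hq
        simp [hD, hq]
      · simp
    · intro l
      refine der_Q t ht _ f hf ?_ l
      intro j
      rw [← Derivation.coeFnAddMonoidHom_apply, map_sum, Finset.sum_apply, sum_eq_single j]
      · simp [hD]
      · intro q _ hq
        simp [hD, hq]
      · simp
  obtain ⟨E1, hE1, hE1'⟩ := hder (X ^ (2 * i)) (by rw [natDegree_X_pow]; exact hi)
  obtain ⟨E2, hE2, hE2'⟩ := hder (X ^ (2 * i' + 1)) (by rw [natDegree_X_pow]; exact hi')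
  have h2 : ∑ j, ∑ l, (t j * Q j * Q l) * (θ j l * om t j * om t l * g j l) ^ 2 = 0 := by
    rw [← h, S]
    refine sum_congr rfl fun j _ => sum_congr rfl fun l _ => ?_
    calc _ = θ j l ^ 2 * (Q j * om t j ^ 2) * (Q l * om t l ^ 2) * (t j * g j l ^ 2) := by ring
      _ = _ := by rw [← hom, ← hom, hθ]
  have h3 : ∑ j, ∑ l, (Q l) * (t j ^ i * (θ j l * om t j * om t l * g j l)) ^ 2 = 0 := by
    have h4 := congrArg E1 h2
    rw [map_zero, map_sum] at h4
    rw [← h4]
    refine sum_congr rfl fun j _ => ?_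
    rw [map_sum]
    refine sum_congr rfl fun l _ => ?_
    have hl : ∀ l, E1 (Q l) = 0 := by
      intro l
      rw [hE1' l, derivative_X_pow]
      simp [CharTwo.two_eq_zero]
    rw [der_mul_sq, E1.leibniz, E1.leibniz, hl, hl, hE1]
    simp only [smul_eq_mul, mul_zero, zero_add, eval_pow, eval_X]
    have := homQ j
    calc _ = (om t j * Q j) * (Q l * (t j ^ i * (θ j l * om t j * om t l * g j l)) ^ 2) := by
          rw [this]; ring
      _ = _ := by ring
  have h5 : ∑ j, ∑ l, (t l ^ i' * t j ^ i * (θ j l * om t j * om t l * g j l)) ^ 2 = 0 := by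
    have h4 := congrArg E2 h3
    rw [map_zero, map_sum] at h4
    rw [← h4]
    refine sum_congr rfl fun j _ => ?_
    rw [map_sum]
    refine sum_congr rfl fun l _ => ?_
    rw [der_mul_sq, hE2' l, derivative_X_pow]
    simp [CharTwo.two_eq_zero]
    ring
  have h6 : (∑ j, ∑ l, t l ^ i' * t j ^ i * (θ j l * om t j * om t l * g j l)) ^ 2 = 0 := by
    rw [CharTwo.sum_sq, ← h5]
    refine sum_congr rfl fun j _ => ?_
    rw [CharTwo.sum_sq]
  have h7 := (pow_eq_zero_iff two_ne_zero).1 h6
  rw [← h7, S]
  refine sum_congr rfl fun j _ => sum_congr rfl fun l _ => ?_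
  ring

theorem om_ne_zero (t : ι → K) (ht : Function.Injective t) (l : ι) : om t l ≠ 0 := by
  rw [om]
  refine inv_ne_zero (prod_ne_zero_iff.2 fun q hq h0 => ?_)
  have h1 : t l = t q := by
    rw [← CharTwo.sub_eq_add, sub_eq_zero] at h0
    exact h0
  exact (mem_erase.1 hq).1 (ht h1.symm)

/-- Anisotropy: the anti-diagonal sums of an array in the radical vanish. -/
theorem step (t : ι → K) (D : ι → Derivation ℤ K K)
    (hD : ∀ i j, D i (t j) = if i = j then 1 else 0) (e : ℕ)
    (hN : Fintype.card ι = 2 * e + 3) (θ : ι → ι → K)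
    (hθ1 : ∀ j l, j ≠ l → θ j l + θ l j = 1) (c : ℕ → ℕ → K)
    (h1 : ∀ a b, e < a → c a b = 0) (h2 : ∀ a b, e < b → c a b = 0)
    (h : ∀ a ≤ e, ∀ b ≤ e,
      S t θ (fun j l => ((t j + t l) * ev e c (t j) (t l)) * (t j ^ a * t l ^ b)) = 0) (s : ℕ) :
    ∑ k ∈ range (s + 1), c k (s - k) = 0 := by
  have ht := injective_of_der t D hD
  refine diag_zero t ht e (by omega) c h1 h2 (fun j => ?_) s
  have h3 := S_ev t θ e (fun j l => (t j + t l) * ev e c (t j) (t l)) (fun a b => c b a) h
  have h4 : S t θ (fun j l => (t j + t l) * (ev e c (t j) (t l) * ev e c (t l) (t j))) = 0 := by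
    rw [← h3]
    congr 1
    funext j l
    rw [ev_swap e c (t j) (t l), mul_assoc]
  rw [S_sym t θ hθ1 (fun j l => ev e c (t j) (t l) * ev e c (t l) (t j))
    (fun j l => mul_comm _ _) ?_] at h4
  · have h5 : ∑ j, t j * (om t j * ev e c (t j) (t j)) ^ 2 = 0 := by
      rw [← h4]
      refine sum_congr rfl fun j _ => ?_
      ring
    have h6 := sq_indep t D hD _ h5 j
    exact (mul_eq_zero.1 h6).resolve_left (om_ne_zero t ht j)
  · intro j
    have h5 := lag t ht (pY e c (t j) * pY e (fun a b => c b a) (t j)) (by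
      refine lt_of_le_of_lt (Nat.succ_le_succ natDegree_mul_le) ?_
      have := pY_natDegree e c (t j)
      have := pY_natDegree e (fun a b => c b a) (t j)
      omega)
    rw [← h5]
    refine sum_congr rfl fun l _ => ?_
    rw [eval_mul, pY_eval, pY_eval, ev_swap e c (t j) (t l)]

/-- The tournament lemma, internal form with an idempotent-valued `θ`. -/
theorem TL_aux (t : ι → K) (D : ι → Derivation ℤ K K)
    (hD : ∀ i j, D i (t j) = if i = j then 1 else 0) (e : ℕ)
    (hN : Fintype.card ι = 2 * e + 3) (θ : ι → ι → K)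
    (hθ : ∀ j l, θ j l ^ 2 = θ j l) (hθ1 : ∀ j l, j ≠ l → θ j l + θ l j = 1) :
    ∀ (d : ℕ), d ≤ e + 1 → ∀ c : ℕ → ℕ → K, (∀ a b, d ≤ a → c a b = 0) →
    (∀ a b, d ≤ b → c a b = 0) →
    (∀ a ≤ e, ∀ b ≤ e,
      S t θ (fun j l => ((t j + t l) * ev e c (t j) (t l)) * (t j ^ a * t l ^ b)) = 0) →
    ∀ a b, c a b = 0 := by
  have ht := injective_of_der t D hD
  intro d
  induction d with
  | zero => exact fun _ c h1 _ _ a b => h1 a b (Nat.zero_le _)
  | succ d ih =>
    intro hd c h1 h2 h
    have h1e : ∀ a b, e < a → c a b = 0 := fun a b hab => h1 a b (by omega)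
    have h2e : ∀ a b, e < b → c a b = 0 := fun a b hab => h2 a b (by omega)
    have h0 := step t D hD e hN θ hθ1 c h1e h2e h
    have hev := ev_dv e c h1e h2e h0
    have hl := dv_support_left c d (fun a b hab => h1 a b (by omega)) h0
    have hr := dv_support_right c d (fun a b hab => h2 a b (by omega))
    -- test with `z p₁`
    have h3 := S_ev t θ e (fun j l => (t j + t l) * ev e c (t j) (t l))
      (fun a b => if a = 0 then 0 else dv c (a - 1) b) h
    have hx : ∀ x y : K, ev e (fun a b => if a = 0 then 0 else dv c (a - 1) b) x y =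
        x * ev e (dv c) x y := by
      intro x y
      symm
      rw [ev, ev, sum_range_succ, sum_range_succ' (fun a => ∑ b ∈ range (e + 1),
        (if a = 0 then 0 else dv c (a - 1) b) * x ^ a * y ^ b)]
      have h3 : ∑ b ∈ range (e + 1), dv c e b * x ^ e * y ^ b = 0 :=
        sum_eq_zero fun b _ => by rw [hl e b (by omega)]; ring
      rw [h3]
      simp only [if_true, zero_mul, sum_const_zero, add_zero, Nat.succ_ne_zero, if_false,
        Nat.add_sub_cancel, mul_sum]
      refine sum_congr rfl fun a _ => sum_congr rfl fun b _ => ?_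
      ring
    have h4 : S t θ (fun j l => t j * ev e c (t j) (t l) ^ 2) = 0 := by
      rw [← h3]
      congr 1
      funext j l
      rw [hx, pow_two]
      nth_rewrite 2 [hev]
      ring
    have h5 := ih (by omega) (dv c) hl hr (fun a ha b hb => ?_)
    · intro a b
      rcases a with _ | a
      · rcases b with _ | b
        · have := h0 0
          simpa using this
        · rw [dv_zero_succ c b, h5]
      · rcases b with _ | b
        · rw [dv_succ_zero c h0 a, h5]
        · rw [dv_succ_succ c a b, h5, h5, add_zero]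
    · have h6 := two_der t D hD θ hθ _ h4 a b (by omega) (by omega)
      rw [← h6]
      congr 1
      funext j l
      rw [hev]
      ring

end main

/-- **Tournament lemma** (T), `2e+3` points, coefficient form. -/
theorem tournament {K : Type*} [Field K] [CharP K 2] {ι : Type*} [Fintype ι] [DecidableEq ι]
    (t : ι → K) (D : ι → Derivation ℤ K K)
    (hD : ∀ i j, D i (t j) = if i = j then 1 else 0) (e : ℕ)
    (hN : Fintype.card ι = 2 * e + 3) (T : ι → ι → ZMod 2)
    (hT : ∀ j l, j ≠ l → T j l + T l j = 1) (c : ℕ → ℕ → K)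
    (h : ∀ a' ≤ e, ∀ b' ≤ e, ∑ j, ∑ l, (if j ≠ l ∧ T j l = 1 then
      om t j * om t l * (t j + t l) *
        (∑ a ∈ range (e + 1), ∑ b ∈ range (e + 1), c a b * t j ^ a * t l ^ b) *
        t j ^ a' * t l ^ b' else 0) = 0) :
    ∀ a ≤ e, ∀ b ≤ e, c a b = 0 := by
  set θ : ι → ι → K := fun j l => if T j l = 1 then 1 else 0 with hθdef
  have hθ : ∀ j l, θ j l ^ 2 = θ j l := by
    intro j l
    simp only [hθdef]
    split_ifs <;> simp
  have h01 : ∀ x : ZMod 2, x = 0 ∨ x = 1 := by decide
  have hθ1 : ∀ j l, j ≠ l → θ j l + θ l j = 1 := by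
    intro j l hjl
    have h1 := hT j l hjl
    simp only [hθdef]
    rcases h01 (T j l) with h2 | h2 <;> rcases h01 (T l j) with h3 | h3 <;> rw [h2, h3] at h1 <;>
      rw [h2, h3] <;> revert h1 <;> simp
  set c' : ℕ → ℕ → K := fun a b => if a ≤ e ∧ b ≤ e then c a b else 0 with hc'
  have hev : ∀ x y : K, ev e c' x y =
      ∑ a ∈ range (e + 1), ∑ b ∈ range (e + 1), c a b * x ^ a * y ^ b := by
    intro x y
    rw [ev]
    refine sum_congr rfl fun a ha => sum_congr rfl fun b hb => ?_
    have := mem_range.1 ha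
    have := mem_range.1 hb
    rw [hc']
    simp only
    rw [if_pos ⟨by omega, by omega⟩]
  have key := TL_aux t D hD e hN θ hθ hθ1 (e + 1) le_rfl c'
    (fun a b hab => by simp only [hc']; rw [if_neg (by omega)])
    (fun a b hab => by simp only [hc']; rw [if_neg (by omega)])
    (fun a ha b hb => by
      rw [← h a ha b hb, S]
      refine sum_congr rfl fun j _ => sum_congr rfl fun l _ => ?_
      rw [hev]
      by_cases hjl : j = l
      · subst hjl
        simp [CharTwo.add_self_eq_zero]
      · simp only [hθdef]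
        by_cases h1 : T j l = 1
        · rw [if_pos h1, if_pos ⟨hjl, h1⟩]; ring
        · rw [if_neg h1, if_neg (fun h => h1 h.2)]; ring)
  intro a ha b hb
  have := key a b
  simp only [hc'] at this
  rwa [if_pos ⟨ha, hb⟩] at this

end Crest.Agent.R36.TL100
end

-- ▼ part R36/Exch413
section

/-! R36, helper413: exchange and spanning step of `(N)_n` (#12247, #12334). -/

set_option autoImplicit false

namespace Crest.Agent.R36.Exch413

open Finset Polynomial

variable {K : Type*} [Field K] {ι : Type*} [DecidableEq ι]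

/-- A linear functional that kills the products over `D.erase c`, `c ∈ D`, kills every
polynomial of degree `< #D`. -/
lemma span_prod (t : ι → K) (D : Finset ι) (ht : Set.InjOn t D) (L : K[X] →ₗ[K] K)
    (h : ∀ c ∈ D, L (∏ q ∈ D.erase c, (X - C (t q))) = 0) (f : K[X])
    (hf : f.degree < D.card) : L f = 0 := by
  rw [Lagrange.eq_interpolate ht hf, Lagrange.interpolate_apply, map_sum]
  refine Finset.sum_eq_zero fun c hc => ?_
  have hb : Lagrange.basis D t c
      = (∏ q ∈ D.erase c, (t c - t q)⁻¹) • ∏ q ∈ D.erase c, (X - C (t q)) := by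
    rw [Lagrange.basis, smul_eq_C_mul, map_prod, ← Finset.prod_mul_distrib]
    rfl
  rw [← smul_eq_C_mul, map_smul, hb, map_smul, h c hc, smul_zero, smul_zero]

/-- The same with characteristic 2 signs and an evaluation functional. -/
lemma span_pow [CharP K 2] (t : ι → K) (D : Finset ι) (ht : Set.InjOn t D) {β : Type*}
    (s : Finset β) (u : β → K) (c : β → K)
    (h : ∀ a ∈ D, ∑ b ∈ s, c b * ∏ q ∈ D.erase a, (u b + t q) = 0) (i : ℕ) (hi : i < D.card) :
    ∑ b ∈ s, c b * u b ^ i = 0 := by
  have key := span_prod t D ht (∑ b ∈ s, c b • Polynomial.leval (u b)) (fun a ha => ?_) (X ^ i)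
    (by rw [degree_X_pow]; exact_mod_cast hi)
  · simpa [LinearMap.sum_apply, Polynomial.leval_apply] using key
  · have := h a ha
    simp only [LinearMap.sum_apply, LinearMap.smul_apply, Polynomial.leval_apply, smul_eq_mul,
      eval_prod, eval_sub, eval_X, eval_C]
    rw [← this]
    refine Finset.sum_congr rfl fun b _ => ?_
    congr 1
    refine Finset.prod_congr rfl fun q _ => ?_
    rw [CharTwo.sub_eq_add]

theorem exch [CharP K 2] (t : ι → K) (E : Finset ι) (ht : Set.InjOn t E) (r : ℕ) (hr : 1 ≤ r)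
    (hE : E.card = 2 * r) (L : ι → ι → K)
    (h : ∀ A B : Finset ι, Disjoint A B → A ∪ B = E → A.card = r → B.card = r →
      ∑ b ∈ E, ∑ d ∈ E, L b d * (∏ q ∈ A, (t b + t q)) * (∏ q ∈ B, (t d + t q)) = 0) :
    ∀ i ≤ r - 1, ∀ j ≤ r - 1,
      ∑ b ∈ E, ∑ d ∈ E, L b d * (t b + t d) * t b ^ i * t d ^ j = 0 := by
  -- step 1: exchange
  have h1 : ∀ A B : Finset ι, A ⊆ E → B ⊆ E → Disjoint A B → A.card = r - 1 → B.card = r - 1 →
      ∑ b ∈ E, ∑ d ∈ E, L b d * (t b + t d) * (∏ q ∈ A, (t b + t q)) * (∏ q ∈ B, (t d + t q))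
        = 0 := by
    intro A B hA hB hAB cA cB
    have hU : (A ∪ B).card = 2 * r - 2 := by
      rw [Finset.card_union_of_disjoint hAB]; omega
    have hUE : A ∪ B ⊆ E := Finset.union_subset hA hB
    have hc : (E \ (A ∪ B)).card = 2 := by
      rw [Finset.card_sdiff_of_subset hUE]; omega
    obtain ⟨x, y, hxy, hxyE⟩ := Finset.card_eq_two.1 hc
    have hx : x ∈ E \ (A ∪ B) := by rw [hxyE]; simp
    have hy : y ∈ E \ (A ∪ B) := by rw [hxyE]; simp
    simp only [Finset.mem_sdiff, Finset.mem_union, not_or] at hx hy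
    obtain ⟨hxE, hxA, hxB⟩ := hx
    obtain ⟨hyE, hyA, hyB⟩ := hy
    have hEU : E = (A ∪ B) ∪ {x, y} := by
      rw [← hxyE]; exact (Finset.union_sdiff_of_subset hUE).symm
    have hdis : ∀ x y : ι, x ≠ y → x ∉ A → x ∉ B → y ∉ A → y ∉ B →
        Disjoint (insert x A) (insert y B) := by
      intro x y hxy hxA hxB hyA hyB
      rw [Finset.disjoint_left] at hAB ⊢
      intro z hz hz'
      rw [Finset.mem_insert] at hz hz'
      rcases hz with rfl | hz
      · rcases hz' with rfl | hz'
        · exact hxy rfl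
        · exact hxB hz'
      · rcases hz' with rfl | hz'
        · exact hyA hz
        · exact hAB hz hz'
    have e1 := h (insert x A) (insert y B) (hdis x y hxy hxA hxB hyA hyB)
      (by rw [hEU]; ext z; simp only [Finset.mem_union, Finset.mem_insert, Finset.mem_singleton]; tauto)
      (by rw [Finset.card_insert_of_notMem hxA]; omega)
      (by rw [Finset.card_insert_of_notMem hyB]; omega)
    have e2 := h (insert y A) (insert x B) (hdis y x hxy.symm hyA hyB hxA hxB)
      (by rw [hEU]; ext z; simp only [Finset.mem_union, Finset.mem_insert, Finset.mem_singleton]; tauto)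
      (by rw [Finset.card_insert_of_notMem hyA]; omega)
      (by rw [Finset.card_insert_of_notMem hxB]; omega)
    have e3 : (t x + t y) * (∑ b ∈ E, ∑ d ∈ E, L b d * (t b + t d) * (∏ q ∈ A, (t b + t q))
        * (∏ q ∈ B, (t d + t q))) = 0 := by
      have : (t x + t y) * (∑ b ∈ E, ∑ d ∈ E, L b d * (t b + t d) * (∏ q ∈ A, (t b + t q))
        * (∏ q ∈ B, (t d + t q))) =
        (∑ b ∈ E, ∑ d ∈ E, L b d * (∏ q ∈ insert x A, (t b + t q)) *
          (∏ q ∈ insert y B, (t d + t q))) +
        (∑ b ∈ E, ∑ d ∈ E, L b d * (∏ q ∈ insert y A, (t b + t q)) *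
          (∏ q ∈ insert x B, (t d + t q))) := by
        rw [Finset.mul_sum, ← Finset.sum_add_distrib]
        refine Finset.sum_congr rfl fun b _ => ?_
        rw [Finset.mul_sum, ← Finset.sum_add_distrib]
        refine Finset.sum_congr rfl fun d _ => ?_
        rw [Finset.prod_insert hxA, Finset.prod_insert hyA, Finset.prod_insert hxB,
          Finset.prod_insert hyB]
        linear_combination (exp := 1) (- (L b d * (t b * t d + t x * t y) * (∏ q ∈ A, (t b + t q))
          * (∏ q ∈ B, (t d + t q)))) * (CharTwo.two_eq_zero (R := K))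
      rw [this, e1, e2, add_zero]
    rcases mul_eq_zero.1 e3 with h0 | h0
    · exfalso
      apply hxy
      apply ht hxE hyE
      rwa [← sub_eq_zero, CharTwo.sub_eq_add]
    · exact h0
  -- step 2: span in the first variable
  have h2 : ∀ B : Finset ι, B ⊆ E → B.card = r - 1 → ∀ i ≤ r - 1,
      ∑ b ∈ E, ∑ d ∈ E, L b d * (t b + t d) * t b ^ i * (∏ q ∈ B, (t d + t q)) = 0 := by
    intro B hB cB i hi
    obtain ⟨D, hD, cD⟩ := Finset.exists_subset_card_eq (s := E \ B) (n := r)
      (by rw [Finset.card_sdiff_of_subset hB]; omega)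
    have hDE : D ⊆ E := hD.trans Finset.sdiff_subset
    have hDB : Disjoint D B := Finset.disjoint_of_subset_left hD Finset.sdiff_disjoint
    have := span_pow t D (ht.mono (by exact_mod_cast hDE)) E t
      (fun b => ∑ d ∈ E, L b d * (t b + t d) * (∏ q ∈ B, (t d + t q))) (fun a ha => ?_) i
      (by omega)
    · rw [← this]
      refine Finset.sum_congr rfl fun b _ => ?_
      rw [Finset.sum_mul]
      refine Finset.sum_congr rfl fun d _ => ?_
      ring
    · have h3 := h1 (D.erase a) B ((Finset.erase_subset _ _).trans hDE) hB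
        (Finset.disjoint_of_subset_left (Finset.erase_subset _ _) hDB)
        (by rw [Finset.card_erase_of_mem ha, cD]) cB
      rw [← h3]
      refine Finset.sum_congr rfl fun b _ => ?_
      rw [Finset.sum_mul]
      refine Finset.sum_congr rfl fun d _ => ?_
      ring
  -- step 3: span in the second variable
  intro i hi j hj
  obtain ⟨D, hD, cD⟩ := Finset.exists_subset_card_eq (s := E) (n := r) (by omega)
  have := span_pow t D (ht.mono (by exact_mod_cast hD)) E t
    (fun d => ∑ b ∈ E, L b d * (t b + t d) * t b ^ i) (fun a ha => ?_) j (by omega)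
  · rw [← this, Finset.sum_comm]
    refine Finset.sum_congr rfl fun d _ => ?_
    rw [Finset.sum_mul]
  · have h3 := h2 (D.erase a) ((Finset.erase_subset _ _).trans hD)
      (by rw [Finset.card_erase_of_mem ha, cD]) i hi
    rw [← h3, Finset.sum_comm]
    refine Finset.sum_congr rfl fun d _ => ?_
    rw [Finset.sum_mul]

/-- The same after deleting a point `q` of `E`. -/
theorem exch' [CharP K 2] (t : ι → K) (E : Finset ι) (ht : Set.InjOn t E) (r : ℕ) (hr : 2 ≤ r)
    (hE : E.card = 2 * r) (L : ι → ι → K)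
    (h : ∀ A B : Finset ι, Disjoint A B → A ∪ B = E → A.card = r → B.card = r →
      ∑ b ∈ E, ∑ d ∈ E, L b d * (∏ q ∈ A, (t b + t q)) * (∏ q ∈ B, (t d + t q)) = 0)
    (q : ι) (hq : q ∈ E) :
    ∀ i ≤ r - 2, ∀ j ≤ r - 2,
      ∑ b ∈ E.erase q, ∑ d ∈ E.erase q,
        L b d * (t b + t q) * (t d + t q) * (t b + t d) * t b ^ i * t d ^ j = 0 := by
  intro i hi j hj
  have H := exch t E ht r (by omega) hE L h
  have a1 := H (i + 1) (by omega) (j + 1) (by omega)
  have a2 := H (i + 1) (by omega) j (by omega)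
  have a3 := H i (by omega) (j + 1) (by omega)
  have a4 := H i (by omega) j (by omega)
  have tot : ∑ b ∈ E, ∑ d ∈ E,
      L b d * (t b + t q) * (t d + t q) * (t b + t d) * t b ^ i * t d ^ j = 0 := by
    have : ∑ b ∈ E, ∑ d ∈ E,
        L b d * (t b + t q) * (t d + t q) * (t b + t d) * t b ^ i * t d ^ j =
        (∑ b ∈ E, ∑ d ∈ E, L b d * (t b + t d) * t b ^ (i + 1) * t d ^ (j + 1))
        + t q * (∑ b ∈ E, ∑ d ∈ E, L b d * (t b + t d) * t b ^ (i + 1) * t d ^ j)
        + t q * (∑ b ∈ E, ∑ d ∈ E, L b d * (t b + t d) * t b ^ i * t d ^ (j + 1))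
        + t q * t q * (∑ b ∈ E, ∑ d ∈ E, L b d * (t b + t d) * t b ^ i * t d ^ j) := by
      simp only [Finset.mul_sum, ← Finset.sum_add_distrib]
      refine Finset.sum_congr rfl fun b _ => Finset.sum_congr rfl fun d _ => ?_
      ring
    rw [this, a1, a2, a3, a4]; ring
  rw [← tot]
  refine Finset.sum_subset_zero_on_sdiff (Finset.erase_subset _ _) ?_ ?_
  · intro b hb
    have : b = q := by
      simp only [Finset.mem_sdiff, Finset.mem_erase, not_and] at hb
      by_contra hne
      exact (hb.2 hne) hb.1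
    subst this
    refine Finset.sum_eq_zero fun d _ => ?_
    rw [CharTwo.add_self_eq_zero]; ring
  · intro b _
    refine Finset.sum_subset_zero_on_sdiff (Finset.erase_subset _ _) ?_ (fun _ _ => rfl)
    intro d hd
    have : d = q := by
      simp only [Finset.mem_sdiff, Finset.mem_erase, not_and] at hd
      by_contra hne
      exact (hd.2 hne) hd.1
    subst this
    rw [CharTwo.add_self_eq_zero]; ring

end Crest.Agent.R36.Exch413
end

-- ▼ part R36/Iso172
section

/-! R36 (helper172): abstract isotropy lemma.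
If evaluation on a finite set `X` is injective on `V` and the image is isotropic for the nondegenerate
form `∑ lam q * u q * v (sw q)` (`sw` an involution of `X`, `lam ≠ 0` on `X`), then
`2 * dim V ≤ #X`. -/

set_option autoImplicit false

namespace Crest.Agent.R36.G172

open Module

/-- **Isotropy lemma.** -/
theorem half_card {K : Type*} [Field K] {I : Type*} {V : Type*} [AddCommGroup V] [Module K V]
    [FiniteDimensional K V] (X : Finset I) (sw : I → I) (hsw : ∀ q ∈ X, sw q ∈ X)
    (hinv : ∀ q ∈ X, sw (sw q) = q) (lam : I → K) (hlam : ∀ q ∈ X, lam q ≠ 0)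
    (ev : V →ₗ[K] (I → K))
    (iso : ∀ f g : V, ∑ q ∈ X, lam q * ev f q * ev g (sw q) = 0)
    (inj : ∀ f : V, (∀ q ∈ X, ev f q = 0) → f = 0) :
    2 * finrank K V ≤ X.card := by
  classical
  -- evaluation on `X`, and the twisted evaluation
  let A : V →ₗ[K] (X → K) :=
    { toFun := fun f q => ev f q.1
      map_add' := fun f g => by funext q; simp
      map_smul' := fun c f => by funext q; simp }
  let A' : V →ₗ[K] (X → K) :=
    { toFun := fun g q => lam q.1 * ev g (sw q.1)
      map_add' := fun f g => by funext q; simp [mul_add]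
      map_smul' := fun c f => by funext q; simp [mul_left_comm] }
  let dot : (X → K) →ₗ[K] Dual K (X → K) :=
    LinearMap.mk₂ K (fun u v => ∑ q, u q * v q)
      (fun u u' v => by simp [add_mul, Finset.sum_add_distrib])
      (fun c u v => by simp [mul_assoc, Finset.mul_sum])
      (fun u v v' => by simp [mul_add, Finset.sum_add_distrib])
      (fun c u v => by simp [mul_left_comm, Finset.mul_sum])
  have hdot : ∀ u v, dot u v = ∑ q, u q * v q := fun u v => rfl
  have hdot0 : ∀ u, dot u = 0 → u = 0 := by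
    intro u hu
    funext q
    have := congrArg (fun φ => φ (Pi.single q 1)) hu
    simpa [hdot, Pi.single_apply] using this
  have hA : ∀ f, A f = 0 → f = 0 := by
    intro f hf
    refine inj f fun q hq => ?_
    exact congrFun hf ⟨q, hq⟩
  have hA' : Function.Injective A' := by
    rw [← LinearMap.ker_eq_bot, LinearMap.ker_eq_bot']
    intro g hg
    refine inj g fun q hq => ?_
    have h1 := congrFun hg ⟨sw q, hsw q hq⟩
    change lam (sw q) * ev g (sw (sw q)) = 0 at h1
    rw [hinv q hq] at h1
    exact (mul_eq_zero.1 h1).resolve_left (hlam _ (hsw q hq))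
  have hψ : Function.Injective (dot ∘ₗ A) := by
    rw [← LinearMap.ker_eq_bot, LinearMap.ker_eq_bot']
    intro f hf
    exact hA f (hdot0 _ hf)
  have hle : LinearMap.range (dot ∘ₗ A) ≤ (LinearMap.range A').dualAnnihilator := by
    rintro _ ⟨f, rfl⟩
    rw [Submodule.mem_dualAnnihilator]
    rintro _ ⟨g, rfl⟩
    have h1 := iso f g
    rw [← Finset.sum_coe_sort] at h1
    change dot (A f) (A' g) = 0
    rw [hdot, ← h1]
    refine Finset.sum_congr rfl fun q _ => ?_
    change ev f q.1 * (lam q.1 * ev g (sw q.1)) = _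
    ring
  have h1 : finrank K V = finrank K (LinearMap.range (dot ∘ₗ A)) :=
    (LinearMap.finrank_range_of_inj hψ).symm
  have h2 : finrank K V = finrank K (LinearMap.range A') :=
    (LinearMap.finrank_range_of_inj hA').symm
  have h3 := Submodule.finrank_mono hle
  have h4 := Subspace.finrank_add_finrank_dualAnnihilator_eq (LinearMap.range A')
  rw [Module.finrank_fintype_fun_eq_card, Fintype.card_coe] at h4
  omega


end Crest.Agent.R36.G172
end

-- ▼ part R36/KnQuot172
section

/-! R36 (helper172): passing from the 8 ordered quadruples to ordered pairs of unordered edges. -/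

set_option autoImplicit false

namespace Crest.Agent.R36.G172
open Crest.Agent.R036


variable {n : ℕ}

theorem xK_swap1 (W : Fin n → Fin n → Fin n → ZMod 2) (hW : ∀ v a b, W v a b = W v b a)
    (a b c d : Fin n) : xK W b a c d = xK W a b c d := by
  unfold xK
  rw [hW d b a, hW c b a]
  ring

theorem xK_swap2 (W : Fin n → Fin n → Fin n → ZMod 2) (hW : ∀ v a b, W v a b = W v b a)
    (a b c d : Fin n) : xK W a b d c = xK W a b c d := by
  unfold xK
  rw [hW a d c, hW b d c]
  ring

theorem iv_lt_swap {a c : Fin n} (h : a ≠ c) : iv (c < a) = 1 + iv (a < c) := by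
  unfold iv
  rcases lt_or_gt_of_ne h with h' | h'
  · rw [if_neg (not_lt.2 h'.le), if_pos h']; decide
  · rw [if_pos h', if_neg (not_lt.2 h'.le)]; decide










end Crest.Agent.R36.G172
end

-- ▼ part R36/Kn590a
section

/-! R36 / KN (helper590): the `K_n` algebra, `KnF2 (2 r + 1)` from the tournament theorem (T)
(helper100), in the non-symmetric form of helper21. The polynomial toolkit (`IsP`, `Box`, `evP`,
`toP`) is the one of helper127. -/

set_option autoImplicit false
open Polynomial Finset

namespace Crest.Agent.R36.Kn590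

open Crest.Agent.R36.Bip127 (IsP wt wt_ne_zero phi phi_mul Box evP ev isP_ev_left isP_ev_right
  isP_evP_x isP_evP_y isP_evP_z isP_evP_w VV toP toP_box toP_inj evL evP_toP eval_eval_X F1)
open Crest.Agent.R36.G172 (xK SK mem_SK xK_swap1 xK_swap2 KnF2 iv iv_lt_swap)
open Crest.Agent.R036 (RedK.Dist4)

variable {K : Type*} [Field K] [CharP K 2]

/-- the universal identity -/
theorem total {n : ℕ} (W : Fin n → Fin n → Fin n → ZMod 2) (G : Fin n → Fin n → Fin n → Fin n → K)
    (ha : ∀ b c d, ∑ a, G a b c d = 0) (hb : ∀ a c d, ∑ b, G a b c d = 0)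
    (hc : ∀ a b d, ∑ c, G a b c d = 0) (hd : ∀ a b c, ∑ d, G a b c d = 0) :
    ∑ a, ∑ b, ∑ c, ∑ d, phi K (xK W a b c d) * G a b c d = 0 := by
  rw [← F1 (fun a b d => phi K (W d a b)) (fun a b c => phi K (W c a b))
    (fun a c d => phi K (iv (a < c) + iv (a < d) + W a c d))
    (fun b c d => phi K (iv (b < c) + iv (b < d) + W b c d)) G ha hb hc hd]
  refine Finset.sum_congr rfl fun a _ => Finset.sum_congr rfl fun b _ =>
    Finset.sum_congr rfl fun c _ => Finset.sum_congr rfl fun d _ => ?_
  rw [← map_add, ← map_add, ← map_add]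
  congr 2
  unfold xK
  ring

theorem xK_aa {n : ℕ} (W : Fin n → Fin n → Fin n → ZMod 2) (hW0 : ∀ v a, W v a a = 0)
    (a c d : Fin n) : xK W a a c d = 0 := by
  unfold xK
  rw [hW0, hW0]
  have h2 : ∀ x : ZMod 2, x + x = 0 := by decide
  linear_combination h2 (iv (a < c)) + h2 (iv (a < d)) + h2 (W a c d)

theorem xK_cc {n : ℕ} (W : Fin n → Fin n → Fin n → ZMod 2) (hW0 : ∀ v a, W v a a = 0)
    (a b c : Fin n) : xK W a b c c = 0 := by
  unfold xK
  rw [hW0, hW0]
  have h2 : ∀ x : ZMod 2, x + x = 0 := by decide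
  linear_combination h2 (iv (a < c)) + h2 (iv (b < c)) + h2 (W c a b)

theorem iv_self {n : ℕ} (a : Fin n) : iv (a < a) = 0 := by
  unfold iv
  simp

/-- the tournament at the vertex `v` -/
theorem xK_tour {n : ℕ} (W : Fin n → Fin n → Fin n → ZMod 2) (v : Fin n) {b d : Fin n}
    (hvb : v ≠ b) (hvd : v ≠ d) (hbd : b ≠ d) : xK W v b v d + xK W v d v b = 1 := by
  unfold xK
  rw [iv_self, iv_lt_swap hvb, iv_lt_swap hvd, iv_lt_swap hbd]
  have h2 : ∀ x : ZMod 2, x + x = 0 := by decide
  have h3 : (1 : ZMod 2) + 1 = 0 := by decide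
  linear_combination h2 (iv (v < d)) + h2 (iv (v < b)) + h2 (iv (b < d)) + h2 (W v v d) +
    h2 (W b v d) + h2 (W d v b) + h2 (W v v b) + h3

/-- sums over a subtype `S` of weights -/
theorem om_sub {n : ℕ} (t : Fin n → K) (ht : Function.Injective t) (v q : Fin n) (hq : q ≠ v)
    (b : ((univ.erase v).erase q : Finset (Fin n))) :
    TL100.om (fun x : ((univ.erase v).erase q : Finset (Fin n)) => t x.1) b =
      wt t b.1 * (t b.1 + t v) * (t b.1 + t q) := by
  classical
  have hb1 : b.1 ≠ q := (Finset.mem_erase.1 b.2).1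
  have hb2 : b.1 ≠ v := (Finset.mem_erase.1 (Finset.mem_erase.1 b.2).2).1
  have hne : ∀ c : Fin n, b.1 ≠ c → t b.1 + t c ≠ 0 := by
    intro c hc h0
    rw [← CharTwo.sub_eq_add, sub_eq_zero] at h0
    exact hc (ht h0)
  have h1 : ∏ c ∈ univ.erase b, (t b.1 + t c.1) =
      ∏ c ∈ ((univ.erase v).erase q).erase b.1, (t b.1 + t c) := by
    rw [← Finset.prod_coe_sort (((univ.erase v).erase q).erase b.1)]
    symm
    refine Finset.prod_bij (fun c _ => (⟨c.1, (Finset.mem_erase.1 c.2).2⟩ :
      ((univ.erase v).erase q : Finset (Fin n)))) ?_ ?_ ?_ ?_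
    · intro c _
      refine Finset.mem_erase.2 ⟨fun h => (Finset.mem_erase.1 c.2).1 (congrArg Subtype.val h),
        mem_univ _⟩
    · intro c _ c' _ h
      exact Subtype.ext (congrArg (fun z : ((univ.erase v).erase q : Finset (Fin n)) => z.1) h)
    · intro c hc
      refine ⟨⟨c.1, Finset.mem_erase.2 ⟨fun h => (Finset.mem_erase.1 hc).1 (Subtype.ext h), c.2⟩⟩,
        mem_univ _, rfl⟩
    · intro c _
      rfl
  have h2 : ∏ c ∈ univ.erase b.1, (t b.1 + t c) =
      (t b.1 + t v) * ((t b.1 + t q) * ∏ c ∈ ((univ.erase v).erase q).erase b.1, (t b.1 + t c)) := by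
    rw [← Finset.mul_prod_erase (univ.erase b.1) _
      (Finset.mem_erase.2 ⟨hb2.symm, mem_univ v⟩)]
    rw [← Finset.mul_prod_erase ((univ.erase b.1).erase v) _
      (Finset.mem_erase.2 ⟨hq, Finset.mem_erase.2 ⟨hb1.symm, mem_univ q⟩⟩)]
    congr 3
    ext c
    simp only [Finset.mem_erase, Finset.mem_univ, and_true]
    tauto
  unfold TL100.om wt
  rw [h1, h2, mul_inv, mul_inv]
  have h3 := hne v hb2
  have h4 := hne q hb1
  field_simp

end Crest.Agent.R36.Kn590
end

-- ▼ part R36/Kn590b
section

/-! R36 / KN (helper590), part 2: the key step and the injectivity (N). -/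

set_option autoImplicit false
open Polynomial Finset

namespace Crest.Agent.R36.Kn590

open Crest.Agent.R36.Bip127 (IsP wt wt_ne_zero phi phi_mul Box evP ev isP_ev_left isP_ev_right
  isP_evP_x isP_evP_y isP_evP_z isP_evP_w VV toP toP_box toP_inj evL evP_toP eval_eval_X F1)
open Crest.Agent.R36.G172 (xK SK mem_SK xK_swap1 xK_swap2 KnF2 iv iv_lt_swap)
open Crest.Agent.R036

variable {K : Type*} [Field K] [CharP K 2]

/-- universal identity for polynomial functions -/
theorem total_zero {n e : ℕ} (hn : n = 2 * e + 5) {t : Fin n → K} (ht : Function.Injective t)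
    (W : Fin n → Fin n → Fin n → ZMod 2) (U : K → K → K → K → K)
    (h0 : ∀ y z w, IsP (2 * e + 3) fun x => U x y z w)
    (h1 : ∀ x z w, IsP (2 * e + 3) fun y => U x y z w)
    (h2 : ∀ x y w, IsP (2 * e + 3) fun z => U x y z w)
    (h3 : ∀ x y z, IsP (2 * e + 3) fun w => U x y z w) :
    ∑ a, ∑ b, ∑ c, ∑ d, phi K (xK W a b c d) *
      (wt t a * wt t b * wt t c * wt t d * U (t a) (t b) (t c) (t d)) = 0 := by
  refine total W (fun a b c d => wt t a * wt t b * wt t c * wt t d *
    U (t a) (t b) (t c) (t d)) ?_ ?_ ?_ ?_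
  · intro b c d
    have h := IsP.lagrange ht (by rw [Fintype.card_fin]; omega) (h0 (t b) (t c) (t d))
    rw [← mul_zero (wt t b * wt t c * wt t d), ← h, Finset.mul_sum]
    refine Finset.sum_congr rfl fun i _ => ?_
    ring
  · intro a c d
    have h := IsP.lagrange ht (by rw [Fintype.card_fin]; omega) (h1 (t a) (t c) (t d))
    rw [← mul_zero (wt t a * wt t c * wt t d), ← h, Finset.mul_sum]
    refine Finset.sum_congr rfl fun i _ => ?_
    ring
  · intro a b d
    have h := IsP.lagrange ht (by rw [Fintype.card_fin]; omega) (h2 (t a) (t b) (t d))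
    rw [← mul_zero (wt t a * wt t b * wt t d), ← h, Finset.mul_sum]
    refine Finset.sum_congr rfl fun i _ => ?_
    ring
  · intro a b c
    have h := IsP.lagrange ht (by rw [Fintype.card_fin]; omega) (h3 (t a) (t b) (t c))
    rw [← mul_zero (wt t a * wt t b * wt t c), ← h, Finset.mul_sum]
    refine Finset.sum_congr rfl fun i _ => ?_
    ring

/-- `P` vanishes on the crossing quadruples -/
def Van {n e : ℕ} (t : Fin n → K) (W : Fin n → Fin n → Fin n → ZMod 2)
    (P : Fin (e + 1) → Fin (e + 1) → K[X][X]) : Prop :=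
  ∀ a b c d, RedK.Dist4 a b c d → xK W a b c d = 1 → evP P (t a) (t c) (t b) (t d) = 0

/-- **key step**: the relation at the vertex `v`. -/
theorem at_vertex {n e s : ℕ} (hn : n = 2 * e + 5) {t : Fin n → K} (ht : Function.Injective t)
    (W : Fin n → Fin n → Fin n → ZMod 2) (hW0 : ∀ v a, W v a a = 0) (hs : s ≤ e + 2)
    (P : Fin (e + 1) → Fin (e + 1) → K[X][X]) (hP : ∀ a b, Box s (P a b)) (hvan : Van t W P)
    (v : Fin n) (A B : Finset (Fin n)) (_hAB : Disjoint A B) (hU : A ∪ B = univ.erase v)
    (hA : A.card = e + 2) (hB : B.card = e + 2) :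
    ∑ b ∈ univ.erase v, ∑ d ∈ univ.erase v,
      (if b ≠ d ∧ xK W v b v d = 1 then wt t b * wt t d * ((t b + t v) * (t d + t v)) *
        evP P (t v) (t v) (t b) (t d) else 0) *
      (∏ q ∈ A, (t b + t q)) * (∏ q ∈ B, (t d + t q)) = 0 := by
  classical
  have hA0 : IsP (e + 2) (fun x : K => ∏ q ∈ A, (x + t q)) := by
    have := IsP.prod A t
    rwa [hA] at this
  have hB0 : IsP (e + 2) (fun x : K => ∏ q ∈ B, (x + t q)) := by
    have := IsP.prod B t
    rwa [hB] at this
  have hzero : ∀ c : Fin n, c ≠ v →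
      (∏ q ∈ A, (t c + t q)) * (∏ q ∈ B, (t c + t q)) = 0 := by
    intro c hc
    have h1 : c ∈ A ∪ B := by rw [hU]; exact Finset.mem_erase.2 ⟨hc, mem_univ _⟩
    rcases Finset.mem_union.1 h1 with h2 | h2
    · rw [Finset.prod_eq_zero h2 (CharTwo.add_self_eq_zero (t c)), zero_mul]
    · rw [Finset.prod_eq_zero h2 (CharTwo.add_self_eq_zero (t c)), mul_zero]
  have hne : ∀ {c : Fin n}, c ∈ A ∪ B → t v + t c ≠ 0 := by
    intro c hc h0
    rw [← CharTwo.sub_eq_add, sub_eq_zero] at h0
    rw [hU] at hc
    exact (Finset.mem_erase.1 hc).1 (ht h0).symm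
  have h := total_zero hn ht W
    (fun x y z w => evP P x z y w * (∏ q ∈ A, (x + t q)) * (∏ q ∈ A, (y + t q)) *
      (∏ q ∈ B, (z + t q)) * (∏ q ∈ B, (w + t q)) * (y + t v) * (w + t v))
    (fun y z w => by
      refine IsP.mono ?_ (by omega : (e + 1) + (e + 2) ≤ 2 * e + 3)
      exact (((((((isP_evP_x (d := e + 1) (by omega) hP z y w).mul hA0).mul_const _).mul_const
        _).mul_const _).mul_const _).mul_const _))
    (fun x z w => by
      refine IsP.mono ?_ (by omega : e + (e + 2) + 1 ≤ 2 * e + 3)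
      exact ((((((isP_evP_z P x z w).mul_const _).mul hA0).mul_const _).mul_const _).mul
        (IsP.add_const (t v))).mul_const _)
    (fun x y w => by
      refine IsP.mono ?_ (by omega : (e + 1) + (e + 2) ≤ 2 * e + 3)
      exact (((((((isP_evP_y (d := e + 1) (by omega) hP x y w).mul_const _).mul_const _).mul
        hB0).mul_const _).mul_const _).mul_const _))
    (fun x y z => by
      refine IsP.mono ?_ (by omega : e + (e + 2) + 1 ≤ 2 * e + 3)
      exact ((((((isP_evP_w P x z y).mul_const _).mul_const _).mul_const _).mul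
        hB0).mul_const _).mul (IsP.add_const (t v)))
  -- everything except `a = c = v` dies
  have hterm : ∀ a b c d : Fin n, ¬ (a = v ∧ c = v) → phi K (xK W a b c d) *
      (wt t a * wt t b * wt t c * wt t d * (evP P (t a) (t c) (t b) (t d) *
        (∏ q ∈ A, (t a + t q)) * (∏ q ∈ A, (t b + t q)) * (∏ q ∈ B, (t c + t q)) *
        (∏ q ∈ B, (t d + t q)) * (t b + t v) * (t d + t v))) = 0 := by
    intro a b c d hac
    by_cases hab : a = b
    · subst hab; rw [xK_aa W hW0]; simp
    by_cases hcd : c = d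
    · subst hcd; rw [xK_cc W hW0]; simp
    by_cases e1 : a = c
    · subst e1
      have hav : a ≠ v := fun h => hac ⟨h, h⟩
      linear_combination (phi K (xK W a b a d) * (wt t a * wt t b * wt t a * wt t d *
        (evP P (t a) (t a) (t b) (t d) * (∏ q ∈ A, (t b + t q)) *
        (∏ q ∈ B, (t d + t q)) * (t b + t v) * (t d + t v)))) * hzero a hav
    by_cases e2 : a = d
    · subst e2
      by_cases hav : a = v
      · subst hav; rw [CharTwo.add_self_eq_zero]; ring
      · linear_combination (phi K (xK W a b c a) * (wt t a * wt t b * wt t c * wt t a *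
          (evP P (t a) (t c) (t b) (t a) * (∏ q ∈ A, (t b + t q)) *
          (∏ q ∈ B, (t c + t q)) * (t b + t v) * (t a + t v)))) * hzero a hav
    by_cases e3 : b = c
    · subst e3
      by_cases hbv : b = v
      · subst hbv; rw [CharTwo.add_self_eq_zero]; ring
      · linear_combination (phi K (xK W a b b d) * (wt t a * wt t b * wt t b * wt t d *
          (evP P (t a) (t b) (t b) (t d) * (∏ q ∈ A, (t a + t q)) *
          (∏ q ∈ B, (t d + t q)) * (t b + t v) * (t d + t v)))) * hzero b hbv
    by_cases e4 : b = d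
    · subst e4
      by_cases hbv : b = v
      · subst hbv; rw [CharTwo.add_self_eq_zero]; ring
      · linear_combination (phi K (xK W a b c b) * (wt t a * wt t b * wt t c * wt t b *
          (evP P (t a) (t c) (t b) (t b) * (∏ q ∈ A, (t a + t q)) *
          (∏ q ∈ B, (t c + t q)) * (t b + t v) * (t b + t v)))) * hzero b hbv
    rw [phi_mul]
    split_ifs with hx
    · rw [hvan a b c d ⟨hab, e1, e2, e3, e4, hcd⟩ hx]; ring
    · rfl
  rw [Finset.sum_eq_single v] at h
  · have h5 : ∑ b, ∑ c, ∑ d, phi K (xK W v b c d) *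
        (wt t v * wt t b * wt t c * wt t d * (evP P (t v) (t c) (t b) (t d) *
        (∏ q ∈ A, (t v + t q)) * (∏ q ∈ A, (t b + t q)) * (∏ q ∈ B, (t c + t q)) *
        (∏ q ∈ B, (t d + t q)) * (t b + t v) * (t d + t v))) =
        ∑ b, ∑ d, phi K (xK W v b v d) *
        (wt t v * wt t b * wt t v * wt t d * (evP P (t v) (t v) (t b) (t d) *
        (∏ q ∈ A, (t v + t q)) * (∏ q ∈ A, (t b + t q)) * (∏ q ∈ B, (t v + t q)) *
        (∏ q ∈ B, (t d + t q)) * (t b + t v) * (t d + t v))) := by
      refine Finset.sum_congr rfl fun b _ => ?_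
      refine Finset.sum_eq_single v ?_ ?_
      · intro c _ hc
        exact Finset.sum_eq_zero fun d _ => hterm v b c d (fun h => hc h.2)
      · intro h'; exact absurd (mem_univ _) h'
    rw [h5] at h
    have hc : wt t v * wt t v * ((∏ q ∈ A, (t v + t q)) * (∏ q ∈ B, (t v + t q))) ≠ 0 := by
      refine mul_ne_zero (mul_ne_zero (wt_ne_zero ht _) (wt_ne_zero ht _)) (mul_ne_zero ?_ ?_)
      · exact Finset.prod_ne_zero_iff.2 fun q hq => hne (Finset.mem_union_left _ hq)
      · exact Finset.prod_ne_zero_iff.2 fun q hq => hne (Finset.mem_union_right _ hq)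
    refine mul_left_cancel₀ hc (Eq.trans ?_ (h.trans (mul_zero _).symm))
    rw [Finset.mul_sum]
    rw [← Finset.add_sum_erase univ _ (mem_univ v)]
    have h6 : ∑ d, phi K (xK W v v v d) *
        (wt t v * wt t v * wt t v * wt t d * (evP P (t v) (t v) (t v) (t d) *
        (∏ q ∈ A, (t v + t q)) * (∏ q ∈ A, (t v + t q)) * (∏ q ∈ B, (t v + t q)) *
        (∏ q ∈ B, (t d + t q)) * (t v + t v) * (t d + t v))) = 0 := by
      refine Finset.sum_eq_zero fun d _ => ?_
      rw [CharTwo.add_self_eq_zero]; ring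
    rw [h6, zero_add]
    refine Finset.sum_congr rfl fun b hb => ?_
    rw [Finset.mul_sum]
    rw [← Finset.add_sum_erase univ _ (mem_univ v)]
    have h7 : phi K (xK W v b v v) *
        (wt t v * wt t b * wt t v * wt t v * (evP P (t v) (t v) (t b) (t v) *
        (∏ q ∈ A, (t v + t q)) * (∏ q ∈ A, (t b + t q)) * (∏ q ∈ B, (t v + t q)) *
        (∏ q ∈ B, (t v + t q)) * (t b + t v) * (t v + t v))) = 0 := by
      rw [CharTwo.add_self_eq_zero]; ring
    rw [h7, zero_add]
    refine Finset.sum_congr rfl fun d hd => ?_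
    by_cases hbd : b = d
    · subst hbd
      have := hzero b (Finset.mem_erase.1 hb).1
      rw [if_neg (fun h => h.1 rfl)]
      linear_combination (-(phi K (xK W v b v b) *
        (wt t v * wt t b * wt t v * wt t b * (evP P (t v) (t v) (t b) (t b) *
        (∏ q ∈ A, (t v + t q)) * (∏ q ∈ B, (t v + t q)) * (t b + t v) * (t b + t v))))) * this
    · rw [phi_mul]
      by_cases hx : xK W v b v d = 1
      · rw [if_pos ⟨hbd, hx⟩, if_pos hx]; ring
      · rw [if_neg (fun h => hx h.2), if_neg hx]; ring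
  · intro a _ ha
    exact Finset.sum_eq_zero fun b _ => Finset.sum_eq_zero fun c _ =>
      Finset.sum_eq_zero fun d _ => hterm a b c d (fun h => ha h.1)
  · intro h'; exact absurd (mem_univ _) h'

end Crest.Agent.R36.Kn590
end

-- ▼ part R36/Kn590c

/-! R36 / KN (helper590), part 3: injectivity (N), isotropy, `KnF2 (2 r + 1)`. -/

set_option autoImplicit false
open Polynomial Finset

namespace Crest.Agent.R36.Kn590

open Crest.Agent.R36.Bip127 (IsP wt wt_ne_zero phi phi_mul Box evP ev isP_ev_left isP_ev_right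
  isP_evP_x isP_evP_y isP_evP_z isP_evP_w VV toP toP_box toP_inj evL evP_toP eval_eval_X F1)
open Crest.Agent.R36.G172 (xK SK mem_SK xK_swap1 xK_swap2 KnF2 iv iv_lt_swap)
open Crest.Agent.R036

variable {K : Type*} [Field K] [CharP K 2]

/-- The restriction of `P` to the vertex `v` vanishes. -/
theorem vertex_zero {n e s : ℕ} (hn : n = 2 * e + 5) {t : Fin n → K}
    (D : Fin n → Derivation ℤ K K) (hD : ∀ i j, D i (t j) = if i = j then 1 else 0)
    (W : Fin n → Fin n → Fin n → ZMod 2) (hW0 : ∀ v a, W v a a = 0) (hs : s ≤ e + 2)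
    (P : Fin (e + 1) → Fin (e + 1) → K[X][X]) (hP : ∀ a b, Box s (P a b)) (hvan : Van t W P)
    (v : Fin n) (a b : Fin (e + 1)) : (P a b).evalEval (t v) (t v) = 0 := by
  classical
  have ht : Function.Injective t := TL100.injective_of_der t D hD
  have hEc : (univ.erase v : Finset (Fin n)).card = 2 * (e + 2) := by
    rw [Finset.card_erase_of_mem (mem_univ _), Finset.card_univ, Fintype.card_fin]; omega
  obtain ⟨q, hq⟩ : (univ.erase v : Finset (Fin n)).Nonempty := by
    rw [← Finset.card_pos, hEc]; omega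
  have hqv : q ≠ v := (Finset.mem_erase.1 hq).1
  have H := Exch413.exch' t (univ.erase v) ht.injOn (e + 2) (by omega) hEc
    (fun b d => if b ≠ d ∧ xK W v b v d = 1 then wt t b * wt t d * ((t b + t v) * (t d + t v)) *
        evP P (t v) (t v) (t b) (t d) else 0)
    (fun A B hAB hU hA hB => at_vertex hn ht W hW0 hs P hP hvan v A B hAB hU hA hB) q hq
  have hSc : Fintype.card ((univ.erase v).erase q : Finset (Fin n)) = 2 * e + 3 := by
    rw [Fintype.card_coe, Finset.card_erase_of_mem hq, hEc]; omega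
  have key := TL100.tournament (fun x : ((univ.erase v).erase q : Finset (Fin n)) => t x.1)
    (fun x => D x.1) (fun x y => by
      rw [hD]
      by_cases h : x = y
      · rw [if_pos h, if_pos (congrArg Subtype.val h)]
      · rw [if_neg h, if_neg (fun h' => h (Subtype.ext h'))]) e hSc
    (fun x y => xK W v x.1 v y.1) (fun x y hxy => by
      refine xK_tour W v ?_ ?_ (fun h => hxy (Subtype.ext h))
      · exact (Finset.mem_erase.1 (Finset.mem_erase.1 x.2).2).1.symm
      · exact (Finset.mem_erase.1 (Finset.mem_erase.1 y.2).2).1.symm)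
    (fun a b => if h : a < e + 1 ∧ b < e + 1 then
      (P ⟨a, h.1⟩ ⟨b, h.2⟩).evalEval (t v) (t v) else 0) (by
      intro a' ha' b' hb'
      have h1 := H a' (by omega) b' (by omega)
      rw [← Finset.sum_coe_sort ((univ.erase v).erase q)] at h1
      refine Eq.trans ?_ h1
      refine Finset.sum_congr rfl fun x _ => ?_
      rw [← Finset.sum_coe_sort ((univ.erase v).erase q)]
      refine Finset.sum_congr rfl fun y _ => ?_
      by_cases hxy : x = y
      · subst hxy
        simp
      · have hxy' : x.1 ≠ y.1 := fun h => hxy (Subtype.ext h)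
        by_cases hx : xK W v x.1 v y.1 = 1
        · rw [if_pos ⟨hxy, hx⟩, if_pos ⟨hxy', hx⟩, om_sub t ht v q hqv x, om_sub t ht v q hqv y]
          have h2 : ∑ a ∈ range (e + 1), ∑ b ∈ range (e + 1),
              (if h : a < e + 1 ∧ b < e + 1 then
                (P ⟨a, h.1⟩ ⟨b, h.2⟩).evalEval (t v) (t v) else 0) * t x.1 ^ a * t y.1 ^ b =
              evP P (t v) (t v) (t x.1) (t y.1) := by
            unfold evP ev
            rw [Finset.sum_range]
            refine Finset.sum_congr rfl fun a _ => ?_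
            rw [Finset.sum_range]
            refine Finset.sum_congr rfl fun b _ => ?_
            rw [dif_pos ⟨a.2, b.2⟩]
          rw [h2]
          ring
        · rw [if_neg (fun h => hx h.2), if_neg (fun h => hx h.2)]
          ring)
  have h3 := key (a : ℕ) (by omega) (b : ℕ) (by omega)
  rw [dif_pos ⟨a.2, b.2⟩] at h3
  exact h3

/-- **(N)** -/
theorem injective_aux {n e : ℕ} (hn : n = 2 * e + 5) {t : Fin n → K}
    (D : Fin n → Derivation ℤ K K) (hD : ∀ i j, D i (t j) = if i = j then 1 else 0)
    (W : Fin n → Fin n → Fin n → ZMod 2) (hW0 : ∀ v a, W v a a = 0) :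
    ∀ s, s ≤ e + 2 → ∀ P : Fin (e + 1) → Fin (e + 1) → K[X][X], (∀ a b, Box s (P a b)) →
      Van t W P → P = 0 := by
  have ht : Function.Injective t := TL100.injective_of_der t D hD
  intro s
  induction s with
  | zero =>
    intro _ P hP _
    ext a b n i
    exact hP a b n i (Or.inl (Nat.zero_le _))
  | succ s ih =>
    intro hs P hP hvan
    have hdiag2 : ∀ a b, (P a b).eval X = 0 := by
      intro a b
      refine eq_zero_of_natDegree_lt_card_of_eval_eq_zero (ι := Fin n) _ ht ?_ ?_
      · intro i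
        have h1 := vertex_zero hn D hD W hW0 hs P hP hvan i a b
        rw [← h1]
        exact eval_eval_X _ _
      · rw [Fintype.card_fin]
        have := (hP a b).diag (d := e + 1) (by omega)
        omega
    choose Q hQbox hPQ using fun a b => (hP a b).divide (hdiag2 a b)
    have hPQ2 : ∀ x y z w, evP P x y z w = (y - x) * evP Q x y z w := by
      intro x y z w
      unfold evP ev
      rw [Finset.mul_sum]
      refine Finset.sum_congr rfl fun a _ => ?_
      rw [Finset.mul_sum]
      refine Finset.sum_congr rfl fun b _ => ?_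
      show (P a b).evalEval x y * z ^ (a : ℕ) * w ^ (b : ℕ) =
        (y - x) * ((Q a b).evalEval x y * z ^ (a : ℕ) * w ^ (b : ℕ))
      rw [hPQ a b, evalEval_mul, evalEval_sub, evalEval_X, evalEval_C, eval_X]
      ring
    have hQ0 := ih (by omega) Q hQbox (fun a b c d hdist hx => by
      have h1 := hvan a b c d hdist hx
      rw [hPQ2] at h1
      refine (mul_eq_zero.1 h1).resolve_left fun h2 => ?_
      exact hdist.2.1 (ht (sub_eq_zero.1 h2)).symm)
    ext1 a
    ext1 b
    rw [hPQ a b, hQ0]
    simp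

/-- the involution `(a,b,c,d) ↦ (b,a,d,c)` -/
def sw {n : ℕ} (q : Fin n × Fin n × Fin n × Fin n) : Fin n × Fin n × Fin n × Fin n :=
  (q.2.1, q.1, q.2.2.2, q.2.2.1)

/-- **The algebra of `K_n`.** -/
theorem kn_core {n e : ℕ} (hn : n = 2 * e + 5) {t : Fin n → K}
    (D : Fin n → Derivation ℤ K K) (hD : ∀ i j, D i (t j) = if i = j then 1 else 0)
    (W : Fin n → Fin n → Fin n → ZMod 2) (hW : ∀ v a b, W v a b = W v b a)
    (hW0 : ∀ v a, W v a a = 0) :
    2 * ((e + 2) * (e + 2) * (e + 1) * (e + 1)) ≤ (SK W).card := by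
  classical
  have ht : Function.Injective t := TL100.injective_of_der t D hD
  have hne : ∀ {i k : Fin n}, i ≠ k → t i + t k ≠ 0 := by
    intro i k hik h0
    rw [← CharTwo.sub_eq_add, sub_eq_zero] at h0
    exact hik (ht h0)
  let E : VV K (e + 1) e →ₗ[K] ((Fin n × Fin n × Fin n × Fin n) → K) :=
    LinearMap.pi fun q => evL (t q.1) (t q.2.2.1) (t q.2.1) (t q.2.2.2)
  have hE : ∀ c q, E c q = evP (toP c) (t q.1) (t q.2.2.1) (t q.2.1) (t q.2.2.2) :=
    fun c q => (evP_toP c _ _ _ _).symm
  have key := G172.half_card (K := K) (V := VV K (e + 1) e) (SK W) sw ?_ ?_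
    (fun q => wt t q.1 * wt t q.2.1 * wt t q.2.2.1 * wt t q.2.2.2 *
      ((t q.1 + t q.2.2.1) * (t q.1 + t q.2.2.2) * (t q.2.1 + t q.2.2.1) *
        (t q.2.1 + t q.2.2.2))) ?_ E ?_ ?_
  · refine le_trans (le_of_eq ?_) key
    congr 1
    simp only [Module.finrank_pi_fintype, Module.finrank_self, Finset.sum_const, Finset.card_univ,
      Fintype.card_fin, smul_eq_mul, mul_one]
    ring
  · rintro ⟨a, b, c, d⟩ hq
    obtain ⟨⟨n1, n2, n3, n4, n5, n6⟩, hx⟩ := mem_SK.1 hq
    refine mem_SK.2 ⟨⟨n1.symm, n5, n4, n3, n2, n6.symm⟩, ?_⟩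
    simp only [sw] at hx ⊢
    rw [xK_swap1 W hW, xK_swap2 W hW]
    exact hx
  · rintro ⟨a, b, c, d⟩ _; rfl
  · rintro ⟨a, b, c, d⟩ hq
    obtain ⟨⟨n1, n2, n3, n4, n5, n6⟩, hx⟩ := mem_SK.1 hq
    exact mul_ne_zero (mul_ne_zero (mul_ne_zero (mul_ne_zero (wt_ne_zero ht _) (wt_ne_zero ht _))
      (wt_ne_zero ht _)) (wt_ne_zero ht _)) (mul_ne_zero (mul_ne_zero (mul_ne_zero (hne n2)
      (hne n3)) (hne n4)) (hne n5))
  · intro P Q
    have h := total_zero hn ht W
      (fun x y z w => (x + z) * (x + w) * (y + z) * (y + w) * evP (toP P) x z y w *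
        evP (toP Q) y w x z)
      (fun y z w => by
        refine IsP.mono ?_ (by omega : 1 + 1 + (e + 1) + e ≤ 2 * e + 3)
        exact ((((((IsP.add_const z).mul (IsP.add_const w)).mul_const (y + z)).mul_const
          (y + w)).mul (isP_evP_x (d := e + 1) (by omega) (toP_box P) z y w)).mul
            (isP_evP_z (toP Q) y w z)))
      (fun x z w => by
        refine IsP.mono ?_ (by omega : 1 + 1 + e + (e + 1) ≤ 2 * e + 3)
        exact ((((((IsP.add_const z).const_mul ((x + z) * (x + w))).mul (IsP.add_const w)).mul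
          (isP_evP_z (toP P) x z w)).mul
            (isP_evP_x (d := e + 1) (by omega) (toP_box Q) w x z))))
      (fun x y w => by
        refine IsP.mono ?_ (by omega : 1 + 1 + (e + 1) + e ≤ 2 * e + 3)
        simp only [add_comm x, add_comm y]
        exact (((((((IsP.add_const x).mul_const (w + x)).mul (IsP.add_const y)).mul_const
          (w + y)).mul (isP_evP_y (d := e + 1) (by omega) (toP_box P) x y w)).mul
            (isP_evP_w (toP Q) y w x))))
      (fun x y z => by
        refine IsP.mono ?_ (by omega : 1 + 1 + e + (e + 1) ≤ 2 * e + 3)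
        simp only [add_comm x, add_comm y]
        exact (((((((IsP.add_const x).const_mul (z + x)).mul_const (z + y)).mul
          (IsP.add_const y)).mul (isP_evP_w (toP P) x z y)).mul
            (isP_evP_y (d := e + 1) (by omega) (toP_box Q) y x z))))
    rw [← h, SK, Finset.sum_filter, Fintype.sum_prod_type]
    refine Finset.sum_congr rfl fun a _ => ?_
    rw [Fintype.sum_prod_type]
    refine Finset.sum_congr rfl fun b _ => ?_
    rw [Fintype.sum_prod_type]
    refine Finset.sum_congr rfl fun c _ => Finset.sum_congr rfl fun d _ => ?_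
    rw [phi_mul]
    simp only [hE, sw]
    by_cases hab : a = b
    · subst hab
      rw [xK_aa W hW0, if_neg (fun h => h.1.1 rfl), if_neg (by decide)]
    by_cases hcd : c = d
    · subst hcd
      rw [xK_cc W hW0, if_neg (fun h => h.1.2.2.2.2.2 rfl), if_neg (by decide)]
    by_cases e1 : a = c
    · subst e1
      rw [if_neg (fun h => h.1.2.1 rfl), CharTwo.add_self_eq_zero]
      split_ifs <;> ring
    by_cases e2 : a = d
    · subst e2
      rw [if_neg (fun h => h.1.2.2.1 rfl), CharTwo.add_self_eq_zero (t a)]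
      split_ifs <;> ring
    by_cases e3 : b = c
    · subst e3
      rw [if_neg (fun h => h.1.2.2.2.1 rfl), CharTwo.add_self_eq_zero (t b)]
      split_ifs <;> ring
    by_cases e4 : b = d
    · subst e4
      rw [if_neg (fun h => h.1.2.2.2.2.1 rfl), CharTwo.add_self_eq_zero (t b)]
      split_ifs <;> ring
    by_cases hx : xK W a b c d = 1
    · rw [if_pos ⟨⟨hab, e1, e2, e3, e4, hcd⟩, hx⟩, if_pos hx]
      ring
    · rw [if_neg (fun h => hx h.2), if_neg hx]
  · intro P hP
    refine toP_inj P (injective_aux hn D hD W hW0 (e + 2) le_rfl (toP P) (toP_box P) ?_)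
    intro a b c d hdist hx
    have h1 := hP (a, b, c, d) (mem_SK.2 ⟨hdist, hx⟩)
    rw [hE] at h1
    exact h1

/-- **`KnF2 (2 r + 1)` for `r ≥ 2`.** -/
theorem knF2_odd (r : ℕ) (hr : 2 ≤ r) : KnF2 (2 * r + 1) := by
  classical
  intro W hW
  obtain ⟨e, rfl⟩ : ∃ e, r = e + 2 := ⟨r - 2, by omega⟩
  obtain ⟨K, _, _, _, t, D, hD⟩ := Gen259.exists_field (2 * (e + 2) + 1)
  set W0 : Fin (2 * (e + 2) + 1) → Fin (2 * (e + 2) + 1) → Fin (2 * (e + 2) + 1) → ZMod 2 :=
    fun v a b => if a = b then 0 else W v a b with hW0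
  have h1 := kn_core (K := K) (n := 2 * (e + 2) + 1) (e := e) (by ring) D hD W0
    (fun v a b => by simp only [hW0, eq_comm (a := a) (b := b), hW v a b]) (fun v a => by simp [hW0])
  have h2 : SK W0 = SK W := by
    ext ⟨a, b, c, d⟩
    rw [mem_SK, mem_SK]
    refine and_congr_right fun hdist => ?_
    obtain ⟨n1, n2, n3, n4, n5, n6⟩ := hdist
    simp only at n1 n2 n3 n4 n5 n6
    simp only [xK, hW0, if_neg n1, if_neg n6]
  rw [h2] at h1
  have e1 : (2 * (e + 2) + 1) / 2 = e + 2 := by omega
  have e2 : (2 * (e + 2) + 1 - 1) / 2 = e + 2 := by omega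
  have e3 : (2 * (e + 2) + 1 - 2) / 2 = e + 1 := by omega
  have e4 : (2 * (e + 2) + 1 - 3) / 2 = e + 1 := by omega
  rw [e1, e2, e3, e4]
  exact h1

end Crest.Agent.R36.Kn590
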